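import Vale.Agent.P146.H693.Law2
import Vale.Agent.P146.H130.GTwo

/-!
Plan R2, B0: the two level law for the literal `R1C.GTwo` (`H130/GTwo.lean`), the total mass, and
the numbers of row F0 as means of this law.
-/

open MeasureTheory ProbabilityTheory

namespace Vale.Agent.P146.H693

open Vale.Agent.P157.Lv Vale.Agent.P146.H425 Vale.Agent.P146.H712 Vale.Agent.P146.R1
  Vale.Agent.P146.R1C
open Vale.Agent.P146.H785 (Ax)

set_option linter.unusedSectionVars false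

variable {κ : Type} [Fintype κ] {F : (κ → ℝ) → ℝ} {D : κ → (κ → ℝ) → ℝ}
  {B L : ℝ} {q : Par} {y l : ℝ} {α β γ δ : (κ → ℝ) → ℝ}

lemma gI_neg' : (gI κ).map (fun z => -z) = gI κ := by
  have e : (fun z : κ → ℝ => -z) = fun z i => (fun x : ℝ => -x) (z i) := by
    funext z i; rfl
  have hm : (gaussianReal 0 1).map (fun x : ℝ => -x) = gaussianReal 0 1 := by
    rw [gaussianReal_map_neg]; simp
  have : ∀ _ : κ, SigmaFinite ((gaussianReal 0 1).map (fun x : ℝ => -x)) := by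
    intro _; rw [hm]; infer_instance
  rw [e, Measure.pi_map_pi (μ := fun _ : κ => gaussianReal 0 1) (f := fun _ x => -x)
    (fun i => by fun_prop)]
  simp only [hm]

lemma int_neg' {G : (κ → ℝ) → ℝ} (hG : Measurable G) :
    ∫ z, G (-z) ∂(gI κ) = ∫ z, G z ∂(gI κ) := by
  conv_rhs => rw [← gI_neg']
  rw [integral_map (by fun_prop) hG.aestronglyMeasurable]

lemma int_negs {G : (κ → ℝ) → ℝ} (hG : Measurable G) (z : κ → ℝ) (s : ℝ) :
    ∫ g, G (z + (-s) • g) ∂(gI κ) = ∫ g, G (z + s • g) ∂(gI κ) := by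
  have h := int_neg' (G := fun g : κ → ℝ => G (z + s • g)) (hG.comp (by fun_prop))
  rw [← h]
  refine integral_congr_ae (Filter.Eventually.of_forall fun g => ?_)
  simp only [neg_smul, smul_neg]

lemma Ax_negs {U φ : (κ → ℝ) → ℝ} (hU : Measurable U) (hφ : Measurable φ) (x s : ℝ)
    (z : κ → ℝ) : Ax x (-s) U φ z = Ax x s U φ z := by
  unfold Ax
  rw [int_negs (G := fun v => Real.exp (x * U v) * φ v) (by fun_prop) z s,
    int_negs (G := fun v => Real.exp (x * U v)) (by fun_prop) z s]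

lemma W_negs {U : (κ → ℝ) → ℝ} (hU : Measurable U) (x s : ℝ)
    (z : κ → ℝ) : W x (-s) U z = W x s U z := by
  unfold W
  rw [int_negs (G := fun v => Real.exp (x * U v)) (by fun_prop) z s]

lemma sb_eq (hl : 0 ≤ l) (ht : q.t0 ≤ q.t1 - l) : sb q l = -R1C.cc q l := by
  unfold sb R1C.cc
  rw [Real.sqrt_div (mul_nonneg hl (by linarith)), Real.sqrt_mul hl, mul_comm (√l)]

lemma la_eq : la q l = R1C.cb q l := rfl

lemma la_eq' (h1 : q.t0 < q.t1) : 1 - la q l = R1C.ca q l := by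
  have : q.t1 - q.t0 ≠ 0 := by linarith
  unfold la R1C.ca
  field_simp
  ring

variable [DecidableEq κ]

lemma meas_negU2 (h : C11 F D B L) (hx : 0 < q.x) (hy : 0 < y) (l : ℝ) :
    Measurable fun z => -U2 q y l F z := by
  obtain ⟨B', L', hU⟩ := c11_U2 h hx hy l
  exact ((c11_neg hU).lip.lip (c11_neg hU).B0).eg.meas

/-- the bridge means agree -/
lemma Br_eq (h : C11 F D B L) (hx : 0 < q.x) (hy : 0 < y) (hl : 0 ≤ l)
    (ht : q.t0 ≤ q.t1 - l) (h1 : q.t0 < q.t1) (hβ : EG β) (z0 z1 : κ → ℝ) :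
    R1C.Br q y l F β z0 z1 = Bc q y l F β z0 z1 := by
  unfold R1C.Br Bc
  rw [sb_eq hl ht, Ax_negs (meas_negU2 h hx hy l) hβ.meas, la_eq' h1]
  have e : (fun z => -1 * R1C.V2 q y l F z) = fun z => -U2 q y l F z := by
    funext z
    rw [neg_one_mul]
    rfl
  rw [e]
  rfl

/-- the base log densities agree -/
lemma GTwo_f_eq (h : C11 F D B L) (hx : 0 < q.x) (hy : 0 < y) (hl : 0 ≤ l)
    (ht : q.t0 ≤ q.t1 - l) (h1 : q.t0 < q.t1) (z0 z1 : κ → ℝ) :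
    (R1C.GTwo q y l F D).f z0 z1 = (GTwo q y l F D).f z0 z1 := by
  have e : (fun z => -1 * R1C.V2 q y l F z) = fun z => -U2 q y l F z := by
    funext z
    rw [neg_one_mul]
    rfl
  simp only [R1C.GTwo, G3, GTwo, zero_add]
  rw [e, sb_eq hl ht, W_negs (meas_negU2 h hx hy l), la_eq' h1]
  have e2 : (y - q.x) = -(q.x - y) := by ring
  rw [e2]
  rfl

lemma EwG_GTwo (h : C11 F D B L) (hx : 0 < q.x) (hy : 0 < y) (hl : 0 ≤ l)
    (ht : q.t0 ≤ q.t1 - l) (h1 : q.t0 < q.t1) (Φ : (K4 κ → ℝ) → ℝ) :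
    EwG q (R1C.GTwo q y l F D) F Φ = EwG q (GTwo q y l F D) F Φ := by
  unfold EwG densG psiG
  simp only [GTwo_f_eq h hx hy hl ht h1]

/-- **the two level law** for the literal `R1C.GTwo` -/
theorem lawT (h : C11 F D B L) (hx : 0 < q.x) (hy : 0 < y) (hl : 0 < l)
    (ht : q.t0 ≤ q.t1 - l) (hs1 : q.t1 ≤ q.s1) (hs2 : q.s1 ≤ q.s2) (hs3 : q.s2 ≤ 1)
    (hα : EG α) (hβ : EG β) (hγ : EG γ) (hδ : EG δ) :
    EwG q (R1C.GTwo q y l F D) F (fun w => α (P0 q w) * (R1C.Br q y l F β (P0 q w) (P1 q w) *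
      γ (P1 q w) * δ (P3 q w))) =
    ∫ g0, α (√q.t0 • g0) * ∫ g1, β (√q.t0 • g0 + √(q.t1 - l - q.t0) • g1) *
      Ax y (√l) (uu q.x q.t1 F) (fun z => γ z * Ax q.x (√(q.s2 - q.t1)) (uu q.x q.s2 F) δ z)
        (√q.t0 • g0 + √(q.t1 - l - q.t0) • g1) ∂(gI κ) ∂(gI κ) := by
  have h1 : q.t0 < q.t1 := by linarith
  rw [EwG_GTwo h hx hy hl.le ht h1, ← law2 (B := B) (L := L) (D := D) h hx hy hl ht hs1 hs2 hs3
    hα hβ hγ hδ]
  simp only [Br_eq h hx hy hl.le ht h1 hβ]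

lemma Bc_one (h : C11 F D B L) (hx : 0 < q.x) (hy : 0 < y) (l c : ℝ) (z0 z1 : κ → ℝ) :
    Bc q y l F (fun _ => c) z0 z1 = c := by
  obtain ⟨B', L', hU⟩ := c11_U2 h hx hy l
  exact H785.Ax_const (c11_neg hU).lip (c11_neg hU).B0 c _ _ _

/-- the total mass -/
theorem EwT_one (h : C11 F D B L) (hx : 0 < q.x) (hy : 0 < y) (hl : 0 < l)
    (ht : q.t0 ≤ q.t1 - l) (hs1 : q.t1 ≤ q.s1) (hs2 : q.s1 ≤ q.s2) (hs3 : q.s2 ≤ 1) :
    EwG q (R1C.GTwo q y l F D) F (fun _ => 1) = 1 := by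
  have h1 : q.t0 < q.t1 := by linarith
  have key := lawT (B := B) (L := L) (D := D) (α := fun _ => 1) (β := fun _ => 1)
    (γ := fun _ => 1) (δ := fun _ => 1) h hx hy hl ht hs1 hs2 hs3 (EG.const 1) (EG.const 1)
    (EG.const 1) (EG.const 1)
  simp only [Br_eq h hx hy hl.le ht h1 (EG.const 1), Bc_one h hx hy, one_mul] at key
  have hu := fun t => c11_uu h hx t
  have e1 : Ax q.x (√(q.s2 - q.t1)) (uu q.x q.s2 F) (fun _ => (1 : ℝ)) = fun _ => 1 :=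
    funext fun z => H785.Ax_const (hu _).lip (hu q.s2).B0 1 _ _ z
  have e2 : ∀ z, Ax y (√l) (uu q.x q.t1 F) (fun _ => (1 : ℝ)) z = 1 := fun z =>
    H785.Ax_const (hu _).lip (hu q.t1).B0 1 _ _ z
  simp only [e1, e2, integral_const, probReal_univ, smul_eq_mul, mul_one] at key
  exact key

lemma EnT_eq (h : C11 F D B L) (hx : 0 < q.x) (hy : 0 < y) (hl : 0 < l)
    (ht : q.t0 ≤ q.t1 - l) (hs1 : q.t1 ≤ q.s1) (hs2 : q.s1 ≤ q.s2) (hs3 : q.s2 ≤ 1)
    (Φ : (K4 κ → ℝ) → ℝ) :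
    EnG q (R1C.GTwo q y l F D) F Φ = EwG q (R1C.GTwo q y l F D) F Φ := by
  unfold EnG
  rw [EwT_one h hx hy hl ht hs1 hs2 hs3, div_one]

end Vale.Agent.P146.H693
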