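import Vale.Agent.P146.H693.LawT

/-!
Plan R2, row F0 in the two level law `R1C.GTwo` on the coordinates `K4`: exponent `0` up to the
time `t1 - l`, exponent `y` on `[t1 - l, t1]`, exponent `x` on `[t1, s2]`.
-/

open MeasureTheory ProbabilityTheory

namespace Vale.Agent.P146.H693

open Vale.Agent.P157.Lv Vale.Agent.P146.H425 Vale.Agent.P146.H325 Vale.Agent.P146.H332
  Vale.Agent.P146.H712 Vale.Agent.P146.H816 Vale.Agent.P146.R1 Vale.Agent.P146.R1C Matrix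
  Vale.Agent.P146.R1S
open Vale.Agent.P146.H785 (Ax)

set_option linter.unusedSectionVars false

/-- the exponents, innermost layer first -/
noncomputable def m3 (q : Par) (y : ℝ) (i : ℕ) : ℝ := if i = 0 then q.x else if i = 1 then y else 0

/-- the standard deviations, innermost layer first -/
noncomputable def s3 (q : Par) (l : ℝ) (i : ℕ) : ℝ :=
  if i = 0 then √(q.s2 - q.t1) else if i = 1 then √l else √(q.t1 - l - q.t0)

lemma pm3 {q : Par} (hx : 0 < q.x) {y : ℝ} (hy : 0 < y) : Pm (m3 q y) 3 := by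
  intro j hj
  unfold m3
  have : j = 0 ∨ j = 1 := by omega
  rcases this with rfl | rfl
  · simpa using hx
  · simpa using hy

variable {n : ℕ} {k : ℝ} {q : Par} (S : CS n k q.x) (y l : ℝ)

/-- `Q_1 = E_1 [C ^ 2]`, the output weight -/
noncomputable def Yd (z : Pair n → ℝ) : Matrix (Fin n) (Fin n) ℝ :=
  QR S q.s2 (m3 q y) (s3 q l) 3 z

/-- the entries of the overlap matrix at the time `t1 - l` -/
noncomputable def Ca (i j : Fin n) (z : Pair n → ℝ) : ℝ :=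
  Ax y (√l) (uu q.x q.t1 S.F) (fun u => S.A q.t1 u i j) z

/-- `∑_b <Y, C H_b>` -/
noncomputable def nT (w : K4 (Pair n) → ℝ) : ℝ := T1 S q.s2 (Yd S y l (P0 q w)) (P3 q w)

/-- `<Y, C ^ 3>` -/
noncomputable def nA3 (w : K4 (Pair n) → ℝ) : ℝ := T3 S q.s2 (Yd S y l (P0 q w)) (P3 q w)

/-- `<Y, C ^ 2>` -/
noncomputable def nA (w : K4 (Pair n) → ℝ) : ℝ :=
  ∑ i, ∑ j, Yd S y l (P0 q w) i j * A2 S q.s2 i j (P3 q w)

/-- `<Y, C ^ 2 C_w>` -/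
noncomputable def nJw (w : K4 (Pair n) → ℝ) : ℝ :=
  ∑ i, ∑ j, Yd S y l (P0 q w) i j * ∑ b, A2 S q.s2 i b (P3 q w) * S.A q.t1 (P1 q w) b j

/-- `<Y, C ^ 2 C_a>`, the position at the time `t1 - l` integrated out -/
noncomputable def nJa (w : K4 (Pair n) → ℝ) : ℝ :=
  ∑ i, ∑ j, Yd S y l (P0 q w) i j * ∑ b, A2 S q.s2 i b (P3 q w) *
    R1C.Br q y l S.F (Ca S y l b j) (P0 q w) (P1 q w)

variable {S y l}

/-- the conditions on the times and the exponents -/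
structure Tm (q : Par) (y l : ℝ) : Prop where
  hy : 0 < y
  hl : 0 < l
  ht0 : 0 ≤ q.t0
  ht : q.t0 ≤ q.t1 - l
  h1 : q.t1 ≤ q.s1
  h2 : q.s1 ≤ q.s2
  h3 : q.s2 ≤ 1

lemma Ul1 (hT : Tm q y l) : Ul S q.s2 (m3 q y) (s3 q l) 1 = uu q.x q.t1 S.F := by
  funext z
  rw [uu_tw S (hT.h1.trans hT.h2) hT.h3 z]
  rfl

lemma Al0 (φ : (Pair n → ℝ) → ℝ) : Al S q.s2 (m3 q y) (s3 q l) 0 φ =
    Ax q.x (√(q.s2 - q.t1)) (uu q.x q.s2 S.F) φ := rfl

lemma Al1 (hT : Tm q y l) (φ : (Pair n → ℝ) → ℝ) : Al S q.s2 (m3 q y) (s3 q l) 1 φ =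
    Ax y (√l) (uu q.x q.t1 S.F) φ := by
  unfold Al
  rw [Ul1 hT]
  rfl

lemma Al2 (φ : (Pair n → ℝ) → ℝ) (z : Pair n → ℝ) : Al S q.s2 (m3 q y) (s3 q l) 2 φ z =
    ∫ g, φ (z + √(q.t1 - l - q.t0) • g) ∂(gI (Pair n)) := by
  have h1 : Al S q.s2 (m3 q y) (s3 q l) 2 φ z =
      Ax 0 (√(q.t1 - l - q.t0)) (Ul S q.s2 (m3 q y) (s3 q l) 2) φ z := rfl
  rw [h1]
  unfold Ax
  simp

lemma Cl1 (hT : Tm q y l) (i j : Fin n) :
    Cl S q.s2 (m3 q y) (s3 q l) 1 i j = fun u => S.A q.t1 u i j := by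
  funext z
  exact (A_tw S (hT.h1.trans hT.h2) hT.h3 z i j).symm

lemma Cl2 (hT : Tm q y l) (i j : Fin n) :
    Cl S q.s2 (m3 q y) (s3 q l) 2 i j = Ca S y l i j := by
  have h1 : Cl S q.s2 (m3 q y) (s3 q l) 2 i j =
      Al S q.s2 (m3 q y) (s3 q l) 1 (Cl S q.s2 (m3 q y) (s3 q l) 1 i j) := rfl
  rw [h1, Al1 hT, Cl1 hT]
  rfl

/-- products of functions of the four positions: from the flat law to the layers -/
theorem num_one (hT : Tm q y l) {α β γ δ : (Pair n → ℝ) → ℝ} (hα : EG α) (hβ : EG β)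
    (hγ : EG γ) (hδ : EG δ) :
    EwG q (R1C.GTwo q y l S.F S.D) S.F (fun w => α (P0 q w) *
      (R1C.Br q y l S.F β (P0 q w) (P1 q w) * γ (P1 q w) * δ (P3 q w))) =
    ∫ g, α (√q.t0 • g) * Al S q.s2 (m3 q y) (s3 q l) 2 (fun u => β u *
      Al S q.s2 (m3 q y) (s3 q l) 1 (fun v => γ v *
        Al S q.s2 (m3 q y) (s3 q l) 0 δ v) u) (√q.t0 • g) ∂(gI (Pair n)) := by
  rw [lawT S.c11 S.x0 hT.hy hT.hl hT.ht hT.h1 hT.h2 hT.h3 hα hβ hγ hδ]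
  simp only [Al2, Al1 hT, Al0]

lemma eg_num {α β γ δ : (Pair n → ℝ) → ℝ} (hT : Tm q y l) (hα : EG α) (hβ : EG β)
    (hγ : EG γ) (hδ : EG δ) : EG fun w : K4 (Pair n) → ℝ => α (P0 q w) *
      (R1C.Br q y l S.F β (P0 q w) (P1 q w) * γ (P1 q w) * δ (P3 q w)) := by
  have h1 : q.t0 < q.t1 := by linarith [hT.hl, hT.ht]
  have h := eg_law2 (l := l) S.c11 S.x0 hT.hy hα hβ hγ hδ
  simpa only [← Br_eq S.c11 S.x0 hT.hy hT.hl.le hT.ht h1 hβ] using h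

lemma eg_nest {β γ δ : (Pair n → ℝ) → ℝ} (hT : Tm q y l) (hβ : EG β)
    (hγ : EG γ) (hδ : EG δ) : EG fun z => Al S q.s2 (m3 q y) (s3 q l) 2 (fun u => β u *
      Al S q.s2 (m3 q y) (s3 q l) 1 (fun v => γ v *
        Al S q.s2 (m3 q y) (s3 q l) 0 δ v) u) z := by
  have hm := pm3 (q := q) S.x0 hT.hy
  have h0 := eg_Al (S := S) (t2 := q.s2) (σ := s3 q l) hδ 0 (hm.mono (by omega))
  have h1 := eg_Al (S := S) (t2 := q.s2) (σ := s3 q l) (hγ.mul h0) 1 (hm.mono (by omega))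
  exact eg_Al (S := S) (t2 := q.s2) (σ := s3 q l) (hβ.mul h1) 2 hm

/-- a sum of such products -/
theorem num_sum (hT : Tm q y l) {ι : Type} (T : Finset ι) {α β γ δ : ι → (Pair n → ℝ) → ℝ}
    (hα : ∀ i ∈ T, EG (α i)) (hβ : ∀ i ∈ T, EG (β i)) (hγ : ∀ i ∈ T, EG (γ i))
    (hδ : ∀ i ∈ T, EG (δ i)) :
    EwG q (R1C.GTwo q y l S.F S.D) S.F (fun w => ∑ i ∈ T, α i (P0 q w) *
      (R1C.Br q y l S.F (β i) (P0 q w) (P1 q w) * γ i (P1 q w) * δ i (P3 q w))) =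
    ∫ g, ∑ i ∈ T, α i (√q.t0 • g) * Al S q.s2 (m3 q y) (s3 q l) 2 (fun u => β i u *
      Al S q.s2 (m3 q y) (s3 q l) 1 (fun v => γ i v *
        Al S q.s2 (m3 q y) (s3 q l) 0 (δ i) v) u) (√q.t0 • g) ∂(gI (Pair n)) := by
  have eD : EG (densG q (R1C.GTwo q y l S.F S.D) S.F) :=
    eg_densG S.c11 S.x0 (R1C.GTwo_ok S.c11 S.x0 hT.hy l)
  have h1 : EwG q (R1C.GTwo q y l S.F S.D) S.F (fun w => ∑ i ∈ T, α i (P0 q w) *
      (R1C.Br q y l S.F (β i) (P0 q w) (P1 q w) * γ i (P1 q w) * δ i (P3 q w))) =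
      ∑ i ∈ T, EwG q (R1C.GTwo q y l S.F S.D) S.F (fun w => α i (P0 q w) *
      (R1C.Br q y l S.F (β i) (P0 q w) (P1 q w) * γ i (P1 q w) * δ i (P3 q w))) := by
    unfold EwG
    rw [← integral_finsetSum _ fun i hi => (eD.mul
      (eg_num hT (hα i hi) (hβ i hi) (hγ i hi) (hδ i hi))).integrable]
    refine integral_congr_ae (Filter.Eventually.of_forall fun w => ?_)
    simp only
    rw [Finset.mul_sum]
  rw [h1, integral_finsetSum _ fun i hi => ((eg_scale (hα i hi) (√q.t0)).mul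
    (eg_scale (eg_nest hT (hβ i hi) (hγ i hi) (hδ i hi)) (√q.t0))).integrable]
  exact Finset.sum_congr rfl fun i hi => num_one hT (hα i hi) (hβ i hi) (hγ i hi) (hδ i hi)

lemma Br_one (hT : Tm q y l) (z0 z1 : Pair n → ℝ) :
    R1C.Br q y l S.F (fun _ => 1) z0 z1 = 1 := by
  have h1 : q.t0 < q.t1 := by linarith [hT.hl, hT.ht]
  rw [Br_eq S.c11 S.x0 hT.hy hT.hl.le hT.ht h1 (EG.const 1), Bc_one S.c11 S.x0 hT.hy]

lemma Al_lin {m σ : ℕ → ℝ} {t : ℝ} (i : ℕ) (hm : Pm m (i + 1)) {ι : Type} (T : Finset ι)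
    (c : ι → ℝ) {ψ : ι → (Pair n → ℝ) → ℝ} (h : ∀ p ∈ T, EG (ψ p)) :
    Al S t m σ i (fun u => ∑ p ∈ T, c p * ψ p u) =
      fun z => ∑ p ∈ T, c p * Al S t m σ i (ψ p) z := by
  rw [Al_sum i hm T fun p hp => (h p hp).const_mul _]
  funext z
  exact Finset.sum_congr rfl fun p _ => by rw [Al_const_mul]

lemma eg_Yd (hT : Tm q y l) (i j : Fin n) : EG fun z => Yd S y l z i j :=
  eg_QR 3 (pm3 S.x0 hT.hy) i j

/-- `E <Y, C ^ 2> = E |Y|²` -/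
theorem num_A (hT : Tm q y l) : EwG q (R1C.GTwo q y l S.F S.D) S.F (nA S y l) =
    ∫ g, fr (Yd S y l (√q.t0 • g)) ∂(gI (Pair n)) := by
  have key := num_sum (S := S) hT (Finset.univ : Finset (Fin n × Fin n))
    (α := fun p z => Yd S y l z p.1 p.2) (β := fun _ _ => 1) (γ := fun _ _ => 1)
    (δ := fun p => A2 S q.s2 p.1 p.2) (fun p _ => eg_Yd hT _ _) (fun _ _ => EG.const 1)
    (fun _ _ => EG.const 1) (fun p _ => eg_A2 S q.s2 _ _)
  simp only [Br_one hT, one_mul, mul_one, Fintype.sum_prod_type] at key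
  refine Eq.trans key (integral_congr_ae (Filter.Eventually.of_forall fun g => ?_))
  simp only
  unfold fr
  exact Finset.sum_congr rfl fun i _ => Finset.sum_congr rfl fun j _ => (_root_.sq _).symm

lemma nest1 (hT : Tm q y l) {ι : Type} (T : Finset ι) (c : ι → ℝ)
    {ψ : ι → (Pair n → ℝ) → ℝ} (h : ∀ p ∈ T, EG (ψ p)) {z : Pair n → ℝ} :
    Al S q.s2 (m3 q y) (s3 q l) 2 (fun u => ∑ p ∈ T, c p * ψ p u) z =
      ∑ p ∈ T, c p * Al S q.s2 (m3 q y) (s3 q l) 2 (ψ p) z := by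
  rw [Al_lin 2 (pm3 (q := q) S.x0 hT.hy) T c h]

lemma nest2 (hT : Tm q y l) {ι : Type} (T : Finset ι) (c : ι → ℝ)
    {ψ : ι → (Pair n → ℝ) → ℝ} (h : ∀ p ∈ T, EG (ψ p)) {z : Pair n → ℝ} :
    Al S q.s2 (m3 q y) (s3 q l) 2 (Al S q.s2 (m3 q y) (s3 q l) 1
      (fun u => ∑ p ∈ T, c p * ψ p u)) z =
      ∑ p ∈ T, c p * Al S q.s2 (m3 q y) (s3 q l) 2 (Al S q.s2 (m3 q y) (s3 q l) 1 (ψ p)) z := by
  have hm := pm3 (q := q) S.x0 hT.hy
  rw [Al_lin 1 (hm.mono (by omega)) T c h]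
  exact nest1 hT T c fun p hp => eg_Al (h p hp) 1 (hm.mono (by omega))

lemma nest3 (hT : Tm q y l) {ι : Type} (T : Finset ι) (c : ι → ℝ)
    {ψ : ι → (Pair n → ℝ) → ℝ} (h : ∀ p ∈ T, EG (ψ p)) {z : Pair n → ℝ} :
    Al S q.s2 (m3 q y) (s3 q l) 2 (Al S q.s2 (m3 q y) (s3 q l) 1
      (Al S q.s2 (m3 q y) (s3 q l) 0 (fun u => ∑ p ∈ T, c p * ψ p u))) z =
      ∑ p ∈ T, c p * Al S q.s2 (m3 q y) (s3 q l) 2 (Al S q.s2 (m3 q y) (s3 q l) 1
        (Al S q.s2 (m3 q y) (s3 q l) 0 (ψ p))) z := by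
  have hm := pm3 (q := q) S.x0 hT.hy
  rw [Al_lin 0 (hm.mono (by omega)) T c h]
  exact nest2 hT T c fun p hp => eg_Al (h p hp) 0 (hm.mono (by omega))

/-- `E <Y, C H_b>` -/
theorem num_T (hT : Tm q y l) (ht2 : 0 < q.s2) :
    EwG q (R1C.GTwo q y l S.F S.D) S.F (nT S y l) =
    ∫ g, Tl S q.s2 (m3 q y) (s3 q l) (T1 S q.s2 (Yd S y l (√q.t0 • g))) 3 (√q.t0 • g)
      ∂(gI (Pair n)) := by
  have hm := pm3 (q := q) S.x0 hT.hy
  have eδ : ∀ p : Fin n × Fin n × Fin n, EG fun u => (S.A q.s2 u * S.H q.s2 p.1 u) p.2.1 p.2.2 :=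
    fun p => by
      simp only [Matrix.mul_apply]
      exact EG.sum _ fun l _ => (S.eg_A q.s2 _ l).mul (S.eg_H ht2 p.1 l _)
  have key := num_sum (S := S) hT (Finset.univ : Finset (Fin n × Fin n × Fin n))
    (α := fun p z => Yd S y l z p.2.1 p.2.2) (β := fun _ _ => 1) (γ := fun _ _ => 1)
    (δ := fun p u => (S.A q.s2 u * S.H q.s2 p.1 u) p.2.1 p.2.2) (fun p _ => eg_Yd hT _ _)
    (fun _ _ => EG.const 1) (fun _ _ => EG.const 1) (fun p _ => eδ p)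
  simp only [Br_one hT, one_mul] at key
  have e1 : nT S y l = fun w : K4 (Pair n) → ℝ => ∑ p : Fin n × Fin n × Fin n,
      Yd S y l (P0 q w) p.2.1 p.2.2 * (S.A q.s2 (P3 q w) * S.H q.s2 p.1 (P3 q w)) p.2.1 p.2.2 := by
    funext w
    simp only [Fintype.sum_prod_type]
    rfl
  rw [e1, key]
  refine integral_congr_ae (Filter.Eventually.of_forall fun g => ?_)
  simp only
  have e2 : T1 S q.s2 (Yd S y l (√q.t0 • g)) = fun u => ∑ p : Fin n × Fin n × Fin n,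
      Yd S y l (√q.t0 • g) p.2.1 p.2.2 * (S.A q.s2 u * S.H q.s2 p.1 u) p.2.1 p.2.2 := by
    funext u
    simp only [Fintype.sum_prod_type]
    rfl
  rw [e2]
  exact (nest3 hT _ _ fun p _ => eδ p).symm

/-- `E <Y, C ^ 3>` -/
theorem num_A3 (hT : Tm q y l) :
    EwG q (R1C.GTwo q y l S.F S.D) S.F (nA3 S y l) =
    ∫ g, Lf S q.s2 (m3 q y) (s3 q l) 0 (JJ S q.s2 (m3 q y) (s3 q l) 0 (Yd S y l (√q.t0 • g))) 3
      (√q.t0 • g) ∂(gI (Pair n)) := by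
  have hm := pm3 (q := q) S.x0 hT.hy
  have eδ : ∀ p : Fin n × Fin n × Fin n, EG fun u => A2 S q.s2 p.1 p.2.2 u *
      S.A q.s2 u p.2.2 p.2.1 := fun p => (eg_A2 S q.s2 _ _).mul (S.eg_A q.s2 _ _)
  have key := num_sum (S := S) hT (Finset.univ : Finset (Fin n × Fin n × Fin n))
    (α := fun p z => Yd S y l z p.1 p.2.1) (β := fun _ _ => 1) (γ := fun _ _ => 1)
    (δ := fun p u => A2 S q.s2 p.1 p.2.2 u * S.A q.s2 u p.2.2 p.2.1) (fun p _ => eg_Yd hT _ _)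
    (fun _ _ => EG.const 1) (fun _ _ => EG.const 1) (fun p _ => eδ p)
  simp only [Br_one hT, one_mul] at key
  have e1 : nA3 S y l = fun w : K4 (Pair n) → ℝ => ∑ p : Fin n × Fin n × Fin n,
      Yd S y l (P0 q w) p.1 p.2.1 * (A2 S q.s2 p.1 p.2.2 (P3 q w) *
        S.A q.s2 (P3 q w) p.2.2 p.2.1) := by
    funext w
    unfold nA3
    rw [T3_eq]
    simp only [Fintype.sum_prod_type, Finset.mul_sum]
  rw [e1, key]
  refine integral_congr_ae (Filter.Eventually.of_forall fun g => ?_)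
  simp only
  have e2 : JJ S q.s2 (m3 q y) (s3 q l) 0 (Yd S y l (√q.t0 • g)) = fun u =>
      ∑ p : Fin n × Fin n × Fin n, Yd S y l (√q.t0 • g) p.1 p.2.1 *
        (A2 S q.s2 p.1 p.2.2 u * S.A q.s2 u p.2.2 p.2.1) := by
    funext u
    unfold JJ
    simp only [Fintype.sum_prod_type, Finset.mul_sum]
    rfl
  rw [e2]
  exact (nest3 hT _ _ fun p _ => eδ p).symm

/-- `E <Y, C ^ 2 C_w>` -/
theorem num_Jw (hT : Tm q y l) :
    EwG q (R1C.GTwo q y l S.F S.D) S.F (nJw S y l) =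
    ∫ g, Lf S q.s2 (m3 q y) (s3 q l) 1 (JJ S q.s2 (m3 q y) (s3 q l) 1 (Yd S y l (√q.t0 • g))) 2
      (√q.t0 • g) ∂(gI (Pair n)) := by
  have hm := pm3 (q := q) S.x0 hT.hy
  have key := num_sum (S := S) hT (Finset.univ : Finset (Fin n × Fin n × Fin n))
    (α := fun p z => Yd S y l z p.1 p.2.1) (β := fun _ _ => 1)
    (γ := fun p u => S.A q.t1 u p.2.2 p.2.1)
    (δ := fun p => A2 S q.s2 p.1 p.2.2) (fun p _ => eg_Yd hT _ _)
    (fun _ _ => EG.const 1) (fun p _ => S.eg_A q.t1 _ _) (fun p _ => eg_A2 S q.s2 _ _)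
  simp only [Br_one hT, one_mul] at key
  have e1 : nJw S y l = fun w : K4 (Pair n) → ℝ => ∑ p : Fin n × Fin n × Fin n,
      Yd S y l (P0 q w) p.1 p.2.1 * (S.A q.t1 (P1 q w) p.2.2 p.2.1 *
        A2 S q.s2 p.1 p.2.2 (P3 q w)) := by
    funext w
    unfold nJw
    simp only [Fintype.sum_prod_type, Finset.mul_sum, mul_comm (A2 S q.s2 _ _ _)]
  rw [e1, key]
  refine integral_congr_ae (Filter.Eventually.of_forall fun g => ?_)
  simp only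
  have e2 : JJ S q.s2 (m3 q y) (s3 q l) 1 (Yd S y l (√q.t0 • g)) = fun u =>
      ∑ p : Fin n × Fin n × Fin n, Yd S y l (√q.t0 • g) p.1 p.2.1 *
        (S.A q.t1 u p.2.2 p.2.1 * Al S q.s2 (m3 q y) (s3 q l) 0 (A2 S q.s2 p.1 p.2.2) u) := by
    funext u
    unfold JJ
    simp only [Fintype.sum_prod_type, Finset.mul_sum, Cl1 hT]
    refine Finset.sum_congr rfl fun i _ => Finset.sum_congr rfl fun j _ =>
      Finset.sum_congr rfl fun b _ => ?_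
    rw [mul_comm (Gl S q.s2 (m3 q y) (s3 q l) 1 i b u)]
    rfl
  rw [e2]
  exact (nest2 hT _ _ fun p _ => (S.eg_A q.t1 _ _).mul
    (eg_Al (eg_A2 S q.s2 _ _) 0 (hm.mono (by omega)))).symm

/-- `E <Y, C ^ 2 C_a>` -/
theorem num_Ja (hT : Tm q y l) :
    EwG q (R1C.GTwo q y l S.F S.D) S.F (nJa S y l) =
    ∫ g, Lf S q.s2 (m3 q y) (s3 q l) 2 (JJ S q.s2 (m3 q y) (s3 q l) 2 (Yd S y l (√q.t0 • g))) 1
      (√q.t0 • g) ∂(gI (Pair n)) := by
  have hm := pm3 (q := q) S.x0 hT.hy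
  have eC : ∀ i j, EG (Ca S y l i j) := fun i j =>
    eg_Ax (c11_uu S.c11 S.x0 q.t1) (S.eg_A q.t1 i j) _ _
  have key := num_sum (S := S) hT (Finset.univ : Finset (Fin n × Fin n × Fin n))
    (α := fun p z => Yd S y l z p.1 p.2.1) (β := fun p => Ca S y l p.2.2 p.2.1)
    (γ := fun _ _ => 1) (δ := fun p => A2 S q.s2 p.1 p.2.2) (fun p _ => eg_Yd hT _ _)
    (fun p _ => eC _ _) (fun _ _ => EG.const 1) (fun p _ => eg_A2 S q.s2 _ _)
  simp only [one_mul, mul_one] at key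
  have e1 : nJa S y l = fun w : K4 (Pair n) → ℝ => ∑ p : Fin n × Fin n × Fin n,
      Yd S y l (P0 q w) p.1 p.2.1 * (R1C.Br q y l S.F (Ca S y l p.2.2 p.2.1) (P0 q w) (P1 q w) *
        A2 S q.s2 p.1 p.2.2 (P3 q w)) := by
    funext w
    unfold nJa
    simp only [Fintype.sum_prod_type, Finset.mul_sum, mul_comm (A2 S q.s2 _ _ _)]
  rw [e1, key]
  refine integral_congr_ae (Filter.Eventually.of_forall fun g => ?_)
  simp only
  have e2 : JJ S q.s2 (m3 q y) (s3 q l) 2 (Yd S y l (√q.t0 • g)) = fun u =>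
      ∑ p : Fin n × Fin n × Fin n, Yd S y l (√q.t0 • g) p.1 p.2.1 *
        (Ca S y l p.2.2 p.2.1 u * Al S q.s2 (m3 q y) (s3 q l) 1
          (Al S q.s2 (m3 q y) (s3 q l) 0 (A2 S q.s2 p.1 p.2.2)) u) := by
    funext u
    unfold JJ
    simp only [Fintype.sum_prod_type, Finset.mul_sum, Cl2 hT]
    refine Finset.sum_congr rfl fun i _ => Finset.sum_congr rfl fun j _ =>
      Finset.sum_congr rfl fun b _ => ?_
    rw [mul_comm (Gl S q.s2 (m3 q y) (s3 q l) 2 i b u)]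
    rfl
  rw [e2]
  exact (nest1 hT _ _ fun p _ => (eC _ _).mul
    (eg_Al (eg_Al (eg_A2 S q.s2 _ _) 0 (hm.mono (by omega))) 1 (hm.mono (by omega)))).symm

/-! ### the layered forms as functions of the deep position -/

lemma pt_T (hT : Tm q y l) (ht2 : 0 < q.s2) (M : Matrix (Fin n) (Fin n) ℝ) (z : Pair n → ℝ) :
    Tl S q.s2 (m3 q y) (s3 q l) (T1 S q.s2 M) 3 z = ∑ p : Fin n × Fin n × Fin n,
      M p.2.1 p.2.2 * Al S q.s2 (m3 q y) (s3 q l) 2 (Al S q.s2 (m3 q y) (s3 q l) 1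
        (Al S q.s2 (m3 q y) (s3 q l) 0
          fun u => (S.A q.s2 u * S.H q.s2 p.1 u) p.2.1 p.2.2)) z := by
  have eδ : ∀ p : Fin n × Fin n × Fin n, EG fun u => (S.A q.s2 u * S.H q.s2 p.1 u) p.2.1 p.2.2 :=
    fun p => by
      simp only [Matrix.mul_apply]
      exact EG.sum _ fun l _ => (S.eg_A q.s2 _ l).mul (S.eg_H ht2 p.1 l _)
  have e2 : T1 S q.s2 M = fun u => ∑ p : Fin n × Fin n × Fin n,
      M p.2.1 p.2.2 * (S.A q.s2 u * S.H q.s2 p.1 u) p.2.1 p.2.2 := by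
    funext u
    simp only [Fintype.sum_prod_type]
    rfl
  rw [e2]
  exact nest3 hT _ _ fun p _ => eδ p

lemma pt_A3 (hT : Tm q y l) (M : Matrix (Fin n) (Fin n) ℝ) (z : Pair n → ℝ) :
    Lf S q.s2 (m3 q y) (s3 q l) 0 (JJ S q.s2 (m3 q y) (s3 q l) 0 M) 3 z =
      ∑ p : Fin n × Fin n × Fin n, M p.1 p.2.1 *
        Al S q.s2 (m3 q y) (s3 q l) 2 (Al S q.s2 (m3 q y) (s3 q l) 1
          (Al S q.s2 (m3 q y) (s3 q l) 0
            fun u => A2 S q.s2 p.1 p.2.2 u * S.A q.s2 u p.2.2 p.2.1)) z := by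
  have eδ : ∀ p : Fin n × Fin n × Fin n, EG fun u => A2 S q.s2 p.1 p.2.2 u *
      S.A q.s2 u p.2.2 p.2.1 := fun p => (eg_A2 S q.s2 _ _).mul (S.eg_A q.s2 _ _)
  have e2 : JJ S q.s2 (m3 q y) (s3 q l) 0 M = fun u =>
      ∑ p : Fin n × Fin n × Fin n, M p.1 p.2.1 *
        (A2 S q.s2 p.1 p.2.2 u * S.A q.s2 u p.2.2 p.2.1) := by
    funext u
    unfold JJ
    simp only [Fintype.sum_prod_type, Finset.mul_sum]
    rfl
  rw [e2]
  exact nest3 hT _ _ fun p _ => eδ p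

lemma pt_Jw (hT : Tm q y l) (M : Matrix (Fin n) (Fin n) ℝ) (z : Pair n → ℝ) :
    Lf S q.s2 (m3 q y) (s3 q l) 1 (JJ S q.s2 (m3 q y) (s3 q l) 1 M) 2 z =
      ∑ p : Fin n × Fin n × Fin n, M p.1 p.2.1 *
        Al S q.s2 (m3 q y) (s3 q l) 2 (Al S q.s2 (m3 q y) (s3 q l) 1
          fun u => S.A q.t1 u p.2.2 p.2.1 *
            Al S q.s2 (m3 q y) (s3 q l) 0 (A2 S q.s2 p.1 p.2.2) u) z := by
  have hm := pm3 (q := q) S.x0 hT.hy
  have e2 : JJ S q.s2 (m3 q y) (s3 q l) 1 M = fun u =>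
      ∑ p : Fin n × Fin n × Fin n, M p.1 p.2.1 *
        (S.A q.t1 u p.2.2 p.2.1 * Al S q.s2 (m3 q y) (s3 q l) 0 (A2 S q.s2 p.1 p.2.2) u) := by
    funext u
    unfold JJ
    simp only [Fintype.sum_prod_type, Finset.mul_sum, Cl1 hT]
    refine Finset.sum_congr rfl fun i _ => Finset.sum_congr rfl fun j _ =>
      Finset.sum_congr rfl fun b _ => ?_
    rw [mul_comm (Gl S q.s2 (m3 q y) (s3 q l) 1 i b u)]
    rfl
  rw [e2]
  exact nest2 hT _ _ fun p _ => (S.eg_A q.t1 _ _).mul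
    (eg_Al (eg_A2 S q.s2 _ _) 0 (hm.mono (by omega)))

lemma eg_Ca (i j : Fin n) : EG (Ca S y l i j) :=
  eg_Ax (c11_uu S.c11 S.x0 q.t1) (S.eg_A q.t1 i j) _ _

lemma pt_Ja (hT : Tm q y l) (M : Matrix (Fin n) (Fin n) ℝ) (z : Pair n → ℝ) :
    Lf S q.s2 (m3 q y) (s3 q l) 2 (JJ S q.s2 (m3 q y) (s3 q l) 2 M) 1 z =
      ∑ p : Fin n × Fin n × Fin n, M p.1 p.2.1 *
        Al S q.s2 (m3 q y) (s3 q l) 2 (fun u => Ca S y l p.2.2 p.2.1 u *
          Al S q.s2 (m3 q y) (s3 q l) 1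
            (Al S q.s2 (m3 q y) (s3 q l) 0 (A2 S q.s2 p.1 p.2.2)) u) z := by
  have hm := pm3 (q := q) S.x0 hT.hy
  have e2 : JJ S q.s2 (m3 q y) (s3 q l) 2 M = fun u =>
      ∑ p : Fin n × Fin n × Fin n, M p.1 p.2.1 *
        (Ca S y l p.2.2 p.2.1 u * Al S q.s2 (m3 q y) (s3 q l) 1
          (Al S q.s2 (m3 q y) (s3 q l) 0 (A2 S q.s2 p.1 p.2.2)) u) := by
    funext u
    unfold JJ
    simp only [Fintype.sum_prod_type, Finset.mul_sum, Cl2 hT]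
    refine Finset.sum_congr rfl fun i _ => Finset.sum_congr rfl fun j _ =>
      Finset.sum_congr rfl fun b _ => ?_
    rw [mul_comm (Gl S q.s2 (m3 q y) (s3 q l) 2 i b u)]
    rfl
  rw [e2]
  exact nest1 hT _ _ fun p _ => (eg_Ca _ _).mul
    (eg_Al (eg_Al (eg_A2 S q.s2 _ _) 0 (hm.mono (by omega))) 1 (hm.mono (by omega)))

lemma eg_fT (hT : Tm q y l) (ht2 : 0 < q.s2) :
    EG fun z => Tl S q.s2 (m3 q y) (s3 q l) (T1 S q.s2 (Yd S y l z)) 3 z := by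
  have hm := pm3 (q := q) S.x0 hT.hy
  simp only [pt_T hT ht2]
  refine EG.sum _ fun p _ => (eg_Yd hT _ _).mul (eg_Al (eg_Al (eg_Al ?_ 0
    (hm.mono (by omega))) 1 (hm.mono (by omega))) 2 hm)
  simp only [Matrix.mul_apply]
  exact EG.sum _ fun l _ => (S.eg_A q.s2 _ l).mul (S.eg_H ht2 p.1 l _)

lemma eg_fA3 (hT : Tm q y l) : EG fun z => Lf S q.s2 (m3 q y) (s3 q l) 0
    (JJ S q.s2 (m3 q y) (s3 q l) 0 (Yd S y l z)) 3 z := by
  have hm := pm3 (q := q) S.x0 hT.hy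
  simp only [pt_A3 hT]
  exact EG.sum _ fun p _ => (eg_Yd hT _ _).mul (eg_Al (eg_Al (eg_Al
    ((eg_A2 S q.s2 _ _).mul (S.eg_A q.s2 _ _)) 0
    (hm.mono (by omega))) 1 (hm.mono (by omega))) 2 hm)

lemma eg_fJw (hT : Tm q y l) : EG fun z => Lf S q.s2 (m3 q y) (s3 q l) 1
    (JJ S q.s2 (m3 q y) (s3 q l) 1 (Yd S y l z)) 2 z := by
  have hm := pm3 (q := q) S.x0 hT.hy
  simp only [pt_Jw hT]
  exact EG.sum _ fun p _ => (eg_Yd hT _ _).mul (eg_Al (eg_Al ((S.eg_A q.t1 _ _).mul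
    (eg_Al (eg_A2 S q.s2 _ _) 0 (hm.mono (by omega)))) 1 (hm.mono (by omega))) 2 hm)

lemma eg_fJa (hT : Tm q y l) : EG fun z => Lf S q.s2 (m3 q y) (s3 q l) 2
    (JJ S q.s2 (m3 q y) (s3 q l) 2 (Yd S y l z)) 1 z := by
  have hm := pm3 (q := q) S.x0 hT.hy
  simp only [pt_Ja hT]
  exact EG.sum _ fun p _ => (eg_Yd hT _ _).mul (eg_Al ((eg_Ca _ _).mul
    (eg_Al (eg_Al (eg_A2 S q.s2 _ _) 0 (hm.mono (by omega))) 1 (hm.mono (by omega)))) 2 hm)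

lemma int_lin4 {ι : Type} [Fintype ι] {f1 f2 f3 f4 : (ι → ℝ) → ℝ} {k a b c : ℝ}
    (g1 : Integrable f1 (gI ι)) (g2 : Integrable f2 (gI ι)) (g3 : Integrable f3 (gI ι))
    (g4 : Integrable f4 (gI ι)) :
    ∫ g, k * (f1 g + a * f2 g - b * f3 g - c * f4 g) ∂(gI ι) =
      k * (∫ g, f1 g ∂(gI ι) + a * ∫ g, f2 g ∂(gI ι) - b * ∫ g, f3 g ∂(gI ι) -
        c * ∫ g, f4 g ∂(gI ι)) := by
  have h1 : Integrable (fun g => f1 g + a * f2 g) (gI ι) := g1.add (g2.const_mul a)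
  have h2 : Integrable (fun g => f1 g + a * f2 g - b * f3 g) (gI ι) := h1.sub (g3.const_mul b)
  rw [integral_const_mul, integral_sub h2 (g4.const_mul c), integral_sub h1 (g3.const_mul b),
    integral_add g1 (g2.const_mul a), integral_const_mul, integral_const_mul,
    integral_const_mul]

/-- **Row F0 of plan R2 in the two level law.** -/
theorem F0G (hT : Tm q y l) (ht2 : 0 < q.s2) {r : ℝ} (hr : 0 ≤ r) :
    2 * √q.t0 * k * (EwG q (R1C.GTwo q y l S.F S.D) S.F (nT S y l) +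
      q.x * EwG q (R1C.GTwo q y l S.F S.D) S.F (nA3 S y l) -
      (q.x - y) * EwG q (R1C.GTwo q y l S.F S.D) S.F (nJw S y l) -
      y * EwG q (R1C.GTwo q y l S.F S.D) S.F (nJa S y l)) ≤
      (2 * √n + r) * EwG q (R1C.GTwo q y l S.F S.D) S.F (nA S y l) +
        (n : ℝ) ^ 4 * n * Real.exp (-(r ^ 2 / 16)) := by
  have hm := pm3 (q := q) S.x0 hT.hy
  have key := F0R (S := S) (t2 := q.s2) (σ := s3 q l) 3 hm ht2 (Real.sqrt_nonneg q.t0) hr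
  rw [num_T hT ht2, num_A3 hT, num_Jw hT, num_Ja hT, num_A hT]
  have e1 : ∀ z, Rp S q.s2 (m3 q y) (s3 q l) (QR S q.s2 (m3 q y) (s3 q l) 3 z) 3 z =
      k * (Tl S q.s2 (m3 q y) (s3 q l) (T1 S q.s2 (Yd S y l z)) 3 z +
        q.x * Lf S q.s2 (m3 q y) (s3 q l) 0 (JJ S q.s2 (m3 q y) (s3 q l) 0 (Yd S y l z)) 3 z -
        (q.x - y) * Lf S q.s2 (m3 q y) (s3 q l) 1
          (JJ S q.s2 (m3 q y) (s3 q l) 1 (Yd S y l z)) 2 z -
        y * Lf S q.s2 (m3 q y) (s3 q l) 2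
          (JJ S q.s2 (m3 q y) (s3 q l) 2 (Yd S y l z)) 1 z) := by
    intro z
    unfold Rp
    rw [Finset.sum_range_succ, Finset.sum_range_succ, Finset.sum_range_succ, Finset.range_zero,
      Finset.sum_empty]
    have h0 : m3 q y 0 = q.x := rfl
    have h1 : m3 q y 1 = y := rfl
    have h2 : m3 q y 2 = 0 := rfl
    rw [h0, h1, h2]
    show k * (_ + (0 + q.x * (_ - _) + y * (_ - _) + 0 * _)) = _
    unfold Yd
    ring
  simp only [e1] at key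
  have g1 := (eg_scale (eg_fT hT ht2 (S := S)) (√q.t0)).integrable
  have g2 := (eg_scale (eg_fA3 hT (S := S)) (√q.t0)).integrable
  have g3 := (eg_scale (eg_fJw hT (S := S)) (√q.t0)).integrable
  have g4 := (eg_scale (eg_fJa hT (S := S)) (√q.t0)).integrable
  rw [int_lin4 g1 g2 g3 g4] at key
  refine le_trans (le_of_eq ?_) key
  ring

end Vale.Agent.P146.H693
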