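import Vale.Agent.P146.H693.R3
import Vale.Agent.P146.H546.Rb0

/-!
Plan R2, B0: nested means and the flat law with the intermediate position integrated out through
the Gaussian bridge.
-/

open MeasureTheory ProbabilityTheory

namespace Vale.Agent.P146.H693

open Vale.Agent.P157.Lv Vale.Agent.P146.H425 Vale.Agent.P146.R1
open Vale.Agent.P146.H785 (Ax)

set_option linter.unusedSectionVars false

variable {κ : Type} [Fintype κ] [DecidableEq κ] {F : (κ → ℝ) → ℝ} {D : κ → (κ → ℝ) → ℝ}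
  {B L : ℝ}

lemma eg_aff {f : (κ → ℝ) → ℝ} (hf : EG f) (z0 : κ → ℝ) (a b : ℝ) :
    EG fun w : κ ⊕ κ → ℝ => f (z0 + a • R1C.bl w + b • R1C.br w) := by
  refine R1C.eg_compK hf (A := fun w : κ ⊕ κ → ℝ => z0 + a • R1C.bl w + b • R1C.br w)
    (by unfold R1C.bl R1C.br; fun_prop) (K := ‖z0‖) (C := |a| + |b|) (by positivity)
    fun w => ?_
  refine (norm_add_le _ _).trans ?_
  refine (add_le_add_left (norm_add_le _ _) _).trans ?_
  rw [norm_smul, norm_smul, Real.norm_eq_abs, Real.norm_eq_abs]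
  have h1 := mul_le_mul_of_nonneg_left (R1C.norm_bl w) (abs_nonneg a)
  have h2 := mul_le_mul_of_nonneg_left (R1C.norm_br w) (abs_nonneg b)
  linarith

/-- Two independent increments: the position after both and the Gaussian bridge. -/
theorem bridge {f g : (κ → ℝ) → ℝ} (hf : EG f) (hg : EG g) (z0 : κ → ℝ) {a h τ : ℝ}
    (ha : 0 ≤ a) (hh : 0 ≤ h) (hτ : 0 < τ) (hs : a ^ 2 + h ^ 2 = τ ^ 2) :
    ∫ g1, (∫ g2, f (z0 + a • g1) * g (z0 + a • g1 + h • g2) ∂(gI κ)) ∂(gI κ) =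
      ∫ y, (∫ w, f (z0 + (a ^ 2 / τ ^ 2) • (τ • y) + (-(a * h / τ)) • w) ∂(gI κ)) *
        g (z0 + τ • y) ∂(gI κ) := by
  set c := a / τ with hc
  set d := h / τ with hd
  have hτ' : τ ≠ 0 := hτ.ne'
  have hc0 : 0 ≤ c := by positivity
  have hcd : c ^ 2 + d ^ 2 = 1 := by
    rw [hc, hd]
    field_simp
    exact hs
  set Φ : (κ → ℝ) → (κ → ℝ) → ℝ := fun g1 g2 => f (z0 + a • g1) * g (z0 + a • g1 + h • g2)
    with hΦ
  have eΦ : EG fun w : κ ⊕ κ → ℝ => Φ (R1C.bl w) (R1C.br w) := by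
    have h1 := (eg_aff hf z0 a 0).mul (eg_aff hg z0 a h)
    simpa only [zero_smul, add_zero] using h1
  have h1 := R1C.int_rot Finset.univ eΦ hc0 hcd
  rw [show (∫ g1, (∫ g2, f (z0 + a • g1) * g (z0 + a • g1 + h • g2) ∂(gI κ)) ∂(gI κ)) =
    ∫ a, (∫ g, Φ a g ∂(gI κ)) ∂(gI κ) from rfl, h1]
  have h2 : ∀ w y : κ → ℝ, Φ (R1C.rotR Finset.univ c d (y, w)).1
      (R1C.rotR Finset.univ c d (y, w)).2 =
      f (z0 + (a ^ 2 / τ ^ 2) • (τ • y) + (-(a * h / τ)) • w) * g (z0 + τ • y) := by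
    intro w y
    have e1 : z0 + a • (R1C.rotR Finset.univ c d (y, w)).1 =
        z0 + (a ^ 2 / τ ^ 2) • (τ • y) + (-(a * h / τ)) • w := by
      funext e
      simp only [R1C.rotR, Finset.mem_univ, if_true, Pi.add_apply, Pi.smul_apply, smul_eq_mul,
        hc, hd]
      field_simp
      ring
    have e2 : z0 + a • (R1C.rotR Finset.univ c d (y, w)).1 +
        h • (R1C.rotR Finset.univ c d (y, w)).2 = z0 + τ • y := by
      funext e
      simp only [R1C.rotR, Finset.mem_univ, if_true, Pi.add_apply, Pi.smul_apply, smul_eq_mul,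
        hc, hd]
      have h3 : a * (a / τ * y e - h / τ * w e) + h * (h / τ * y e + a / τ * w e) =
          (a ^ 2 + h ^ 2) / τ * y e := by
        field_simp
        ring
      rw [add_assoc, h3, hs]
      congr 1
      field_simp
    simp only [hΦ]
    rw [e2, e1]
  simp only [h2]
  have e3 : EG fun w : κ ⊕ κ → ℝ => f (z0 + (a ^ 2 / τ ^ 2) • (τ • R1C.br w) +
      (-(a * h / τ)) • R1C.bl w) * g (z0 + τ • R1C.br w) := by
    have h3 := (eg_aff hf z0 (-(a * h / τ)) (a ^ 2 / τ ^ 2 * τ)).mul (eg_aff hg z0 0 τ)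
    have e4 : (fun w : κ ⊕ κ → ℝ => f (z0 + (a ^ 2 / τ ^ 2) • (τ • R1C.br w) +
        (-(a * h / τ)) • R1C.bl w) * g (z0 + τ • R1C.br w)) = fun w =>
        f (z0 + (-(a * h / τ)) • R1C.bl w + (a ^ 2 / τ ^ 2 * τ) • R1C.br w) *
          g (z0 + (0 : ℝ) • R1C.bl w + τ • R1C.br w) := by
      funext w
      rw [smul_smul, zero_smul, add_zero, add_right_comm]
    rw [e4]
    exact h3
  have h4 := R1C.integrable_pair (Φ := fun w y => f (z0 + (a ^ 2 / τ ^ 2) • (τ • y) +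
    (-(a * h / τ)) • w) * g (z0 + τ • y)) e3
  rw [integral_integral_swap h4]
  refine integral_congr_ae (Filter.Eventually.of_forall fun y => ?_)
  simp only
  rw [integral_mul_const]

end Vale.Agent.P146.H693
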