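import Vale.Agent.P146.H693.F0K

/-!
Plan R2: the numbers `E <Y, C C_l C>` and `E |C_l|² <Y, C²>`, `l` at the time `t1` (position `P1`)
and at the time `t1 - l` (integrated out): from the flat law to the layers.
-/

open MeasureTheory ProbabilityTheory

namespace Vale.Agent.P146.H693

open Vale.Agent.P157.Lv Vale.Agent.P146.H425 Vale.Agent.P146.H325 Vale.Agent.P146.H332
  Vale.Agent.P146.H712 Vale.Agent.P146.H816 Vale.Agent.P146.R1 Vale.Agent.P146.R1C Matrix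
  Vale.Agent.P146.R1S
open Vale.Agent.P146.H785 (Ax)

set_option linter.unusedSectionVars false

variable {n : ℕ} {k : ℝ} {q : Par} (S : CS n k q.x) (y l : ℝ)

/-- `<Y, C C_w C>` -/
noncomputable def nKw (w : K4 (Pair n) → ℝ) : ℝ :=
  ∑ i, ∑ j, Yd S y l (P0 q w) i j * ∑ b, ∑ c, S.A q.t1 (P1 q w) b c *
    (S.A q.s2 (P3 q w) i b * S.A q.s2 (P3 q w) c j)

/-- `<Y, C C_a C>` -/
noncomputable def nKa (w : K4 (Pair n) → ℝ) : ℝ :=
  ∑ i, ∑ j, Yd S y l (P0 q w) i j * ∑ b, ∑ c, R1C.Br q y l S.F (Ca S y l b c) (P0 q w) (P1 q w) *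
    (S.A q.s2 (P3 q w) i b * S.A q.s2 (P3 q w) c j)

/-- `|C_w|² <Y, C ^ 2>` -/
noncomputable def nRw (w : K4 (Pair n) → ℝ) : ℝ :=
  (∑ i, ∑ j, S.A q.t1 (P1 q w) i j ^ 2) *
    ∑ i, ∑ j, Yd S y l (P0 q w) i j * A2 S q.s2 i j (P3 q w)

/-- `|C_a|² <Y, C ^ 2>` -/
noncomputable def nRa (w : K4 (Pair n) → ℝ) : ℝ :=
  (∑ i, ∑ j, R1C.Br q y l S.F (fun z => Ca S y l i j z ^ 2) (P0 q w) (P1 q w)) *
    ∑ i, ∑ j, Yd S y l (P0 q w) i j * A2 S q.s2 i j (P3 q w)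

/-- `<M, E_l [C C_l C]>` -/
noncomputable def Kn (i : ℕ) (M : Matrix (Fin n) (Fin n) ℝ) (u : Pair n → ℝ) : ℝ :=
  ∑ a, ∑ j, M a j * ∑ b, ∑ c, Cl S q.s2 (m3 q y) (s3 q l) i b c u *
    Tl S q.s2 (m3 q y) (s3 q l) (fun v => S.A q.s2 v a b * S.A q.s2 v c j) i u

/-- `|C_l|² <M, E_l [C ^ 2]>` -/
noncomputable def Rn3 (i : ℕ) (M : Matrix (Fin n) (Fin n) ℝ) (u : Pair n → ℝ) : ℝ :=
  (∑ a, ∑ j, Cl S q.s2 (m3 q y) (s3 q l) i a j u ^ 2) *
    ∑ a, ∑ j, M a j * Gl S q.s2 (m3 q y) (s3 q l) i a j u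

variable {S y l}

theorem num_Kw (hT : Tm q y l) :
    EwG q (R1C.GTwo q y l S.F S.D) S.F (nKw S y l) =
    ∫ g, Lf S q.s2 (m3 q y) (s3 q l) 1 (Kn S y l 1 (Yd S y l (√q.t0 • g))) 2
      (√q.t0 • g) ∂(gI (Pair n)) := by
  have hm := pm3 (q := q) S.x0 hT.hy
  have eδ : ∀ p : Fin n × Fin n × Fin n × Fin n, EG fun u => S.A q.s2 u p.1 p.2.2.1 *
      S.A q.s2 u p.2.2.2 p.2.1 := fun p => (S.eg_A q.s2 _ _).mul (S.eg_A q.s2 _ _)
  have key := num_sum (S := S) hT (Finset.univ : Finset (Fin n × Fin n × Fin n × Fin n))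
    (α := fun p z => Yd S y l z p.1 p.2.1) (β := fun _ _ => 1)
    (γ := fun p u => S.A q.t1 u p.2.2.1 p.2.2.2)
    (δ := fun p u => S.A q.s2 u p.1 p.2.2.1 * S.A q.s2 u p.2.2.2 p.2.1)
    (fun p _ => eg_Yd hT _ _)
    (fun _ _ => EG.const 1) (fun p _ => S.eg_A q.t1 _ _) (fun p _ => eδ p)
  simp only [Br_one hT, one_mul] at key
  have e1 : nKw S y l = fun w : K4 (Pair n) → ℝ => ∑ p : Fin n × Fin n × Fin n × Fin n,
      Yd S y l (P0 q w) p.1 p.2.1 * (S.A q.t1 (P1 q w) p.2.2.1 p.2.2.2 *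
        (S.A q.s2 (P3 q w) p.1 p.2.2.1 * S.A q.s2 (P3 q w) p.2.2.2 p.2.1)) := by
    funext w
    unfold nKw
    simp only [Fintype.sum_prod_type, Finset.mul_sum]
  rw [e1, key]
  refine integral_congr_ae (Filter.Eventually.of_forall fun g => ?_)
  simp only
  have e2 : Kn S y l 1 (Yd S y l (√q.t0 • g)) = fun u =>
      ∑ p : Fin n × Fin n × Fin n × Fin n, Yd S y l (√q.t0 • g) p.1 p.2.1 *
        (S.A q.t1 u p.2.2.1 p.2.2.2 * Al S q.s2 (m3 q y) (s3 q l) 0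
          (fun v => S.A q.s2 v p.1 p.2.2.1 * S.A q.s2 v p.2.2.2 p.2.1) u) := by
    funext u
    unfold Kn
    simp only [Fintype.sum_prod_type, Finset.mul_sum, Cl1 hT]
    rfl
  rw [e2]
  exact (nest2 hT _ _ fun p _ => (S.eg_A q.t1 _ _).mul
    (eg_Al (eδ p) 0 (hm.mono (by omega)))).symm

theorem num_Ka (hT : Tm q y l) :
    EwG q (R1C.GTwo q y l S.F S.D) S.F (nKa S y l) =
    ∫ g, Lf S q.s2 (m3 q y) (s3 q l) 2 (Kn S y l 2 (Yd S y l (√q.t0 • g))) 1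
      (√q.t0 • g) ∂(gI (Pair n)) := by
  have hm := pm3 (q := q) S.x0 hT.hy
  have eδ : ∀ p : Fin n × Fin n × Fin n × Fin n, EG fun u => S.A q.s2 u p.1 p.2.2.1 *
      S.A q.s2 u p.2.2.2 p.2.1 := fun p => (S.eg_A q.s2 _ _).mul (S.eg_A q.s2 _ _)
  have key := num_sum (S := S) hT (Finset.univ : Finset (Fin n × Fin n × Fin n × Fin n))
    (α := fun p z => Yd S y l z p.1 p.2.1) (β := fun p => Ca S y l p.2.2.1 p.2.2.2)
    (γ := fun _ _ => 1)
    (δ := fun p u => S.A q.s2 u p.1 p.2.2.1 * S.A q.s2 u p.2.2.2 p.2.1)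
    (fun p _ => eg_Yd hT _ _)
    (fun _ _ => eg_Ca _ _) (fun p _ => EG.const 1) (fun p _ => eδ p)
  simp only [one_mul, mul_one] at key
  have e1 : nKa S y l = fun w : K4 (Pair n) → ℝ => ∑ p : Fin n × Fin n × Fin n × Fin n,
      Yd S y l (P0 q w) p.1 p.2.1 *
        (R1C.Br q y l S.F (Ca S y l p.2.2.1 p.2.2.2) (P0 q w) (P1 q w) *
        (S.A q.s2 (P3 q w) p.1 p.2.2.1 * S.A q.s2 (P3 q w) p.2.2.2 p.2.1)) := by
    funext w
    unfold nKa
    simp only [Fintype.sum_prod_type, Finset.mul_sum]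
  rw [e1, key]
  refine integral_congr_ae (Filter.Eventually.of_forall fun g => ?_)
  simp only
  have e2 : Kn S y l 2 (Yd S y l (√q.t0 • g)) = fun u =>
      ∑ p : Fin n × Fin n × Fin n × Fin n, Yd S y l (√q.t0 • g) p.1 p.2.1 *
        (Ca S y l p.2.2.1 p.2.2.2 u * Al S q.s2 (m3 q y) (s3 q l) 1
          (Al S q.s2 (m3 q y) (s3 q l) 0
            (fun v => S.A q.s2 v p.1 p.2.2.1 * S.A q.s2 v p.2.2.2 p.2.1)) u) := by
    funext u
    unfold Kn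
    simp only [Fintype.sum_prod_type, Finset.mul_sum, Cl2 hT]
    rfl
  rw [e2]
  exact (nest1 hT _ _ fun p _ => (eg_Ca _ _).mul
    (eg_Al (eg_Al (eδ p) 0 (hm.mono (by omega))) 1 (hm.mono (by omega)))).symm

theorem num_Rw (hT : Tm q y l) :
    EwG q (R1C.GTwo q y l S.F S.D) S.F (nRw S y l) =
    ∫ g, Lf S q.s2 (m3 q y) (s3 q l) 1 (Rn3 S y l 1 (Yd S y l (√q.t0 • g))) 2
      (√q.t0 • g) ∂(gI (Pair n)) := by
  have hm := pm3 (q := q) S.x0 hT.hy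
  have eγ : EG fun u => ∑ i, ∑ j, S.A q.t1 u i j ^ 2 :=
    EG.sum _ fun i _ => EG.sum _ fun j _ => (S.eg_A q.t1 i j).pow 2
  have key := num_sum (S := S) hT (Finset.univ : Finset (Fin n × Fin n))
    (α := fun p z => Yd S y l z p.1 p.2) (β := fun _ _ => 1)
    (γ := fun _ u => ∑ i, ∑ j, S.A q.t1 u i j ^ 2)
    (δ := fun p => A2 S q.s2 p.1 p.2) (fun p _ => eg_Yd hT _ _)
    (fun _ _ => EG.const 1) (fun p _ => eγ) (fun p _ => eg_A2 S q.s2 _ _)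
  simp only [Br_one hT, one_mul] at key
  have e1 : nRw S y l = fun w : K4 (Pair n) → ℝ => ∑ p : Fin n × Fin n,
      Yd S y l (P0 q w) p.1 p.2 * ((∑ i, ∑ j, S.A q.t1 (P1 q w) i j ^ 2) *
        A2 S q.s2 p.1 p.2 (P3 q w)) := by
    funext w
    unfold nRw
    rw [Fintype.sum_prod_type, Finset.mul_sum]
    refine Finset.sum_congr rfl fun i _ => ?_
    rw [Finset.mul_sum]
    exact Finset.sum_congr rfl fun j _ => by ring
  rw [e1, key]
  refine integral_congr_ae (Filter.Eventually.of_forall fun g => ?_)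
  simp only
  have e2 : Rn3 S y l 1 (Yd S y l (√q.t0 • g)) = fun u =>
      ∑ p : Fin n × Fin n, Yd S y l (√q.t0 • g) p.1 p.2 *
        ((∑ i, ∑ j, S.A q.t1 u i j ^ 2) *
          Al S q.s2 (m3 q y) (s3 q l) 0 (A2 S q.s2 p.1 p.2) u) := by
    funext u
    unfold Rn3
    rw [Fintype.sum_prod_type, Finset.mul_sum]
    refine Finset.sum_congr rfl fun i _ => ?_
    rw [Finset.mul_sum]
    refine Finset.sum_congr rfl fun j _ => ?_
    simp only [Cl1 hT]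
    rw [mul_left_comm]
    rfl
  rw [e2]
  exact (nest2 hT _ _ fun p _ => eγ.mul
    (eg_Al (eg_A2 S q.s2 _ _) 0 (hm.mono (by omega)))).symm

theorem num_Ra (hT : Tm q y l) :
    EwG q (R1C.GTwo q y l S.F S.D) S.F (nRa S y l) =
    ∫ g, Lf S q.s2 (m3 q y) (s3 q l) 2 (Rn3 S y l 2 (Yd S y l (√q.t0 • g))) 1
      (√q.t0 • g) ∂(gI (Pair n)) := by
  have hm := pm3 (q := q) S.x0 hT.hy
  have key := num_sum (S := S) hT (Finset.univ : Finset ((Fin n × Fin n) × (Fin n × Fin n)))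
    (α := fun p z => Yd S y l z p.1.1 p.1.2) (β := fun p z => Ca S y l p.2.1 p.2.2 z ^ 2)
    (γ := fun _ _ => 1)
    (δ := fun p => A2 S q.s2 p.1.1 p.1.2) (fun p _ => eg_Yd hT _ _)
    (fun _ _ => (eg_Ca _ _).pow 2) (fun p _ => EG.const 1) (fun p _ => eg_A2 S q.s2 _ _)
  simp only [one_mul, mul_one] at key
  have e1 : nRa S y l = fun w : K4 (Pair n) → ℝ => ∑ p : (Fin n × Fin n) × (Fin n × Fin n),
      Yd S y l (P0 q w) p.1.1 p.1.2 *
        (R1C.Br q y l S.F (fun z => Ca S y l p.2.1 p.2.2 z ^ 2) (P0 q w) (P1 q w) *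
        A2 S q.s2 p.1.1 p.1.2 (P3 q w)) := by
    funext w
    unfold nRa
    simp only [Fintype.sum_prod_type, Finset.mul_sum, Finset.sum_mul]
    refine Finset.sum_congr rfl fun i _ => Finset.sum_congr rfl fun j _ =>
      Finset.sum_congr rfl fun a _ => Finset.sum_congr rfl fun b _ => ?_
    ring
  rw [e1, key]
  refine integral_congr_ae (Filter.Eventually.of_forall fun g => ?_)
  simp only
  have e2 : Rn3 S y l 2 (Yd S y l (√q.t0 • g)) = fun u =>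
      ∑ p : (Fin n × Fin n) × (Fin n × Fin n), Yd S y l (√q.t0 • g) p.1.1 p.1.2 *
        (Ca S y l p.2.1 p.2.2 u ^ 2 * Al S q.s2 (m3 q y) (s3 q l) 1
          (Al S q.s2 (m3 q y) (s3 q l) 0 (A2 S q.s2 p.1.1 p.1.2)) u) := by
    funext u
    unfold Rn3
    simp only [Fintype.sum_prod_type, Finset.mul_sum, Finset.sum_mul, Cl2 hT]
    refine Finset.sum_congr rfl fun i _ => Finset.sum_congr rfl fun j _ =>
      Finset.sum_congr rfl fun a _ => Finset.sum_congr rfl fun b _ => ?_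
    rw [mul_left_comm]
    rfl
  rw [e2]
  exact (nest1 hT _ _ fun p _ => ((eg_Ca _ _).pow 2).mul
    (eg_Al (eg_Al (eg_A2 S q.s2 _ _) 0 (hm.mono (by omega))) 1 (hm.mono (by omega)))).symm

end Vale.Agent.P146.H693
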