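import Vale.Agent.P146.H95.R2Spec
import Vale.Agent.P146.H693.NumK

/-!
Plan R2: the numbers of `H95/R2Spec.lean` (nested means, `p : Tw`) are means of the two level law
`R1C.GTwo`.
-/

open MeasureTheory ProbabilityTheory

namespace Vale.Agent.P146.H693

open Vale.Agent.P157.Lv Vale.Agent.P146.H425 Vale.Agent.P146.H325 Vale.Agent.P146.H332
  Vale.Agent.P146.H712 Vale.Agent.P146.H816 Vale.Agent.P146.R1 Vale.Agent.P146.R1C Matrix
  Vale.Agent.P146.R1S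
open Vale.Agent.P146.H785 (Ax)
open Vale.Agent.P146.H95.R2 (Tw)

set_option linter.unusedSectionVars false

/-- the times and exponents in the letters of `R2Spec` -/
def tw (q : Par) (y l : ℝ) : Tw := ⟨q.x, y, q.t0, q.t1 - l, q.t1, q.s2⟩

lemma tw_m (q : Par) (y l : ℝ) : (tw q y l).m = m3 q y := by
  funext i
  match i with
  | 0 => rfl
  | 1 => rfl
  | i + 2 => rfl

lemma tw_σ (q : Par) (y l : ℝ) : (tw q y l).σ = s3 q l := by
  funext i
  match i with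
  | 0 => rfl
  | 1 =>
    show √(q.t1 - (q.t1 - l)) = √l
    rw [sub_sub_cancel]
  | i + 2 => rfl

variable {n : ℕ} {k : ℝ} {q : Par} {S : CS n k q.x} {y l : ℝ}

lemma Yq_eq (g : Pair n → ℝ) : H95.R2.Yq S (tw q y l) g = Yd S y l (√q.t0 • g) := by
  unfold H95.R2.Yq
  rw [tw_m, tw_σ]
  rfl

theorem nA_eq (hT : Tm q y l) :
    H95.R2.nA S (tw q y l) = EwG q (R1C.GTwo q y l S.F S.D) S.F (nA S y l) := by
  rw [num_A hT]
  unfold H95.R2.nA
  simp only [Yq_eq]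

lemma T3_JJ (M : Matrix (Fin n) (Fin n) ℝ) :
    T3 S q.s2 M = JJ S q.s2 (m3 q y) (s3 q l) 0 M := by
  funext u
  rw [T3_eq]
  rfl

theorem nA3_eq (hT : Tm q y l) :
    H95.R2.nA3 S (tw q y l) = EwG q (R1C.GTwo q y l S.F S.D) S.F (nA3 S y l) := by
  rw [num_A3 hT]
  unfold H95.R2.nA3
  simp only [Yq_eq, tw_m, tw_σ]
  refine integral_congr_ae (Filter.Eventually.of_forall fun g => ?_)
  simp only
  rw [← T3_JJ]
  rfl

theorem nJ1_eq (hT : Tm q y l) :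
    H95.R2.nJ S (tw q y l) 1 = EwG q (R1C.GTwo q y l S.F S.D) S.F (nJw S y l) := by
  rw [num_Jw hT]
  unfold H95.R2.nJ
  simp only [Yq_eq, tw_m, tw_σ]
  rfl

theorem nJ2_eq (hT : Tm q y l) :
    H95.R2.nJ S (tw q y l) 2 = EwG q (R1C.GTwo q y l S.F S.D) S.F (nJa S y l) := by
  rw [num_Ja hT]
  unfold H95.R2.nJ
  simp only [Yq_eq, tw_m, tw_σ]
  rfl

theorem nK1_eq (hT : Tm q y l) :
    H95.R2.nK S (tw q y l) 1 = EwG q (R1C.GTwo q y l S.F S.D) S.F (nKw S y l) := by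
  rw [num_Kw hT]
  unfold H95.R2.nK
  simp only [Yq_eq, tw_m, tw_σ]
  rfl

theorem nK2_eq (hT : Tm q y l) :
    H95.R2.nK S (tw q y l) 2 = EwG q (R1C.GTwo q y l S.F S.D) S.F (nKa S y l) := by
  rw [num_Ka hT]
  unfold H95.R2.nK
  simp only [Yq_eq, tw_m, tw_σ]
  rfl

theorem nR1_eq (hT : Tm q y l) :
    H95.R2.nR S (tw q y l) 1 = EwG q (R1C.GTwo q y l S.F S.D) S.F (nRw S y l) := by
  rw [num_Rw hT]
  unfold H95.R2.nR
  simp only [Yq_eq, tw_m, tw_σ]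
  rfl

theorem nR2_eq (hT : Tm q y l) :
    H95.R2.nR S (tw q y l) 2 = EwG q (R1C.GTwo q y l S.F S.D) S.F (nRa S y l) := by
  rw [num_Ra hT]
  unfold H95.R2.nR
  simp only [Yq_eq, tw_m, tw_σ]
  rfl

/-- **Row F0** in the letters of `R2Spec` -/
theorem F0_spec (hT : Tm q y l) (ht2 : 0 < q.s2) {r : ℝ} (hr : 0 ≤ r) :
    2 * √q.t0 * (k * (EwG q (R1C.GTwo q y l S.F S.D) S.F (nT S y l) +
      q.x * H95.R2.nA3 S (tw q y l) - (q.x - y) * H95.R2.nJ S (tw q y l) 1 -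
      y * H95.R2.nJ S (tw q y l) 2) + EwG q (R1C.GTwo q y l S.F S.D) S.F (nTt S y l)) ≤
      (2 * √n + r) * H95.R2.nA S (tw q y l) + (n : ℝ) ^ 4 * n * Real.exp (-(r ^ 2 / 16)) := by
  rw [nA_eq hT, nA3_eq hT, nJ1_eq hT, nJ2_eq hT]
  exact F0G_keep hT ht2 hr

end Vale.Agent.P146.H693
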