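import Vale.Agent.P146.H693.MatCS

/-!
The sum of the frozen weights against `C`: `∑_b E tr (Y_b C) ≤ 2 n E tr (Y C)`.
-/

open MeasureTheory ProbabilityTheory

namespace Vale.Agent.P146.H693

open Vale.Agent.P157.Lv Vale.Agent.P146.H425 Vale.Agent.P146.H325 Vale.Agent.P146.H332
  Vale.Agent.P146.H712 Vale.Agent.P146.H816 Vale.Agent.P146.R1 Vale.Agent.P146.R1C Matrix
  Vale.Agent.P146.R1S
open Vale.Agent.P146.H785 (Ax)

set_option linter.unusedSectionVars false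

section form

variable {n : ℕ} {k x : ℝ} {S : CS n k x} {t2 : ℝ} {m σ : ℕ → ℝ}

/-- `E_1 [C]` is positive semidefinite -/
theorem Cl_psd (l : ℕ) (hm : Pm m l) (z : Pair n → ℝ) :
    Psd (fun i j => Cl S t2 m σ l i j z) := by
  refine ⟨?_, fun c => ?_⟩
  · funext i j
    exact congrFun (Cl_comm (S := S) (t2 := t2) (m := m) (σ := σ) l j i) z
  · have h1 : Tl S t2 m σ (fun u => ∑ i, ∑ j, (c i * c j) * S.A t2 u i j) l z =
        ∑ i, ∑ j, c i * c j * Cl S t2 m σ l i j z := by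
      rw [Tl_sum l hm _ fun i _ => EG.sum _ fun j _ => (S.eg_A t2 i j).const_mul _]
      refine Finset.sum_congr rfl fun i _ => ?_
      exact Tl_lin l hm _ _ (fun j _ => S.eg_A t2 i j) z
    rw [← h1]
    exact Tl_nonneg l (fun u => (S.psd_A t2 u).2 c) z

/-- `0 ≤ tr ((s C - 1) ^ 2 G)` -/
lemma q_form (t : ℝ) (u : Pair n → ℝ) {G : Matrix (Fin n) (Fin n) ℝ} (hG : Psd G) (s : ℝ) :
    0 ≤ ∑ i, ∑ j, (s ^ 2 * A2 S t i j u + (-2 * s) * S.A t u i j +
      if i = j then 1 else 0) * G i j := by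
  set Q : Matrix (Fin n) (Fin n) ℝ := fun i j => s * S.A t u i j - if i = j then 1 else 0 with hQ
  have hs : ∀ i j, Q i j = Q j i := by
    intro i j
    simp only [hQ, S.A_comm t u i j, eq_comm]
  have h1 := (sq_psd hs).sum_mul_nonneg hG
  refine h1.trans (le_of_eq ?_)
  refine Finset.sum_congr rfl fun i _ => Finset.sum_congr rfl fun j _ => ?_
  congr 1
  rw [Matrix.mul_apply]
  have e1 : ∀ l, Q i l * Q l j = s ^ 2 * (S.A t u i l * S.A t u l j) -
      (if l = j then s * S.A t u i l else 0) - (if i = l then s * S.A t u l j else 0) +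
        if i = l then (if l = j then 1 else 0) else 0 := by
    intro l
    simp only [hQ]
    by_cases h1 : i = l
    · subst h1
      by_cases h2 : i = j
      · subst h2
        simp
        ring
      · simp [h2]
        ring
    · by_cases h2 : l = j
      · subst h2
        simp [h1]
        ring
      · simp [h1, h2]
        ring
  simp only [e1, Finset.sum_add_distrib, Finset.sum_sub_distrib, Finset.sum_ite_eq,
    Finset.sum_ite_eq', Finset.mem_univ, if_true, ← Finset.mul_sum]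
  unfold A2
  ring

/-- the mean of `tr ((s C - 1) ^ 2 C_1)` -/
lemma C1_quad (l : ℕ) (hm : Pm m l) (z : Pair n → ℝ) (s : ℝ) :
    0 ≤ (∑ i, ∑ j, QR S t2 m σ l z i j * Cl S t2 m σ l i j z) * (s * s) +
      (-2 * ∑ i, ∑ j, Cl S t2 m σ l i j z ^ 2) * s + n := by
  have hG := Cl_psd (S := S) (t2 := t2) (σ := σ) l hm z
  have h1 : 0 ≤ Tl S t2 m σ (fun u => ∑ i, ∑ j, (s ^ 2 * A2 S t2 i j u +
      (-2 * s) * S.A t2 u i j + if i = j then 1 else 0) * Cl S t2 m σ l i j z) l z :=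
    Tl_nonneg l (fun u => q_form (S := S) t2 u hG s) z
  have eg1 : ∀ i j : Fin n, EG fun u => (s ^ 2 * A2 S t2 i j u +
      (-2 * s) * S.A t2 u i j + if i = j then 1 else 0) * Cl S t2 m σ l i j z := fun i j =>
    ((((eg_A2 S t2 i j).const_mul _).add ((S.eg_A t2 i j).const_mul _)).add (EG.const _)).mul
      (EG.const _)
  rw [Tl_sum l hm _ fun i _ => EG.sum _ fun j _ => eg1 i j] at h1
  refine h1.trans (le_of_eq ?_)
  have h2 : ∀ i, Tl S t2 m σ (fun u => ∑ j, (s ^ 2 * A2 S t2 i j u +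
      (-2 * s) * S.A t2 u i j + if i = j then 1 else 0) * Cl S t2 m σ l i j z) l z =
      ∑ j, (s * s * (QR S t2 m σ l z i j * Cl S t2 m σ l i j z) +
        (-2 * s) * Cl S t2 m σ l i j z ^ 2 + if i = j then Cl S t2 m σ l i j z else 0) := by
    intro i
    rw [Tl_sum l hm _ fun j _ => eg1 i j]
    refine Finset.sum_congr rfl fun j _ => ?_
    have e3 : (fun u => (s ^ 2 * A2 S t2 i j u + (-2 * s) * S.A t2 u i j +
        if i = j then 1 else 0) * Cl S t2 m σ l i j z) = fun u =>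
        ((s ^ 2 * Cl S t2 m σ l i j z) * A2 S t2 i j u +
          (-2 * s * Cl S t2 m σ l i j z) * S.A t2 u i j) +
            (if i = j then 1 else 0) * Cl S t2 m σ l i j z := by
      funext u
      ring
    rw [e3]
    unfold Tl
    rw [TP_add hU (((eg_A2 S t2 i j).const_mul _).add ((S.eg_A t2 i j).const_mul _))
      (EG.const _) l hm, TP_const hU _ l hm]
    simp only
    rw [TP_add hU ((eg_A2 S t2 i j).const_mul _) ((S.eg_A t2 i j).const_mul _) l hm,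
      TD_const_mul, TD_const_mul]
    have e4 : TD (uu x t2 S.F) m σ (A2 S t2 i j) l z = QR S t2 m σ l z i j := rfl
    have e5 : TD (uu x t2 S.F) m σ (fun u => S.A t2 u i j) l z = Cl S t2 m σ l i j z := rfl
    simp only [e4, e5, ite_mul, one_mul, zero_mul]
    ring
  simp only [h2, Finset.sum_add_distrib, Finset.sum_ite_eq, Finset.mem_univ, if_true,
    ← Finset.mul_sum, Cl_self l hm]
  simp only [Finset.sum_const, Finset.card_univ, Fintype.card_fin, nsmul_eq_mul, mul_one]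
  ring

/-- **`|C_1|⁴ ≤ n tr (Y C_1)`** -/
theorem C1_sq (l : ℕ) (hm : Pm m l) (z : Pair n → ℝ) :
    (∑ i, ∑ j, Cl S t2 m σ l i j z ^ 2) ^ 2 ≤
      n * ∑ i, ∑ j, QR S t2 m σ l z i j * Cl S t2 m σ l i j z := by
  have h3 := discrim_le_zero (C1_quad (S := S) (t2 := t2) (σ := σ) l hm z)
  unfold discrim at h3
  nlinarith

lemma n_le_C1 (l : ℕ) (hm : Pm m l) (z : Pair n → ℝ) :
    (n : ℝ) ≤ ∑ i, ∑ j, Cl S t2 m σ l i j z ^ 2 := by
  have h1 : ∀ i : Fin n, (1 : ℝ) ≤ ∑ j, Cl S t2 m σ l i j z ^ 2 := by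
    intro i
    refine le_trans (le_of_eq ?_) (Finset.single_le_sum (fun j _ => sq_nonneg _)
      (Finset.mem_univ i))
    rw [Cl_self l hm, one_pow]
  have h2 := Finset.sum_le_sum fun (i : Fin n) (_ : i ∈ Finset.univ) => h1 i
  simpa using h2

/-- `n ≤ tr (Y C_1)` -/
theorem n_le_YC (l : ℕ) (hm : Pm m l) (z : Pair n → ℝ) :
    (n : ℝ) ≤ ∑ i, ∑ j, QR S t2 m σ l z i j * Cl S t2 m σ l i j z := by
  have h1 := C1_sq (S := S) (t2 := t2) (σ := σ) l hm z
  have h2 := n_le_C1 (S := S) (t2 := t2) (σ := σ) l hm z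
  rcases Nat.eq_zero_or_pos n with h0 | h0
  · subst h0
    simp
  · have h3 : (0 : ℝ) < n := by exact_mod_cast h0
    have h4 : (n : ℝ) * n ≤ n * ∑ i, ∑ j, QR S t2 m σ l z i j * Cl S t2 m σ l i j z := by
      refine le_trans ?_ h1
      nlinarith
    exact le_of_mul_le_mul_left h4 h3

/-- the mean of `|C_1|²` -/
noncomputable def nC1 (S : CS n k x) (t2 : ℝ) (m σ : ℕ → ℝ) (l : ℕ) (c : ℝ) : ℝ :=
  ∫ g, ∑ i, ∑ j, Cl S t2 m σ l i j (c • g) ^ 2 ∂(gI (Pair n))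

lemma eg_C1 (l : ℕ) (hm : Pm m l) : EG fun z => ∑ i, ∑ j, Cl S t2 m σ l i j z ^ 2 :=
  EG.sum _ fun i _ => EG.sum _ fun j _ => (eg_Cl l hm i j).pow 2

/-- **`(E |C_1|²)² ≤ n E tr (Y C)`** -/
theorem nC1_sq (l : ℕ) (hm : Pm m l) (c : ℝ) :
    nC1 S t2 m σ l c ^ 2 ≤ n * nB S t2 m σ l c := by
  have key : ∀ s : ℝ, 0 ≤ nB S t2 m σ l c * (s * s) + (-2 * nC1 S t2 m σ l c) * s + n := by
    intro s
    have i1 := (eg_sc (eg_QC (S := S) (t2 := t2) (σ := σ) l hm) c).integrable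
    have i2 := (eg_sc (eg_C1 (S := S) (t2 := t2) (σ := σ) l hm) c).integrable
    have h1 : 0 ≤ ∫ g, ((s * s) * (∑ i, ∑ j, QR S t2 m σ l (c • g) i j *
        Cl S t2 m σ l i j (c • g)) + (-2 * s) * (∑ i, ∑ j, Cl S t2 m σ l i j (c • g) ^ 2) +
          (n : ℝ)) ∂(gI (Pair n)) :=
      integral_nonneg fun g => by
        have h := C1_quad (S := S) (t2 := t2) (σ := σ) l hm (c • g) s
        simp only [Pi.zero_apply]
        linarith
    have i3 : Integrable (fun g : Pair n → ℝ => (s * s) * (∑ i, ∑ j, QR S t2 m σ l (c • g) i j *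
        Cl S t2 m σ l i j (c • g)) + (-2 * s) * (∑ i, ∑ j, Cl S t2 m σ l i j (c • g) ^ 2))
        (gI (Pair n)) := (i1.const_mul _).add (i2.const_mul _)
    rw [integral_add i3 (integrable_const _),
      integral_add (i1.const_mul _) (i2.const_mul _), integral_const_mul, integral_const_mul,
      integral_const, probReal_univ, one_smul] at h1
    unfold nB nC1
    linarith
  have h3 := discrim_le_zero key
  unfold discrim at h3
  nlinarith

/-- `n ≤ E tr (Y C)` -/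
theorem n_le_nB (l : ℕ) (hm : Pm m l) (c : ℝ) : (n : ℝ) ≤ nB S t2 m σ l c := by
  unfold nB
  have h : ∫ _ : Pair n → ℝ, (n : ℝ) ∂(gI (Pair n)) = n := by
    rw [integral_const, probReal_univ, one_smul]
  rw [← h]
  exact integral_mono (integrable_const _) (eg_sc (eg_QC (S := S) (t2 := t2) (σ := σ) l hm)
    c).integrable fun g => n_le_YC l hm (c • g)

end form

section deep

variable {n : ℕ} {k : ℝ} {q : Par} {S : CS n k q.x} {y l : ℝ}

/-- **[YY]** the sum of the frozen weights against `C` -/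
theorem YY_le (hT : Tm q y l) :
    EwG q (R1C.GTwo q y l S.F S.D) S.F (fun w => ∑ b, ∑ i, ∑ j, Yb S y l b (P0 q w) i j *
      S.A q.s2 (P3 q w) i j) ≤
      n * nB S q.s2 (m3 q y) (s3 q l) 3 (√q.t0) +
      √(2 * q.t0 * EnD S q.s2 (m3 q y) (s3 q l) 3 (√q.t0)) *
        √(n * nC1 S q.s2 (m3 q y) (s3 q l) 3 (√q.t0)) := by
  have hm := pm3 (q := q) S.x0 hT.hy
  have h1 : (fun w : K4 (Pair n) → ℝ => ∑ b, ∑ i, ∑ j, Yb S y l b (P0 q w) i j *
      S.A q.s2 (P3 q w) i j) =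
      fun w => ∑ r : Fin n × Fin n × Fin n, (fun z => Yb S y l r.1 z r.2.1 r.2.2) (P0 q w) *
        (fun u => S.A q.s2 u r.2.1 r.2.2) (P3 q w) := by
    funext w
    rw [Fintype.sum_prod_type]
    refine Finset.sum_congr rfl fun b _ => ?_
    rw [Fintype.sum_prod_type]
  have h2 := EwG_deep (S := S) hT Finset.univ
    (α := fun (r : Fin n × Fin n × Fin n) z => Yb S y l r.1 z r.2.1 r.2.2)
    (δ := fun r u => S.A q.s2 u r.2.1 r.2.2)
    (fun r _ => eg_Yb hT r.1 r.2.1 r.2.2) fun r _ => S.eg_A q.s2 r.2.1 r.2.2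
  rw [h1]
  refine (le_of_eq h2).trans ?_
  have e1 : ∀ g : Pair n → ℝ, (∑ r : Fin n × Fin n × Fin n,
      (fun (r : Fin n × Fin n × Fin n) z => Yb S y l r.1 z r.2.1 r.2.2) r (√q.t0 • g) *
      Tl S q.s2 (m3 q y) (s3 q l) ((fun (r : Fin n × Fin n × Fin n) u =>
        S.A q.s2 u r.2.1 r.2.2) r) 3 (√q.t0 • g)) =
      n * (∑ i, ∑ j, QR S q.s2 (m3 q y) (s3 q l) 3 (√q.t0 • g) i j *
        Cl S q.s2 (m3 q y) (s3 q l) 3 i j (√q.t0 • g)) +
      ∑ r : Fin n × Fin n × Fin n, Db S y l r.1 (√q.t0 • g) r.2.1 r.2.2 *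
        Cl S q.s2 (m3 q y) (s3 q l) 3 r.2.1 r.2.2 (√q.t0 • g) := by
    intro g
    have a1 : (n : ℝ) * (∑ i, ∑ j, QR S q.s2 (m3 q y) (s3 q l) 3 (√q.t0 • g) i j *
        Cl S q.s2 (m3 q y) (s3 q l) 3 i j (√q.t0 • g)) =
        ∑ r : Fin n × Fin n × Fin n, Yd S y l (√q.t0 • g) r.2.1 r.2.2 *
        Cl S q.s2 (m3 q y) (s3 q l) 3 r.2.1 r.2.2 (√q.t0 • g) := by
      rw [Fintype.sum_prod_type]
      simp only [Fintype.sum_prod_type, Finset.sum_const, Finset.card_univ, Fintype.card_fin,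
        nsmul_eq_mul]
      rfl
    rw [a1, ← Finset.sum_add_distrib]
    refine Finset.sum_congr rfl fun r _ => ?_
    show Yb S y l r.1 (√q.t0 • g) r.2.1 r.2.2 *
      Cl S q.s2 (m3 q y) (s3 q l) 3 r.2.1 r.2.2 (√q.t0 • g) = _
    unfold Db
    ring
  simp only [e1]
  have i1 := (eg_sc (eg_QC (S := S) (t2 := q.s2) (σ := s3 q l) 3 hm) (√q.t0)).integrable
  have e2 : EG fun z => ∑ r : Fin n × Fin n × Fin n, Db S y l r.1 z r.2.1 r.2.2 *
      Cl S q.s2 (m3 q y) (s3 q l) 3 r.2.1 r.2.2 z := EG.sum _ fun r _ =>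
    (eg_Db hT r.1 r.2.1 r.2.2).mul (eg_Cl 3 hm r.2.1 r.2.2)
  rw [integral_add (i1.const_mul _) (eg_sc e2 (√q.t0)).integrable, integral_const_mul]
  refine add_le_add le_rfl ?_
  refine (le_abs_self _).trans ?_
  refine (deep_cs Finset.univ
    (α := fun (r : Fin n × Fin n × Fin n) z => Db S y l r.1 z r.2.1 r.2.2)
    (τ := fun r => Cl S q.s2 (m3 q y) (s3 q l) 3 r.2.1 r.2.2)
    (fun r _ => eg_Db hT r.1 r.2.1 r.2.2) (fun r _ => eg_Cl 3 hm r.2.1 r.2.2) (√q.t0)).trans ?_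
  refine mul_le_mul (Real.sqrt_le_sqrt ?_) (Real.sqrt_le_sqrt (le_of_eq ?_)) (Real.sqrt_nonneg _)
    (Real.sqrt_nonneg _)
  · refine le_trans (le_of_eq ?_) (TY_le (S := S) hT)
    have e1 : ∀ b i j, EG fun g : Pair n → ℝ => Db S y l b (√q.t0 • g) i j ^ 2 := fun b i j =>
      (eg_sc (eg_Db hT b i j) (√q.t0)).pow 2
    rw [← integral_finsetSum _ fun b _ =>
      (EG.sum _ fun i _ => EG.sum _ fun j _ => e1 b i j).integrable]
    refine integral_congr_ae (Filter.Eventually.of_forall fun g => ?_)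
    simp only [Fintype.sum_prod_type]
  · unfold nC1
    rw [← integral_const_mul]
    refine integral_congr_ae (Filter.Eventually.of_forall fun g => ?_)
    simp only [Fintype.sum_prod_type, Finset.sum_const, Finset.card_univ, Fintype.card_fin,
      nsmul_eq_mul]

/-- **[YY]** `∑_b E tr (Y_b C) ≤ 2 n E tr (Y C)` when the energy of `Y` is at most `Λ E tr (Y C)`,
`Λ² ≤ n E tr (Y C)` -/
theorem YY_two (hT : Tm q y l) {Λ : ℝ} (hΛ0 : 0 ≤ Λ)
    (hE : 2 * q.t0 * EnD S q.s2 (m3 q y) (s3 q l) 3 (√q.t0) ≤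
      Λ * nB S q.s2 (m3 q y) (s3 q l) 3 (√q.t0))
    (hΛ : Λ ^ 2 ≤ n * nB S q.s2 (m3 q y) (s3 q l) 3 (√q.t0)) :
    EwG q (R1C.GTwo q y l S.F S.D) S.F (fun w => ∑ b, ∑ i, ∑ j, Yb S y l b (P0 q w) i j *
      S.A q.s2 (P3 q w) i j) ≤ 2 * (n * nB S q.s2 (m3 q y) (s3 q l) 3 (√q.t0)) := by
  have hm := pm3 (q := q) S.x0 hT.hy
  have h0 := YY_le (S := S) hT
  set B := nB S q.s2 (m3 q y) (s3 q l) 3 (√q.t0) with hB
  set C := nC1 S q.s2 (m3 q y) (s3 q l) 3 (√q.t0) with hC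
  have hn : (0 : ℝ) ≤ n := Nat.cast_nonneg n
  have hB0 : 0 ≤ B := le_trans hn (n_le_nB 3 hm _)
  have hCB : C ^ 2 ≤ n * B := nC1_sq 3 hm _
  have hC0 : 0 ≤ C := by
    rw [hC]
    unfold nC1
    exact integral_nonneg fun g => Finset.sum_nonneg fun i _ => Finset.sum_nonneg fun j _ =>
      sq_nonneg _
  have hnB : 0 ≤ n * B := mul_nonneg hn hB0
  have h1 : Λ * C ≤ n * B := by
    have h2 : (Λ * C) ^ 2 ≤ (n * B) ^ 2 := by
      rw [mul_pow, _root_.sq (n * B)]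
      exact mul_le_mul hΛ hCB (sq_nonneg C) hnB
    exact (abs_le_of_sq_le_sq' h2 hnB).2
  have h3 : √(2 * q.t0 * EnD S q.s2 (m3 q y) (s3 q l) 3 (√q.t0)) * √(n * C) ≤ n * B := by
    have h4 : √(2 * q.t0 * EnD S q.s2 (m3 q y) (s3 q l) 3 (√q.t0)) ≤ √(Λ * B) :=
      Real.sqrt_le_sqrt hE
    refine (mul_le_mul_of_nonneg_right h4 (Real.sqrt_nonneg _)).trans ?_
    rw [← Real.sqrt_mul (mul_nonneg hΛ0 hB0)]
    refine Real.sqrt_le_iff.2 ⟨hnB, ?_⟩
    have h5 : Λ * B * (n * C) = (n * B) * (Λ * C) := by ring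
    rw [h5, _root_.sq]
    exact mul_le_mul_of_nonneg_left h1 hnB
  linarith

end deep

end Vale.Agent.P146.H693
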