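import Vale.Agent.P146.H693.XU

/-!
Plan R2: the energy of `Y = E_1 [C ^ 2]` in the deep position. The heat flow below the first
layer: `F (t') - F (t) ≥ (t' - t) * energy (t)` for `F (t) = E |E [G | z_t]|²`.
-/

open MeasureTheory ProbabilityTheory

namespace Vale.Agent.P146.H693

open Vale.Agent.P157.Lv Vale.Agent.P146.H425 Vale.Agent.P146.H325 Vale.Agent.P146.H332
  Vale.Agent.P146.H712 Vale.Agent.P146.H816 Vale.Agent.P146.R1 Vale.Agent.P146.R1C Matrix
  Vale.Agent.P146.R1S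
open Vale.Agent.P146.H785 (Ax)

set_option linter.unusedSectionVars false

section heat

variable {κ : Type} [Fintype κ] [DecidableEq κ] {G : (κ → ℝ) → ℝ} {G' : κ → (κ → ℝ) → ℝ}

lemma c11_z : C11 (fun _ : κ → ℝ => (0 : ℝ)) (fun _ _ => 0) 0 0 where
  B0 := le_rfl
  L0 := le_rfl
  lip y w := by simp
  meas e := measurable_const
  bd e y := by simp
  quad y w := by simp

lemma eg_sc {G : (κ → ℝ) → ℝ} (h : EG G) (c : ℝ) : EG fun g => G (c • g) := by
  have := EG.add_smul h 0 c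
  simpa using this

lemma pd_aff {e : κ} {G G' : (κ → ℝ) → ℝ} (h : PD e G G') (z : κ → ℝ) (c : ℝ) :
    PD e (fun g => G (z + c • g)) (fun g => c * G' (z + c • g)) := by
  intro y r
  have h1 : ∀ t : ℝ, z + c • Function.update y e t =
      Function.update (z + c • y) e (z e + c * t) := by
    intro t
    funext f
    by_cases hf : f = e
    · subst hf; simp
    · simp [Function.update_of_ne hf]
  simp only [h1]
  have h2 : HasDerivAt (fun t : ℝ => z e + c * t) c r := by
    simpa using ((hasDerivAt_id r).const_mul c).const_add (z e)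
  have h3 := (h (z + c • y) (z e + c * r)).comp r h2
  exact h3.congr_deriv (mul_comm _ _)

/-- the free average -/
noncomputable def Pv (v : ℝ) (G : (κ → ℝ) → ℝ) (z : κ → ℝ) : ℝ := ∫ g, G (z + √v • g) ∂(gI κ)

lemma eg_Pv (hG : EG G) (v : ℝ) : EG (Pv v G) := by
  have h := eg_Ax (F := fun _ : κ → ℝ => (0 : ℝ)) (D := fun _ _ => 0) (B := 0) (L := 0)
    c11_z hG 0 (√v)
  have e : Ax 0 (√v) (fun _ : κ → ℝ => (0 : ℝ)) G = Pv v G := by
    funext z
    unfold Ax Pv
    simp
  rwa [e] at h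

/-- orthonormality of the coordinates -/
lemma int_coord (e f : κ) : ∫ g : κ → ℝ, g e * g f ∂(gI κ) = if e = f then 1 else 0 := by
  have h := PD.stein (e := e) (H := fun g : κ → ℝ => g f) (H' := fun _ => if e = f then 1 else 0)
    (by
      intro w t
      by_cases h : e = f
      · subst h
        simp only [Function.update_self, if_true]
        exact hasDerivAt_id t
      · simp only [if_neg h]
        have : (fun t' : ℝ => Function.update w e t' f) = fun _ => w f := by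
          funext t'
          rw [Function.update_of_ne (Ne.symm h)]
        rw [this]
        exact hasDerivAt_const _ _)
    (EG.coord f) (EG.const _)
  rw [h]
  simp

/-- **Bessel's inequality** -/
theorem bes {h : (κ → ℝ) → ℝ} (hh : EG h) :
    (∫ g, h g ∂(gI κ)) ^ 2 + ∑ e, (∫ g, g e * h g ∂(gI κ)) ^ 2 ≤ ∫ g, h g ^ 2 ∂(gI κ) := by
  set a := ∫ g, h g ∂(gI κ) with ha
  set c : κ → ℝ := fun e => ∫ g, g e * h g ∂(gI κ) with hc
  have i1 := hh.integrable
  have i2 : ∀ e, Integrable (fun g : κ → ℝ => g e * h g) (gI κ) := fun e =>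
    ((EG.coord e).mul hh).integrable
  have i3 : ∀ e f, Integrable (fun g : κ → ℝ => g e * g f) (gI κ) := fun e f =>
    ((EG.coord e).mul (EG.coord f)).integrable
  have m1 : ∀ e, ∫ g : κ → ℝ, g e ∂(gI κ) = 0 := by
    intro e
    have h := PD.stein (e := e) (H := fun _ : κ → ℝ => (1 : ℝ)) (H' := fun _ => 0)
      (by intro w t; exact hasDerivAt_const _ _) (EG.const 1) (EG.const 0)
    simpa using h
  have key : 0 ≤ ∫ g, (h g - a - ∑ e, c e * g e) ^ 2 ∂(gI κ) :=
    integral_nonneg fun _ => sq_nonneg _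
  have e1 : ∀ g : κ → ℝ, (h g - a - ∑ e, c e * g e) ^ 2 =
      (h g ^ 2 + (-2 * a) * h g + a ^ 2) + (∑ e, ((-2 * c e) * (g e * h g) +
        (2 * a * c e) * g e)) + ∑ e, ∑ f, (c e * c f) * (g e * g f) := by
    intro g
    have a1 : (∑ e, c e * g e) * (∑ e, c e * g e) = ∑ e, ∑ f, (c e * c f) * (g e * g f) := by
      rw [Finset.sum_mul_sum]
      exact Finset.sum_congr rfl fun e _ => Finset.sum_congr rfl fun f _ => by ring
    have a2 : ∑ e, ((-2 * c e) * (g e * h g) + (2 * a * c e) * g e) =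
        -2 * h g * (∑ e, c e * g e) + 2 * a * ∑ e, c e * g e := by
      rw [Finset.mul_sum, Finset.mul_sum, ← Finset.sum_add_distrib]
      exact Finset.sum_congr rfl fun e _ => by ring
    rw [a2, ← a1]
    ring
  simp only [e1] at key
  have j1 : Integrable (fun g => h g ^ 2 + (-2 * a) * h g + a ^ 2) (gI κ) :=
    (((hh.pow 2).integrable).add (i1.const_mul _)).add (integrable_const _)
  have j2 : ∀ e, Integrable (fun g : κ → ℝ => (-2 * c e) * (g e * h g) + (2 * a * c e) * g e)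
      (gI κ) := fun e => ((i2 e).const_mul _).add ((EG.coord e).integrable.const_mul _)
  have j3 : ∀ e f, Integrable (fun g : κ → ℝ => (c e * c f) * (g e * g f)) (gI κ) := fun e f =>
    (i3 e f).const_mul _
  have j4 : Integrable (fun g : κ → ℝ => ∑ e, ((-2 * c e) * (g e * h g) + (2 * a * c e) * g e))
      (gI κ) := integrable_finsetSum _ fun e _ => j2 e
  have j5 : Integrable (fun g : κ → ℝ => ∑ e, ∑ f, (c e * c f) * (g e * g f)) (gI κ) :=
    integrable_finsetSum _ fun e _ => integrable_finsetSum _ fun f _ => j3 e f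
  have j6 : Integrable (fun g => h g ^ 2 + (-2 * a) * h g + a ^ 2 +
      ∑ e, ((-2 * c e) * (g e * h g) + (2 * a * c e) * g e)) (gI κ) := j1.add j4
  have k1 : ∫ g, (h g ^ 2 + (-2 * a) * h g + a ^ 2) ∂(gI κ) =
      ∫ g, h g ^ 2 ∂(gI κ) - 2 * a * a + a ^ 2 := by
    have j7 : Integrable (fun g => h g ^ 2 + (-2 * a) * h g) (gI κ) :=
      ((hh.pow 2).integrable).add (i1.const_mul _)
    rw [integral_add j7 (integrable_const _), integral_add (hh.pow 2).integrable
      (i1.const_mul _), integral_const_mul, integral_const, probReal_univ, one_smul, ← ha]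
    ring
  have k2 : ∫ g : κ → ℝ, ∑ e, ((-2 * c e) * (g e * h g) + (2 * a * c e) * g e) ∂(gI κ) =
      -2 * ∑ e, c e ^ 2 := by
    rw [integral_finsetSum _ fun e _ => j2 e, Finset.mul_sum]
    refine Finset.sum_congr rfl fun e _ => ?_
    rw [integral_add ((i2 e).const_mul _) ((EG.coord e).integrable.const_mul _),
      integral_const_mul, integral_const_mul, m1 e, mul_zero, add_zero]
    show -2 * c e * c e = _
    ring
  have k3 : ∫ g : κ → ℝ, ∑ e, ∑ f, (c e * c f) * (g e * g f) ∂(gI κ) = ∑ e, c e ^ 2 := by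
    rw [integral_finsetSum _ fun e _ => integrable_finsetSum _ fun f _ => j3 e f]
    refine Finset.sum_congr rfl fun e _ => ?_
    rw [integral_finsetSum _ fun f _ => j3 e f]
    simp only [integral_const_mul, int_coord, mul_ite, mul_one, mul_zero]
    rw [Finset.sum_ite_eq]
    simp only [Finset.mem_univ, if_true]
    ring
  rw [integral_add j6 j5, integral_add j1 j4, k1, k2, k3] at key
  linarith

/-- the mean of the square of the martingale -/
noncomputable def Fh (G : (κ → ℝ) → ℝ) (T t : ℝ) : ℝ :=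
  ∫ g, Pv (T - t) G (√t • g) ^ 2 ∂(gI κ)

/-- **one step of the heat flow** -/
theorem heat_step (hG : EG G) (hG' : ∀ e, EG (G' e))
    (hd : ∀ y, HasFDerivAt G (H785.lf fun e => G' e y) y) {t t' T : ℝ} (h0 : 0 ≤ t)
    (h1 : t ≤ t') (h2 : t' ≤ T) :
    Fh G T t + (t' - t) * ∫ g, ∑ e, Pv (T - t) (G' e) (√t • g) ^ 2 ∂(gI κ) ≤ Fh G T t' := by
  have hP := eg_Pv hG (T - t')
  have hP' : ∀ e, EG (Pv (T - t') (G' e)) := fun e => eg_Pv (hG' e) (T - t')
  have hδ : 0 ≤ t' - t := by linarith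
  -- the composition of the averages
  have comp : ∀ {H : (κ → ℝ) → ℝ}, EG H → ∀ z, Pv (T - t) H z =
      ∫ g, Pv (T - t') H (z + √(t' - t) • g) ∂(gI κ) := by
    intro H hH z
    have h := gI_rot hH (a := √(t' - t)) (b := √(T - t')) (c := √(T - t)) (by
      rw [Real.sq_sqrt hδ, Real.sq_sqrt (by linarith), Real.sq_sqrt (by linarith)]
      ring) z
    exact h.symm
  -- the position at the time `t'`
  have pos : Fh G T t' = ∫ g, (∫ g1, Pv (T - t') G (√t • g + √(t' - t) • g1) ^ 2 ∂(gI κ))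
      ∂(gI κ) := by
    have h := gI_rot (hP.pow 2) (a := √t) (b := √(t' - t)) (c := √t') (by
      rw [Real.sq_sqrt h0, Real.sq_sqrt hδ, Real.sq_sqrt (by linarith)]
      ring) 0
    simp only [zero_add] at h
    exact h.symm
  have bz : ∀ z, Pv (T - t) G z ^ 2 + (t' - t) * ∑ e, Pv (T - t) (G' e) z ^ 2 ≤
      ∫ g1, Pv (T - t') G (z + √(t' - t) • g1) ^ 2 ∂(gI κ) := by
    intro z
    have eh : EG fun g1 : κ → ℝ => Pv (T - t') G (z + √(t' - t) • g1) := EG.add_smul hP z _
    have h := bes eh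
    rw [← comp hG z] at h
    have ib : ∀ e, ∫ g1, g1 e * Pv (T - t') G (z + √(t' - t) • g1) ∂(gI κ) =
        √(t' - t) * Pv (T - t) (G' e) z := by
      intro e
      have fdP : ∀ y, HasFDerivAt (Pv (T - t') G)
          (H785.lf fun f => Pv (T - t') (G' f) y) y := by
        intro y
        have h := H785.fd_Ax (F := fun _ : κ → ℝ => (0 : ℝ)) (D := fun _ _ => 0) (B := 0)
          (L := 0) c11_z hG hG' hd 0 (√(T - t')) y
        have e1 : ∀ H : (κ → ℝ) → ℝ, Ax 0 (√(T - t')) (fun _ : κ → ℝ => (0 : ℝ)) H =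
            Pv (T - t') H := by
          intro H
          funext z
          unfold Ax Pv
          simp
        simp only [e1, zero_mul, add_zero] at h
        exact h
      have pdP : PD e (fun g1 : κ → ℝ => Pv (T - t') G (z + √(t' - t) • g1))
          (fun g1 => √(t' - t) * Pv (T - t') (G' e) (z + √(t' - t) • g1)) :=
        pd_aff (H785.pd_of_fd fdP e) z _
      have h := PD.stein pdP eh ((EG.add_smul (hP' e) z _).const_mul _)
      rw [h, integral_const_mul, comp (hG' e) z]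
    simp only [ib, mul_pow, Real.sq_sqrt hδ, ← Finset.mul_sum] at h
    exact h
  rw [pos]
  unfold Fh
  have i1 : EG fun g : κ → ℝ => Pv (T - t) G (√t • g) ^ 2 := (eg_sc (eg_Pv hG _) _).pow 2
  have i2 : EG fun g : κ → ℝ => ∑ e, Pv (T - t) (G' e) (√t • g) ^ 2 :=
    EG.sum _ fun e _ => (eg_sc (eg_Pv (hG' e) _) _).pow 2
  rw [← integral_const_mul, ← integral_add i1.integrable (i2.const_mul _).integrable]
  have i3 : EG fun z => ∫ g1, Pv (T - t') G (z + √(t' - t) • g1) ^ 2 ∂(gI κ) := by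
    have h := eg_Pv (hP.pow 2) (t' - t)
    exact h
  exact integral_mono (i1.add (i2.const_mul _)).integrable (eg_sc i3 (√t)).integrable
    fun g => bz (√t • g)

end heat

/-! ### the deep energy of `Q_1` -/

section deep

variable {κ : Type} [Fintype κ]

lemma FD_congr {F : (κ → ℝ) → ℝ} {m σ σ' : ℕ → ℝ} {N : ℕ} (h : ∀ i < N, σ i = σ' i) :
    ∀ l ≤ N, FD F m σ l = FD F m σ' l
  | 0, _ => rfl
  | l + 1, hl => by
    show W (m l) (σ l) (FD F m σ l) = W (m l) (σ' l) (FD F m σ' l)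
    rw [FD_congr h l (by omega), h l (by omega)]

lemma TD_congr {F φ : (κ → ℝ) → ℝ} {m σ σ' : ℕ → ℝ} {N : ℕ} (h : ∀ i < N, σ i = σ' i) :
    ∀ l ≤ N, TD F m σ φ l = TD F m σ' φ l
  | 0, _ => rfl
  | l + 1, hl => by
    show Ax (m l) (σ l) (FD F m σ l) (TD F m σ φ l) =
      Ax (m l) (σ' l) (FD F m σ' l) (TD F m σ' φ l)
    rw [FD_congr h l (by omega), TD_congr h l (by omega), h l (by omega)]

lemma KD_congr {F c φ ψ : (κ → ℝ) → ℝ} {m σ σ' : ℕ → ℝ} {N : ℕ} (h : ∀ i < N, σ i = σ' i) :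
    ∀ l ≤ N, KD F m σ c φ ψ l = KD F m σ' c φ ψ l
  | 0, _ => rfl
  | l + 1, hl => by
    show KW (m l) (σ l) (FD F m σ l) (KD F m σ c φ ψ l) (TD F m σ φ l) (TD F m σ ψ l) =
      KW (m l) (σ' l) (FD F m σ' l) (KD F m σ' c φ ψ l) (TD F m σ' φ l) (TD F m σ' ψ l)
    rw [FD_congr h l (by omega), TD_congr (φ := φ) h l (by omega),
      TD_congr (φ := ψ) h l (by omega), KD_congr h l (by omega), h l (by omega)]

end deep

variable {n : ℕ} {k x : ℝ} {S : CS n k x} {t2 : ℝ} {m σ σ' : ℕ → ℝ}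

lemma Al_free {l : ℕ} (h0 : m l = 0) {v : ℝ} (hv : σ l = √v) (φ : (Pair n → ℝ) → ℝ) :
    Al S t2 m σ l φ = Pv v φ := by
  funext z
  unfold Al Ax Pv
  rw [h0, hv]
  simp

/-- the last layer has the exponent `0` -/
lemma QR_free {N : ℕ} (h0 : m N = 0) {v : ℝ} (hv : σ N = √v) (z : Pair n → ℝ) (i j : Fin n) :
    QR S t2 m σ (N + 1) z i j = Pv v (Gl S t2 m σ N i j) z := by
  have h1 : QR S t2 m σ (N + 1) z i j = Al S t2 m σ N (Gl S t2 m σ N i j) z := rfl
  rw [h1, Al_free h0 hv]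

lemma DR_free {N : ℕ} (h0 : m N = 0) {v : ℝ} (hv : σ N = √v) (z : Pair n → ℝ) (i j : Fin n)
    (e : Pair n) : DR S t2 m σ (N + 1) i j e z = Pv v (DR S t2 m σ N i j e) z := by
  rw [DR_succ, h0, zero_mul, add_zero, Al_free h0 hv]

/-- `E |Y|²` -/
noncomputable def nF (S : CS n k x) (t2 : ℝ) (m σ : ℕ → ℝ) (l : ℕ) (c : ℝ) : ℝ :=
  ∫ g, fr (QR S t2 m σ l (c • g)) ∂(gI (Pair n))

/-- **One step of the heat flow for `Q_1`**: only the last layer (exponent `0`) changes. -/
theorem deep_step {N : ℕ} (hm : Pm m (N + 1)) (h0 : m N = 0) (hσ : ∀ i < N, σ i = σ' i)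
    {t t' T : ℝ} (ht0 : 0 ≤ t) (h1 : t ≤ t') (h2 : t' ≤ T) (hv : σ N = √(T - t))
    (hv' : σ' N = √(T - t')) :
    nF S t2 m σ (N + 1) (√t) + (t' - t) * EnD S t2 m σ (N + 1) (√t) ≤
      nF S t2 m σ' (N + 1) (√t') := by
  have hm' := hm.low
  have eG : ∀ i j, EG (Gl S t2 m σ N i j) := fun i j => eg_Gl N hm' i j
  have eD : ∀ i j e, EG (DR S t2 m σ N i j e) := fun i j e => eg_DR N hm' i j e
  have hG : ∀ i j, Gl S t2 m σ' N i j = Gl S t2 m σ N i j := fun i j =>
    (TD_congr hσ N le_rfl).symm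
  have st : ∀ i j, Fh (Gl S t2 m σ N i j) T t + (t' - t) * ∫ g, ∑ e,
      Pv (T - t) (DR S t2 m σ N i j e) (√t • g) ^ 2 ∂(gI (Pair n)) ≤
        Fh (Gl S t2 m σ N i j) T t' := fun i j =>
    heat_step (eG i j) (eD i j) (fun y => fd_QR N hm' i j y) ht0 h1 h2
  have f1 : nF S t2 m σ (N + 1) (√t) = ∑ i, ∑ j, Fh (Gl S t2 m σ N i j) T t := by
    unfold nF Fh fr
    simp only [QR_free h0 hv]
    rw [integral_finsetSum _ fun i _ => (EG.sum _ fun j _ =>
      (eg_sc (eg_Pv (eG i j) _) _).pow 2).integrable]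
    exact Finset.sum_congr rfl fun i _ => integral_finsetSum _ fun j _ =>
      ((eg_sc (eg_Pv (eG i j) _) _).pow 2).integrable
  have f2 : nF S t2 m σ' (N + 1) (√t') = ∑ i, ∑ j, Fh (Gl S t2 m σ N i j) T t' := by
    unfold nF Fh fr
    simp only [QR_free h0 hv', hG]
    rw [integral_finsetSum _ fun i _ => (EG.sum _ fun j _ =>
      (eg_sc (eg_Pv (eG i j) _) _).pow 2).integrable]
    exact Finset.sum_congr rfl fun i _ => integral_finsetSum _ fun j _ =>
      ((eg_sc (eg_Pv (eG i j) _) _).pow 2).integrable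
  have f3 : EnD S t2 m σ (N + 1) (√t) = ∑ i, ∑ j, ∫ g, ∑ e,
      Pv (T - t) (DR S t2 m σ N i j e) (√t • g) ^ 2 ∂(gI (Pair n)) := by
    unfold EnD
    simp only [DR_free h0 hv]
    have e1 : ∀ g : Pair n → ℝ, ∑ e : Pair n, ∑ i, ∑ j,
        Pv (T - t) (DR S t2 m σ N i j e) (√t • g) ^ 2 = ∑ i, ∑ j, ∑ e : Pair n,
        Pv (T - t) (DR S t2 m σ N i j e) (√t • g) ^ 2 := by
      intro g
      rw [Finset.sum_comm]
      refine Finset.sum_congr rfl fun i _ => ?_
      rw [Finset.sum_comm]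
    simp only [e1]
    rw [integral_finsetSum _ fun i _ => (EG.sum _ fun j _ => EG.sum _ fun e _ =>
      (eg_sc (eg_Pv (eD i j e) _) _).pow 2).integrable]
    exact Finset.sum_congr rfl fun i _ => integral_finsetSum _ fun j _ =>
      (EG.sum _ fun e _ => (eg_sc (eg_Pv (eD i j e) _) _).pow 2).integrable
  rw [f1, f2, f3, Finset.mul_sum, ← Finset.sum_add_distrib]
  refine Finset.sum_le_sum fun i _ => ?_
  rw [Finset.mul_sum, ← Finset.sum_add_distrib]
  exact Finset.sum_le_sum fun j _ => st i j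

end Vale.Agent.P146.H693
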