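import Vale.Agent.P146.H693.XU
import Vale.Agent.P146.H693.DeepFis
import Vale.Agent.P146.H693.F0G
import Vale.Agent.P146.H191.F1
import Vale.Agent.P146.H712.AvPq

/-!
The mean `Y_b` of the output weight `Y = E_1 [C ^ 2]` over the couplings of a row at the deep
position; the difference `Y_b - Y` (Poincare inequality in one row) and its effect on the quadratic
form of the columns of `C`.
-/

open MeasureTheory ProbabilityTheory

namespace Vale.Agent.P146.H693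

open Vale.Agent.P157.Lv Vale.Agent.P146.H425 Vale.Agent.P146.H325 Vale.Agent.P146.H332
  Vale.Agent.P146.H712 Vale.Agent.P146.H816 Vale.Agent.P146.R1 Vale.Agent.P146.R1C Matrix
  Vale.Agent.P146.R1S
open Vale.Agent.P146.H785 (Ax)

set_option linter.unusedSectionVars false

section gen

variable {κ : Type} [Fintype κ] [DecidableEq κ] {s : ℝ} {R : Finset κ}

lemma AvP_scale (s : ℝ) (R : Finset κ) (F : (κ → ℝ) → ℝ) (g : κ → ℝ) :
    AvP s R F (√s • g) = Av R (fun g => F (√s • g)) g := by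
  unfold AvP Av
  congr 1
  funext g'
  congr 1
  funext e
  by_cases he : e ∈ R <;> simp [H712.sw, he]

/-- the mean of an average -/
lemma int_AvP {F : (κ → ℝ) → ℝ} (hF : EG F) (s : ℝ) (R : Finset κ) :
    ∫ g, AvP s R F (√s • g) ∂(gI κ) = ∫ g, F (√s • g) ∂(gI κ) := by
  have h : EG fun g : κ → ℝ => F (√s • g) := eg_sc hF (√s)
  rw [← integral_Av R h]
  exact integral_congr_ae (Filter.Eventually.of_forall fun g => AvP_scale s R F g)

/-- **Poincare inequality for an average** -/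
theorem poin_AvP (hs : 0 ≤ s) {F : (κ → ℝ) → ℝ} {F' : κ → (κ → ℝ) → ℝ} (hF : EG F)
    (hd : ∀ e ∈ R, PD e F (F' e)) (hF' : ∀ e ∈ R, EG (F' e)) :
    ∫ g, (AvP s R F (√s • g) - F (√s • g)) ^ 2 ∂(gI κ) ≤
      s * ∫ g, ∑ e ∈ R, F' e (√s • g) ^ 2 ∂(gI κ) := by
  have e1 : EG fun z => (F z - AvP s R F z) ^ 2 := (hF.sub (eg_AvP hF s R)).pow 2
  have e2 : EG fun z => ∑ e ∈ R, F' e z ^ 2 := EG.sum R fun e he => (hF' e he).pow 2
  have h1 : ∫ g, (AvP s R F (√s • g) - F (√s • g)) ^ 2 ∂(gI κ) =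
      ∫ g, AvP s R (fun z => (F z - AvP s R F z) ^ 2) (√s • g) ∂(gI κ) := by
    rw [int_AvP e1]
    exact integral_congr_ae (Filter.Eventually.of_forall fun g => by ring)
  have h2 : ∫ g, ∑ e ∈ R, F' e (√s • g) ^ 2 ∂(gI κ) =
      ∫ g, AvP s R (fun z => ∑ e ∈ R, F' e z ^ 2) (√s • g) ∂(gI κ) := (int_AvP e2 s R).symm
  have sc : ∀ {f : (κ → ℝ) → ℝ}, EG f → EG fun g : κ → ℝ => f (√s • g) := fun hf =>
    eg_sc hf (√s)
  rw [h1, h2, ← integral_const_mul]
  exact integral_mono (sc (eg_AvP e1 s R)).integrable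
    ((sc (eg_AvP e2 s R)).const_mul s).integrable
    fun g => AvP_poincare hs hF hd hF' (√s • g)

/-- the average is a contraction -/
lemma AvP_contr {F : (κ → ℝ) → ℝ} (hF : EG F) (s : ℝ) (R : Finset κ) :
    ∫ g, AvP s R F (√s • g) ^ 2 ∂(gI κ) ≤ ∫ g, F (√s • g) ^ 2 ∂(gI κ) := by
  rw [← int_AvP (hF.pow 2) s R]
  have sc : ∀ {f : (κ → ℝ) → ℝ}, EG f → EG fun g : κ → ℝ => f (√s • g) := fun hf =>
    eg_sc hf (√s)
  exact integral_mono (sc ((eg_AvP hF s R).pow 2)).integrable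
    (sc (eg_AvP (hF.pow 2) s R)).integrable fun g => AvP_sq_le hF (√s • g)

end gen

variable {n : ℕ} {k : ℝ} {q : Par} (S : CS n k q.x) (y l : ℝ)

/-- the mean of the output weight over the row `b` of the deep position -/
noncomputable def Yb (b : Fin n) (z : Pair n → ℝ) : Matrix (Fin n) (Fin n) ℝ :=
  fun i j => AvP q.t0 (row b) (fun z => Yd S y l z i j) z

/-- the difference `Y_b - Y` -/
noncomputable def Db (b : Fin n) (z : Pair n → ℝ) (i j : Fin n) : ℝ :=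
  Yb S y l b z i j - Yd S y l z i j

variable {S y l}

lemma Yd_comm (z : Pair n → ℝ) (i j : Fin n) : Yd S y l z i j = Yd S y l z j i :=
  QR_comm 3 z i j

lemma Yb_comm (b : Fin n) (z : Pair n → ℝ) (i j : Fin n) : Yb S y l b z i j = Yb S y l b z j i := by
  unfold Yb
  congr 1
  funext z
  exact Yd_comm z i j

lemma eg_Yb (hT : Tm q y l) (b i j : Fin n) : EG fun z => Yb S y l b z i j :=
  eg_AvP (eg_Yd hT i j) q.t0 (row b)

lemma eg_Db (hT : Tm q y l) (b i j : Fin n) : EG fun z => Db S y l b z i j :=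
  (eg_Yb hT b i j).sub (eg_Yd hT i j)

/-- `Y_b` does not see the row `b` of the deep position -/
lemma ind_Yb (b i j : Fin n) : Ind (row b) fun z => Yb S y l b z i j :=
  ind_AvP q.t0 (row b) _

/-- `Y_b` is frozen in the sense of the rows (F1) -/
theorem frz_Yb (hT : Tm q y l) (b : Fin n) :
    H191.Frz b (fun (w : K4 (Pair n) → ℝ) i j => Yb S y l b (P0 q w) i j) where
  eg i j := eg_P0 (eg_Yb hT b i j)
  fr i j := H191.Fr.of_ind fun w w' => by
    show Yb S y l b (P0 q (sw (lf (row b)) w w')) i j = _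
    rw [P0_sw]
    exact ind_Yb b i j _ _
  sy w i j := Yb_comm b _ i j

/-- `Y_b` is positive semidefinite -/
theorem Yb_psd (hT : Tm q y l) (b : Fin n) (z : Pair n → ℝ) : Psd (Yb S y l b z) := by
  refine ⟨?_, fun c => ?_⟩
  · ext i j
    rw [transpose_apply]
    exact Yb_comm b z j i
  · have h1 : AvP q.t0 (row b) (fun z => ∑ i, ∑ j, c i * c j * Yd S y l z i j) z =
        ∑ i, ∑ j, c i * c j * Yb S y l b z i j := by
      rw [AvP_sum _ fun i _ => EG.sum _ fun j _ => (eg_Yd hT i j).const_mul _]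
      refine Finset.sum_congr rfl fun i _ => ?_
      rw [AvP_sum _ fun j _ => (eg_Yd hT i j).const_mul _]
      exact Finset.sum_congr rfl fun j _ => AvP_const_mul _ _ _
    rw [← h1]
    exact AvP_nonneg (fun z => (QR_psd 3 (pm3 S.x0 hT.hy) z).2 c) z

/-- the entries of `Y_b` -/
lemma abs_Yb (hT : Tm q y l) (b i j : Fin n) (z : Pair n → ℝ) : |Yb S y l b z i j| ≤ n := by
  have h := fun z => abs_le.1 (abs_QR (S := S) (t2 := q.s2) (σ := s3 q l) 3 (pm3 S.x0 hT.hy) z i j)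
  refine abs_le.2 ⟨?_, ?_⟩
  · have h1 := AvP_mono (s := q.t0) (R := row b) (EG.const (-(n : ℝ))) (eg_Yd hT i j)
      (fun z => (h z).1) z
    rwa [AvP_const] at h1
  · have h1 := AvP_mono (s := q.t0) (R := row b) (eg_Yd hT i j) (EG.const (n : ℝ))
      (fun z => (h z).2) z
    rwa [AvP_const] at h1

/-- **the contraction** `∫ |Y_b|² ≤ ∫ |Y|²` -/
theorem Yb_contr (hT : Tm q y l) (b : Fin n) :
    ∫ g, ∑ i, ∑ j, Yb S y l b (√q.t0 • g) i j ^ 2 ∂(gI (Pair n)) ≤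
      ∫ g, ∑ i, ∑ j, Yd S y l (√q.t0 • g) i j ^ 2 ∂(gI (Pair n)) := by
  have e1 : ∀ i j, EG fun g : Pair n → ℝ => Yb S y l b (√q.t0 • g) i j ^ 2 := fun i j =>
    (eg_sc (eg_Yb hT b i j) (√q.t0)).pow 2
  have e2 : ∀ i j, EG fun g : Pair n → ℝ => Yd S y l (√q.t0 • g) i j ^ 2 := fun i j =>
    (eg_sc (eg_Yd hT i j) (√q.t0)).pow 2
  rw [integral_finsetSum _ fun i _ => (EG.sum _ fun j _ => e1 i j).integrable,
    integral_finsetSum _ fun i _ => (EG.sum _ fun j _ => e2 i j).integrable]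
  refine Finset.sum_le_sum fun i _ => ?_
  rw [integral_finsetSum _ fun j _ => (e1 i j).integrable,
    integral_finsetSum _ fun j _ => (e2 i j).integrable]
  exact Finset.sum_le_sum fun j _ => AvP_contr (eg_Yd hT i j) q.t0 (row b)

/-- **(TY)** `∑_b ∫ |Y_b - Y|² ≤ 2 t0 ∑_e ∫ |∂_e Y|²` -/
theorem TY_le (hT : Tm q y l) :
    ∑ b, ∫ g, ∑ i, ∑ j, Db S y l b (√q.t0 • g) i j ^ 2 ∂(gI (Pair n)) ≤
      2 * q.t0 * EnD S q.s2 (m3 q y) (s3 q l) 3 (√q.t0) := by
  have hm := pm3 (q := q) S.x0 hT.hy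
  have e1 : ∀ b i j, EG fun g : Pair n → ℝ => Db S y l b (√q.t0 • g) i j ^ 2 := fun b i j =>
    (eg_sc (eg_Db hT b i j) (√q.t0)).pow 2
  have e2 : ∀ i j e, EG fun g : Pair n → ℝ =>
      DR S q.s2 (m3 q y) (s3 q l) 3 i j e (√q.t0 • g) ^ 2 := fun i j e =>
    (eg_sc (eg_DR 3 hm i j e) (√q.t0)).pow 2
  have e3 : ∀ i j b, EG fun g : Pair n → ℝ =>
      ∑ e ∈ row b, DR S q.s2 (m3 q y) (s3 q l) 3 i j e (√q.t0 • g) ^ 2 := fun i j b =>
    EG.sum _ fun e _ => e2 i j e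
  -- one row, one entry
  have h1 : ∀ b i j, ∫ g, Db S y l b (√q.t0 • g) i j ^ 2 ∂(gI (Pair n)) ≤
      q.t0 * ∫ g, ∑ e ∈ row b, DR S q.s2 (m3 q y) (s3 q l) 3 i j e (√q.t0 • g) ^ 2
        ∂(gI (Pair n)) := fun b i j =>
    poin_AvP hT.ht0 (eg_Yd hT i j) (fun e _ => pd_QR 3 hm i j e) fun e _ => eg_DR 3 hm i j e
  have h2 : ∀ b, ∫ g, ∑ i, ∑ j, Db S y l b (√q.t0 • g) i j ^ 2 ∂(gI (Pair n)) ≤
      ∑ i, ∑ j, q.t0 * ∫ g, ∑ e ∈ row b, DR S q.s2 (m3 q y) (s3 q l) 3 i j e (√q.t0 • g) ^ 2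
        ∂(gI (Pair n)) := by
    intro b
    rw [integral_finsetSum _ fun i _ => (EG.sum _ fun j _ => e1 b i j).integrable]
    refine Finset.sum_le_sum fun i _ => ?_
    rw [integral_finsetSum _ fun j _ => (e1 b i j).integrable]
    exact Finset.sum_le_sum fun j _ => h1 b i j
  refine (Finset.sum_le_sum fun b _ => h2 b).trans (le_of_eq ?_)
  have h3 : EnD S q.s2 (m3 q y) (s3 q l) 3 (√q.t0) = ∑ i, ∑ j, ∑ e : Pair n,
      ∫ g, DR S q.s2 (m3 q y) (s3 q l) 3 i j e (√q.t0 • g) ^ 2 ∂(gI (Pair n)) := by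
    unfold EnD
    rw [integral_finsetSum _ fun e _ => (EG.sum _ fun i _ => EG.sum _ fun j _ =>
      e2 i j e).integrable]
    have a1 : ∀ e : Pair n, ∫ g, ∑ i, ∑ j, DR S q.s2 (m3 q y) (s3 q l) 3 i j e (√q.t0 • g) ^ 2
        ∂(gI (Pair n)) = ∑ i, ∑ j, ∫ g, DR S q.s2 (m3 q y) (s3 q l) 3 i j e (√q.t0 • g) ^ 2
        ∂(gI (Pair n)) := by
      intro e
      rw [integral_finsetSum _ fun i _ => (EG.sum _ fun j _ => e2 i j e).integrable]
      refine Finset.sum_congr rfl fun i _ => ?_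
      rw [integral_finsetSum _ fun j _ => (e2 i j e).integrable]
    simp only [a1]
    rw [Finset.sum_comm]
    refine Finset.sum_congr rfl fun i _ => ?_
    rw [Finset.sum_comm]
  rw [h3, Finset.sum_comm, Finset.mul_sum]
  refine Finset.sum_congr rfl fun i _ => ?_
  rw [Finset.sum_comm, Finset.mul_sum]
  refine Finset.sum_congr rfl fun j _ => ?_
  have h4 : ∀ b : Fin n, ∫ g, ∑ e ∈ row b, DR S q.s2 (m3 q y) (s3 q l) 3 i j e (√q.t0 • g) ^ 2
      ∂(gI (Pair n)) = ∑ e ∈ row b, ∫ g, DR S q.s2 (m3 q y) (s3 q l) 3 i j e (√q.t0 • g) ^ 2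
      ∂(gI (Pair n)) := fun b => integral_finsetSum _ fun e _ => (e2 i j e).integrable
  simp only [h4]
  rw [← Finset.mul_sum, sum_rows]
  ring

end Vale.Agent.P146.H693
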