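import Vale.Agent.P146.H501.Interp

/-!
# P146: Kahane's inequality for negative moments

Two families of linear forms of a Gaussian vector with the same variances, the covariances of the
first one at most those of the second one: then
`E (∑ e^{a s . g + c s}) ^ (-p) ≤ E (∑ e^{b s . g + c s}) ^ (-p)`.
-/

open MeasureTheory ProbabilityTheory

namespace Vale.Agent.P146.H693

open Vale.Agent.P146 Vale.Agent.P146.H501

/-- Restriction of the coordinates along an injection. -/
theorem gpi_restrict {ι ι' : Type*} [Fintype ι] [Fintype ι'] {f : ι → ι'}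
    (hf : Function.Injective f) : (gpi ι').map (fun z e => z (f e)) = gpi ι := by
  classical
  symm
  unfold gpi
  refine Measure.pi_eq fun s hs => ?_
  have hm : Measurable fun (z : ι' → ℝ) (e : ι) => z (f e) := by fun_prop
  rw [Measure.map_apply hm (MeasurableSet.univ_pi hs)]
  have h1 : (fun (z : ι' → ℝ) (e : ι) => z (f e)) ⁻¹' (Set.univ.pi s) =
      Set.univ.pi (fun e' => {x : ℝ | ∀ e, f e = e' → x ∈ s e}) := by
    ext z
    simp only [Set.mem_preimage, Set.mem_univ_pi, Set.mem_ofPred_eq]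
    constructor
    · intro h e' e he
      rw [← he]
      exact h e
    · intro h e
      exact h (f e) e rfl
  rw [h1, Measure.pi_pi]
  symm
  refine Fintype.prod_of_injective f hf _ _ (fun e' he' => ?_) (fun e => ?_)
  · have h2 : {x : ℝ | ∀ e, f e = e' → x ∈ s e} = Set.univ := by
      ext x
      simp only [Set.mem_ofPred_eq, Set.mem_univ, iff_true]
      intro e he
      exact absurd ⟨e, he⟩ he'
    rw [h2]
    exact measure_univ
  · congr 1
    ext x
    simp only [Set.mem_ofPred_eq]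
    constructor
    · intro h e2 he2
      rw [hf he2]
      exact h
    · intro h
      exact h e rfl

section gen

variable {ι ι' S : Type*} [Fintype ι] [Fintype ι'] [Fintype S] [Nonempty S]

/-- the path of coefficients -/
noncomputable def kpath (a : S → ι → ℝ) (b : S → ι' → ℝ) (θ : ℝ) (s : S) : ι ⊕ ι' → ℝ :=
  Sum.elim (fun i => Real.sin θ * a s i) fun j => Real.cos θ * b s j

/-- its derivative -/
noncomputable def kpath' (a : S → ι → ℝ) (b : S → ι' → ℝ) (θ : ℝ) (s : S) : ι ⊕ ι' → ℝ :=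
  Sum.elim (fun i => Real.cos θ * a s i) fun j => -Real.sin θ * b s j

omit [Nonempty S] in
lemma gav_form {κ : Type*} [Fintype κ] (A : S → κ → ℝ) (c : S → ℝ) (f : S → ℝ) (g : κ → ℝ) :
    gav A c f g = ∑ s, f s * (wt A c g s / zz A c g) := by
  unfold gav
  rw [Finset.sum_div]
  exact Finset.sum_congr rfl fun s _ => by ring

omit [Nonempty S] in
/-- a sum of products of averages -/
lemma sum_gav_sq {κ : Type*} [Fintype κ] (A : S → κ → ℝ) (c : S → ℝ) (u : S → ι → ℝ)
    (g : κ → ℝ) : ∑ i, gav A c (fun s => u s i) g * gav A c (fun s => u s i) g =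
      ∑ s, ∑ t, (wt A c g s / zz A c g) * (wt A c g t / zz A c g) * ∑ i, u s i * u t i := by
  simp only [gav_form]
  have h1 : ∀ i, (∑ s, u s i * (wt A c g s / zz A c g)) *
      (∑ s, u s i * (wt A c g s / zz A c g)) =
      ∑ s, ∑ t, (wt A c g s / zz A c g) * (wt A c g t / zz A c g) * (u s i * u t i) := by
    intro i
    rw [Finset.sum_mul_sum]
    exact Finset.sum_congr rfl fun s _ => Finset.sum_congr rfl fun t _ => by ring
  simp only [h1]
  rw [Finset.sum_comm]
  refine Finset.sum_congr rfl fun s _ => ?_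
  rw [Finset.sum_comm]
  exact Finset.sum_congr rfl fun t _ => by rw [Finset.mul_sum]

/-- the bracket is nonnegative -/
lemma br_nonneg {p : ℝ} (hp : 0 ≤ p) (a : S → ι → ℝ) (b : S → ι' → ℝ) (c : S → ℝ)
    (hd : ∀ s, ∑ i, a s i ^ 2 = ∑ j, b s j ^ 2)
    (hle : ∀ s t, ∑ i, a s i * a t i ≤ ∑ j, b s j * b t j) {θ : ℝ} (h0 : 0 ≤ Real.sin θ)
    (h1 : 0 ≤ Real.cos θ) (g : ι ⊕ ι' → ℝ) :
    0 ≤ br (-p) (kpath a b θ) c (kpath' a b θ) (fun _ => 0) g := by
  unfold br
  have e1 : (fun s => ∑ i, kpath' a b θ s i * kpath a b θ s i + 0) = fun _ => 0 := by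
    funext s
    rw [Fintype.sum_sum_type]
    simp only [kpath, kpath', Sum.elim_inl, Sum.elim_inr]
    have q1 : ∑ i, Real.cos θ * a s i * (Real.sin θ * a s i) =
        Real.sin θ * Real.cos θ * ∑ i, a s i ^ 2 := by
      rw [Finset.mul_sum]
      exact Finset.sum_congr rfl fun i _ => by ring
    have q2 : ∑ j, -Real.sin θ * b s j * (Real.cos θ * b s j) =
        -(Real.sin θ * Real.cos θ) * ∑ j, b s j ^ 2 := by
      rw [Finset.mul_sum]
      exact Finset.sum_congr rfl fun j _ => by ring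
    rw [q1, q2, hd s]
    ring
  rw [e1]
  have e2 : gav (kpath a b θ) c (fun _ => (0 : ℝ)) g = 0 := by
    rw [gav_form]
    simp
  rw [e2]
  have e3 : ∑ i, gav (kpath a b θ) c (fun s => kpath' a b θ s i) g *
      gav (kpath a b θ) c (fun s => kpath a b θ s i) g =
      Real.sin θ * Real.cos θ * ((∑ i, gav (kpath a b θ) c (fun s => a s i) g *
        gav (kpath a b θ) c (fun s => a s i) g) - ∑ j, gav (kpath a b θ) c (fun s => b s j) g *
        gav (kpath a b θ) c (fun s => b s j) g) := by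
    rw [Fintype.sum_sum_type]
    simp only [kpath', Sum.elim_inl, Sum.elim_inr]
    have q1 : ∀ (r : ℝ) (u : S → ℝ), gav (kpath a b θ) c (fun s => r * u s) g =
        r * gav (kpath a b θ) c u g := fun r u => by
      rw [gav_form, gav_form, Finset.mul_sum]
      exact Finset.sum_congr rfl fun s _ => by ring
    have q2 : ∀ i, gav (kpath a b θ) c (fun s => kpath a b θ s (Sum.inl i)) g =
        Real.sin θ * gav (kpath a b θ) c (fun s => a s i) g := fun i => q1 _ _
    have q3 : ∀ j, gav (kpath a b θ) c (fun s => kpath a b θ s (Sum.inr j)) g =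
        Real.cos θ * gav (kpath a b θ) c (fun s => b s j) g := fun j => q1 _ _
    simp only [q1, q2, q3]
    rw [mul_sub, Finset.mul_sum, Finset.mul_sum, sub_eq_add_neg, ← Finset.sum_neg_distrib]
    congr 1
    · exact Finset.sum_congr rfl fun i _ => by ring
    · exact Finset.sum_congr rfl fun i _ => by ring
  rw [e3, sum_gav_sq, sum_gav_sq]
  have e4 : ∑ s, ∑ t, (wt (kpath a b θ) c g s / zz (kpath a b θ) c g) *
      (wt (kpath a b θ) c g t / zz (kpath a b θ) c g) * ∑ i, a s i * a t i ≤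
      ∑ s, ∑ t, (wt (kpath a b θ) c g s / zz (kpath a b θ) c g) *
      (wt (kpath a b θ) c g t / zz (kpath a b θ) c g) * ∑ j, b s j * b t j := by
    have hw : ∀ s, 0 ≤ wt (kpath a b θ) c g s / zz (kpath a b θ) c g := fun s =>
      div_nonneg (Real.exp_pos _).le (zz_pos _ _ g).le
    exact Finset.sum_le_sum fun s _ => Finset.sum_le_sum fun t _ =>
      mul_le_mul_of_nonneg_left (hle s t) (mul_nonneg (hw s) (hw t))
  have h2 : 0 ≤ (1 + p) * (Real.sin θ * Real.cos θ) := by positivity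
  have h3 := mul_le_mul_of_nonneg_left e4 h2
  nlinarith [h3]

omit [Nonempty S] in
lemma abs_kp {a : S → ι → ℝ} {b : S → ι' → ℝ} (r r' : ℝ) (hr : |r| ≤ 1) (hr' : |r'| ≤ 1)
    (s : S) (i : ι ⊕ ι') :
    |(Sum.elim (fun i => r * a s i) (fun j => r' * b s j) : ι ⊕ ι' → ℝ) i| ≤
      (∑ s, ∑ i, |a s i|) + ∑ s, ∑ j, |b s j| := by
  have ha0 : 0 ≤ ∑ s, ∑ i, |a s i| := Finset.sum_nonneg fun _ _ => Finset.sum_nonneg fun _ _ =>
    abs_nonneg _
  have hb0 : 0 ≤ ∑ s, ∑ j, |b s j| := Finset.sum_nonneg fun _ _ => Finset.sum_nonneg fun _ _ =>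
    abs_nonneg _
  rcases i with i | j
  · simp only [Sum.elim_inl]
    have h1 : |a s i| ≤ ∑ s, ∑ i, |a s i| :=
      (Finset.single_le_sum (f := fun i => |a s i|) (fun i _ => abs_nonneg _)
        (Finset.mem_univ i)).trans (Finset.single_le_sum (f := fun s => ∑ i, |a s i|)
        (fun s _ => Finset.sum_nonneg fun _ _ => abs_nonneg _) (Finset.mem_univ s))
    rw [abs_mul]
    nlinarith [mul_le_mul_of_nonneg_right hr (abs_nonneg (a s i))]
  · simp only [Sum.elim_inr]
    have h1 : |b s j| ≤ ∑ s, ∑ j, |b s j| :=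
      (Finset.single_le_sum (f := fun i => |b s i|) (fun i _ => abs_nonneg _)
        (Finset.mem_univ j)).trans (Finset.single_le_sum (f := fun s => ∑ i, |b s i|)
        (fun s _ => Finset.sum_nonneg fun _ _ => abs_nonneg _) (Finset.mem_univ s))
    rw [abs_mul]
    nlinarith [mul_le_mul_of_nonneg_right hr' (abs_nonneg (b s j))]

/-- **Kahane's inequality for negative moments**, on the two coordinate spaces together. -/
theorem kah_path {p : ℝ} (hp : 0 ≤ p) (a : S → ι → ℝ) (b : S → ι' → ℝ) (c : S → ℝ)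
    (hd : ∀ s, ∑ i, a s i ^ 2 = ∑ j, b s j ^ 2)
    (hle : ∀ s t, ∑ i, a s i * a t i ≤ ∑ j, b s j * b t j) :
    ∫ g, zp (-p) (kpath a b (Real.pi / 2)) c g ∂(gpi (ι ⊕ ι')) ≤
      ∫ g, zp (-p) (kpath a b 0) c g ∂(gpi (ι ⊕ ι')) := by
  classical
  set B := (∑ s, ∑ i, |a s i|) + ∑ s, ∑ j, |b s j| with hB
  have hder : ∀ θ, HasDerivAt (fun θ => ∫ g, zp (-p) (kpath a b θ) c g ∂(gpi (ι ⊕ ι')))
      (-p * ∫ g, zp (-p) (kpath a b θ) c g * br (-p) (kpath a b θ) c (kpath' a b θ)
        (fun _ => 0) g ∂(gpi (ι ⊕ ι'))) θ := fun θ =>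
    hasDerivAt_moment (-p) (a := kpath a b) (a' := kpath' a b) (c := fun _ => c)
      (c' := fun _ _ => 0) (A := B) (A' := B) (C := ∑ s, |c s|) (C' := 0)
      (fun θ s i => by
        rcases i with i | j
        · simp only [kpath, kpath', Sum.elim_inl]
          exact (Real.hasDerivAt_sin θ).mul_const _
        · simp only [kpath, kpath', Sum.elim_inr]
          exact (Real.hasDerivAt_cos θ).mul_const _)
      (fun θ s => hasDerivAt_const _ _)
      (fun θ s i => abs_kp _ _ (Real.abs_sin_le_one θ) (Real.abs_cos_le_one θ) s i)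
      (fun θ s i => abs_kp (a := a) (b := b) (Real.cos θ) (-Real.sin θ) (Real.abs_cos_le_one θ)
        (by rw [abs_neg]; exact Real.abs_sin_le_one θ) s i)
      (fun θ s => Finset.single_le_sum (f := fun s => |c s|) (fun s _ => abs_nonneg _)
        (Finset.mem_univ s))
      (fun θ s => by simp) θ
  have hpi : (0 : ℝ) ≤ Real.pi / 2 := by positivity
  have hanti := antitoneOn_of_deriv_nonpos (D := Set.Icc 0 (Real.pi / 2)) (convex_Icc _ _)
    (f := fun θ => ∫ g, zp (-p) (kpath a b θ) c g ∂(gpi (ι ⊕ ι')))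
    (fun θ _ => (hder θ).continuousAt.continuousWithinAt)
    (fun θ _ => (hder θ).differentiableAt.differentiableWithinAt)
    (fun θ hθ => by
      rw [interior_Icc] at hθ
      rw [(hder θ).deriv]
      have h0 : 0 ≤ Real.sin θ := Real.sin_nonneg_of_nonneg_of_le_pi hθ.1.le
        (by linarith [hθ.2, Real.pi_pos])
      have h1 : 0 ≤ Real.cos θ := Real.cos_nonneg_of_neg_pi_div_two_le_of_le
        (by linarith [hθ.1, Real.pi_pos]) hθ.2.le
      have h2 : 0 ≤ ∫ g, zp (-p) (kpath a b θ) c g * br (-p) (kpath a b θ) c (kpath' a b θ)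
          (fun _ => 0) g ∂(gpi (ι ⊕ ι')) := integral_nonneg fun g =>
        mul_nonneg (zp_pos _ _ _ g).le (br_nonneg hp a b c hd hle h0 h1 g)
      nlinarith)
  exact hanti (Set.left_mem_Icc.2 hpi) (Set.right_mem_Icc.2 hpi) hpi

/-- the law of a function of the first coordinates -/
lemma int_inl {f : (ι → ℝ) → ℝ} (hf : Measurable f) :
    ∫ g : ι ⊕ ι' → ℝ, f (fun i => g (Sum.inl i)) ∂(gpi (ι ⊕ ι')) = ∫ g, f g ∂(gpi ι) := by
  have h := gpi_restrict (ι := ι) (ι' := ι ⊕ ι') (f := Sum.inl) Sum.inl_injective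
  have hm : Measurable fun (z : ι ⊕ ι' → ℝ) (e : ι) => z (Sum.inl e) := by fun_prop
  rw [← h, integral_map hm.aemeasurable hf.aestronglyMeasurable]

lemma int_inr {f : (ι' → ℝ) → ℝ} (hf : Measurable f) :
    ∫ g : ι ⊕ ι' → ℝ, f (fun i => g (Sum.inr i)) ∂(gpi (ι ⊕ ι')) = ∫ g, f g ∂(gpi ι') := by
  have h := gpi_restrict (ι := ι') (ι' := ι ⊕ ι') (f := Sum.inr) Sum.inr_injective
  have hm : Measurable fun (z : ι ⊕ ι' → ℝ) (e : ι') => z (Sum.inr e) := by fun_prop
  rw [← h, integral_map hm.aemeasurable hf.aestronglyMeasurable]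

/-- **Kahane's inequality for negative moments.** -/
theorem kah_neg {p : ℝ} (hp : 0 ≤ p) (a : S → ι → ℝ) (b : S → ι' → ℝ) (c : S → ℝ)
    (hd : ∀ s, ∑ i, a s i ^ 2 = ∑ j, b s j ^ 2)
    (hle : ∀ s t, ∑ i, a s i * a t i ≤ ∑ j, b s j * b t j) :
    ∫ g, zp (-p) a c g ∂(gpi ι) ≤ ∫ g, zp (-p) b c g ∂(gpi ι') := by
  have h := kah_path hp a b c hd hle
  have e1 : ∀ g : ι ⊕ ι' → ℝ, zp (-p) (kpath a b (Real.pi / 2)) c g =
      zp (-p) a c fun i => g (Sum.inl i) := by
    intro g
    unfold zp zz wt kpath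
    simp only [Real.sin_pi_div_two, Real.cos_pi_div_two, one_mul, zero_mul,
      Fintype.sum_sum_type, Sum.elim_inl, Sum.elim_inr, Finset.sum_const_zero, add_zero]
  have e2 : ∀ g : ι ⊕ ι' → ℝ, zp (-p) (kpath a b 0) c g =
      zp (-p) b c fun i => g (Sum.inr i) := by
    intro g
    unfold zp zz wt kpath
    simp only [Real.sin_zero, Real.cos_zero, one_mul, zero_mul,
      Fintype.sum_sum_type, Sum.elim_inl, Sum.elim_inr, Finset.sum_const_zero, zero_add]
  simp only [e1, e2] at h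
  rw [int_inl (zp_cont (-p) a c).measurable, int_inr (zp_cont (-p) b c).measurable] at h
  exact h

/-- the power of the partition function as a real power -/
lemma zp_eq_rpow (κ : ℝ) (a : S → ι → ℝ) (c : S → ℝ) (g : ι → ℝ) :
    zp κ a c g = (∑ s, Real.exp (∑ i, a s i * g i + c s)) ^ κ := by
  have h : 0 < ∑ s, Real.exp (∑ i, a s i * g i + c s) := zz_pos a c g
  rw [Real.rpow_def_of_pos h, mul_comm]
  rfl

/-- **Kahane's inequality for negative moments**, with weights. -/
theorem kah_rpow {p : ℝ} (hp : 0 ≤ p) (a : S → ι → ℝ) (b : S → ι' → ℝ) {w : S → ℝ}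
    (hw : ∀ s, 0 < w s) (hd : ∀ s, ∑ i, a s i ^ 2 = ∑ j, b s j ^ 2)
    (hle : ∀ s t, ∑ i, a s i * a t i ≤ ∑ j, b s j * b t j) :
    ∫ g, (∑ s, w s * Real.exp (∑ i, a s i * g i)) ^ (-p) ∂(gpi ι) ≤
      ∫ g, (∑ s, w s * Real.exp (∑ j, b s j * g j)) ^ (-p) ∂(gpi ι') := by
  have h := kah_neg hp a b (fun s => Real.log (w s)) hd hle
  simp only [zp_eq_rpow] at h
  have e : ∀ s (t : ℝ), Real.exp (t + Real.log (w s)) = w s * Real.exp t := fun s t => by
    rw [Real.exp_add, Real.exp_log (hw s), mul_comm]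
  simp only [e] at h
  exact h

end gen

end Vale.Agent.P146.H693
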