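import Vale.Agent.P146.H693.DAf
import Vale.Agent.P146.H693.YY
import Vale.Agent.P146.H655.GridD

/-!
The energy of the rows with the frozen weights `Y_b` against the energies with the weights
`Y = Q_1` and `C_1`.
-/

open MeasureTheory ProbabilityTheory

namespace Vale.Agent.P146.H693

open Vale.Agent.P157.Lv Vale.Agent.P146.H425 Vale.Agent.P146.H325 Vale.Agent.P146.H332
  Vale.Agent.P146.H712 Vale.Agent.P146.H816 Vale.Agent.P146.R1 Vale.Agent.P146.R1C Matrix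
  Vale.Agent.P146.R1S Vale.Agent.P146.Cum
open Vale.Agent.P146.H785 (Ax)
open Vale.Agent.P146.H191 (bY bM fro Pf)
open Vale.Agent.P146.H946.En2 (bd)

set_option linter.unusedSectionVars false

section form

variable {n : ℕ} {k x : ℝ} {S : CS n k x} {t2 Γ Nb : ℝ} {m σ : ℕ → ℝ}

/-- the energy matrix of the row `b` -/
def Xr (S : CS n k x) (t : ℝ) (b i j : Fin n) (u : Pair n → ℝ) : ℝ :=
  ∑ e ∈ row b, ∑ l, S.DA t e u i l * S.DA t e u j l

lemma eg_Xr (t : ℝ) (b i j : Fin n) : EG (Xr S t b i j) :=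
  EG.sum _ fun e _ => EG.sum _ fun l _ => (S.eg_DA t e i l).mul (S.eg_DA t e j l)

lemma Xr_comm (t : ℝ) (b i j : Fin n) (u : Pair n → ℝ) : Xr S t b i j u = Xr S t b j i u :=
  Finset.sum_congr rfl fun _ _ => Finset.sum_congr rfl fun _ _ => mul_comm _ _

/-- the form of the energy matrix -/
lemma form_Xr (t : ℝ) (b : Fin n) (M : Fin n → Fin n → ℝ) (u : Pair n → ℝ) :
    ∑ i, ∑ j, M i j * Xr S t b i j u = ∑ e ∈ row b, bM M (S.DA t e u) (S.DA t e u) := by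
  unfold Xr bM bY
  simp only [Finset.mul_sum]
  have h1 : ∀ i : Fin n, ∑ j, ∑ e ∈ row b, ∑ l, M i j * (S.DA t e u i l * S.DA t e u j l) =
      ∑ e ∈ row b, ∑ l, ∑ j, M i j * (S.DA t e u i l * S.DA t e u j l) := by
    intro i
    rw [Finset.sum_comm]
    exact Finset.sum_congr rfl fun e _ => Finset.sum_comm
  simp only [h1]
  rw [Finset.sum_comm]
  refine Finset.sum_congr rfl fun e _ => ?_
  rw [Finset.sum_comm]

/-- all rows -/
lemma sum_form_Xr (t : ℝ) (M : Matrix (Fin n) (Fin n) ℝ) (u : Pair n → ℝ) :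
    ∑ b, ∑ i, ∑ j, M i j * Xr S t b i j u = 2 * H655.En S t M u := by
  rw [Finset.sum_congr rfl fun b _ => form_Xr t b M u,
    sum_rows fun e => bM M (S.DA t e u) (S.DA t e u)]
  congr 1
  unfold H655.En
  refine Finset.sum_congr rfl fun e _ => ?_
  unfold bM bY
  rw [Finset.sum_comm]
  refine Finset.sum_congr rfl fun i _ => ?_
  rw [Finset.sum_comm]
  refine Finset.sum_congr rfl fun j _ => ?_
  rw [Finset.mul_sum]
  refine Finset.sum_congr rfl fun l _ => ?_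
  show M i j * (S.DA t e u i l * S.DA t e u j l) = _
  rw [S.DA_comm t e u j l]

lemma card_row_le (b : Fin n) : ((row b).card : ℝ) ≤ n := by
  have h1 := sum_row b (fun _ => (1 : ℝ))
  have h2 : ((row b).card : ℝ) = ∑ e ∈ row b, (1 : ℝ) := by simp
  rw [h2, h1]
  refine (Finset.sum_le_sum_of_subset_of_nonneg (Finset.erase_subset b Finset.univ)
    fun _ _ _ => zero_le_one).trans (le_of_eq ?_)
  simp

/-- the mean of the energy matrix -/
noncomputable def Gr (S : CS n k x) (t2 : ℝ) (m σ : ℕ → ℝ) (l : ℕ) (b i j : Fin n)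
    (z : Pair n → ℝ) : ℝ := Tl S t2 m σ (Xr S t2 b i j) l z

lemma eg_Gr (l : ℕ) (hm : Pm m l) (b i j : Fin n) : EG (Gr S t2 m σ l b i j) :=
  eg_Tl (eg_Xr t2 b i j) l hm

lemma Gr_comm (l : ℕ) (b i j : Fin n) (z : Pair n → ℝ) :
    Gr S t2 m σ l b i j z = Gr S t2 m σ l b j i z := by
  unfold Gr
  rw [show Xr S t2 b i j = Xr S t2 b j i from funext fun u => Xr_comm t2 b i j u]

/-- a form of the mean -/
lemma form_Gr (l : ℕ) (hm : Pm m l) (b : Fin n) (M : Fin n → Fin n → ℝ) (z : Pair n → ℝ) :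
    ∑ i, ∑ j, M i j * Gr S t2 m σ l b i j z =
      Tl S t2 m σ (fun u => ∑ i, ∑ j, M i j * Xr S t2 b i j u) l z := by
  rw [Tl_sum l hm _ fun i _ => EG.sum _ fun j _ => (eg_Xr t2 b i j).const_mul _]
  refine Finset.sum_congr rfl fun i _ => ?_
  exact (Tl_lin l hm _ _ (fun j _ => eg_Xr t2 b i j) z).symm

lemma Gr_pf (l : ℕ) (hm : Pm m l) (b : Fin n) (z : Pair n → ℝ) :
    Pf fun i j => Gr S t2 m σ l b i j z := by
  refine ⟨fun i j => Gr_comm l b i j z, fun v => ?_⟩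
  have h1 := form_Gr (S := S) (t2 := t2) (σ := σ) l hm b (fun i j => v i * v j) z
  have h2 : ∑ i, ∑ j, Gr S t2 m σ l b i j z * (v i * v j) =
      ∑ i, ∑ j, (v i * v j) * Gr S t2 m σ l b i j z :=
    Finset.sum_congr rfl fun i _ => Finset.sum_congr rfl fun j _ => mul_comm _ _
  rw [h2, h1]
  refine Tl_nonneg l (fun u => ?_) z
  rw [form_Xr]
  refine Finset.sum_nonneg fun e _ => ?_
  unfold bM bY
  refine Finset.sum_nonneg fun l _ => ?_
  have h3 : ∑ i, ∑ j, v i * v j * (S.DA t2 e u i l * S.DA t2 e u j l) =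
      (∑ i, v i * S.DA t2 e u i l) ^ 2 := by
    rw [_root_.sq, Finset.sum_mul_sum]
    exact Finset.sum_congr rfl fun i _ => Finset.sum_congr rfl fun j _ => by ring
  rw [h3]
  exact sq_nonneg _

lemma abs_Xr (ht : 0 < t2) (b i j : Fin n) (u : Pair n → ℝ) :
    |Xr S t2 b i j u| ≤ (n : ℝ) ^ 2 * k ^ 2 := by
  have h1 : ∀ e ∈ row b, |∑ l, S.DA t2 e u i l * S.DA t2 e u j l| ≤ n * k ^ 2 := by
    intro e _
    refine (Finset.abs_sum_le_sum_abs _ _).trans ?_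
    have h2 : ∀ l ∈ (Finset.univ : Finset (Fin n)), |S.DA t2 e u i l * S.DA t2 e u j l| ≤
        k ^ 2 := by
      intro l _
      rw [abs_mul, _root_.sq]
      exact mul_le_mul (S.abs_DA ht e u i l) (S.abs_DA ht e u j l) (abs_nonneg _) S.k0.le
    refine (Finset.sum_le_sum h2).trans (le_of_eq ?_)
    simp
  unfold Xr
  refine (Finset.abs_sum_le_sum_abs _ _).trans ((Finset.sum_le_sum h1).trans ?_)
  rw [Finset.sum_const, nsmul_eq_mul]
  have h3 := card_row_le b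
  have h4 : (0 : ℝ) ≤ n * k ^ 2 := by positivity
  nlinarith [mul_le_mul_of_nonneg_right h3 h4]

lemma abs_Gr (ht : 0 < t2) (l : ℕ) (hm : Pm m l) (b i j : Fin n) (z : Pair n → ℝ) :
    |Gr S t2 m σ l b i j z| ≤ (n : ℝ) ^ 2 * k ^ 2 :=
  abs_Tl (eg_Xr t2 b i j) (fun u => abs_Xr ht b i j u) l hm z

lemma fro_eq (M : Matrix (Fin n) (Fin n) ℝ) : fro M = √(fr M) := rfl

lemma fr_A_le (t : ℝ) (u : Pair n → ℝ) : fr (S.A t u) ≤ (n : ℝ) ^ 2 := by
  unfold H332.fr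
  have h1 : ∀ i ∈ (Finset.univ : Finset (Fin n)), ∑ j, S.A t u i j ^ 2 ≤ n := by
    intro i _
    have h2 : ∀ j ∈ (Finset.univ : Finset (Fin n)), S.A t u i j ^ 2 ≤ 1 := by
      intro j _
      have := S.abs_A t u i j
      exact (sq_le_one_iff_abs_le_one _).2 this
    refine (Finset.sum_le_sum h2).trans (le_of_eq ?_)
    simp
  refine (Finset.sum_le_sum h1).trans (le_of_eq ?_)
  simp
  ring

/-- **the mean energy matrix is dominated**: `|G_b|² ≤ K (√Nb <G_b, C_1> + bad)` -/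
theorem Gr_sq (ht : 0 < t2) (hFn : Fn k SkS (uu x t2 S.F) (S.mu t2) Γ)
    (l : ℕ) (hm : Pm m l) (b : Fin n) (z : Pair n → ℝ) :
    ∑ i, ∑ j, Gr S t2 m σ l b i j z ^ 2 ≤ 10 * (k * Γ) ^ 2 * n *
      (√Nb * ∑ i, ∑ j, Gr S t2 m σ l b i j z * Cl S t2 m σ l i j z +
        (n : ℝ) ^ 5 * k ^ 2 * Tl S t2 m σ (bd S Nb t2) l z) := by
  set G : Fin n → Fin n → ℝ := fun i j => Gr S t2 m σ l b i j z with hG
  have hGp : Pf G := Gr_pf l hm b z
  have hGa : ∀ i j, |G i j| ≤ (n : ℝ) ^ 2 * k ^ 2 := fun i j => abs_Gr ht l hm b i j z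
  -- a form of `C`
  have eGA : EG fun u => ∑ i, ∑ j, G i j * S.A t2 u i j :=
    EG.sum _ fun i _ => EG.sum _ fun j _ => (S.eg_A t2 i j).const_mul _
  have h1 : ∑ i, ∑ j, Gr S t2 m σ l b i j z ^ 2 =
      Tl S t2 m σ (fun u => ∑ i, ∑ j, G i j * Xr S t2 b i j u) l z := by
    rw [← form_Gr l hm b G z]
    exact Finset.sum_congr rfl fun i _ => Finset.sum_congr rfl fun j _ => _root_.sq _
  -- the bound at a position
  have h2 : ∀ u, ∑ i, ∑ j, G i j * Xr S t2 b i j u ≤ (10 * (k * Γ) ^ 2 * n * √Nb) *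
      (∑ i, ∑ j, G i j * S.A t2 u i j) + (10 * (k * Γ) ^ 2 * n * ((n : ℝ) ^ 5 * k ^ 2)) *
        bd S Nb t2 u := by
    intro u
    rw [form_Xr]
    have a1 : ∀ e ∈ row b, bM G (S.DA t2 e u) (S.DA t2 e u) ≤
        10 * (k * Γ) ^ 2 * (fro (S.A t2 u) * ∑ i, ∑ l, G i l * S.A t2 u i l) :=
      fun e _ => bM_DA_le S hFn hGp e u
    have a2 := Finset.sum_le_sum a1
    rw [Finset.sum_const, nsmul_eq_mul] at a2
    have a0 : 0 ≤ ∑ i, ∑ l, G i l * S.A t2 u i l := hGp.tr_nonneg (H191.pf_A S t2 u)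
    have a3 : 0 ≤ 10 * (k * Γ) ^ 2 * (fro (S.A t2 u) * ∑ i, ∑ l, G i l * S.A t2 u i l) :=
      mul_nonneg (by positivity) (mul_nonneg (H191.fro_nonneg _) a0)
    have a4 := mul_le_mul_of_nonneg_right (card_row_le b) a3
    have a5 : fro (S.A t2 u) * (∑ i, ∑ l, G i l * S.A t2 u i l) ≤
        √Nb * (∑ i, ∑ l, G i l * S.A t2 u i l) + (n : ℝ) ^ 5 * k ^ 2 * bd S Nb t2 u := by
      unfold bd
      by_cases hb : fr (S.A t2 u) ≤ Nb
      · rw [if_pos hb, mul_zero, add_zero]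
        exact mul_le_mul_of_nonneg_right (Real.sqrt_le_sqrt hb) a0
      · rw [if_neg hb, mul_one]
        have b1 : fro (S.A t2 u) ≤ n := by
          rw [fro_eq]
          refine Real.sqrt_le_iff.2 ⟨Nat.cast_nonneg n, fr_A_le t2 u⟩
        have b2 : ∑ i, ∑ l, G i l * S.A t2 u i l ≤ (n : ℝ) ^ 4 * k ^ 2 := by
          have c1 : ∀ i ∈ (Finset.univ : Finset (Fin n)), ∑ l, G i l * S.A t2 u i l ≤
              (n : ℝ) ^ 3 * k ^ 2 := by
            intro i _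
            have c2 : ∀ l ∈ (Finset.univ : Finset (Fin n)), G i l * S.A t2 u i l ≤
                (n : ℝ) ^ 2 * k ^ 2 := by
              intro l _
              refine (le_abs_self _).trans ?_
              rw [abs_mul]
              calc |G i l| * |S.A t2 u i l| ≤ ((n : ℝ) ^ 2 * k ^ 2) * 1 :=
                    mul_le_mul (hGa i l) (S.abs_A t2 u i l) (abs_nonneg _) (by positivity)
                _ = _ := mul_one _
            refine (Finset.sum_le_sum c2).trans (le_of_eq ?_)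
            simp
            ring
          refine (Finset.sum_le_sum c1).trans (le_of_eq ?_)
          simp
          ring
        have b3 : fro (S.A t2 u) * (∑ i, ∑ l, G i l * S.A t2 u i l) ≤
            n * ((n : ℝ) ^ 4 * k ^ 2) := mul_le_mul b1 b2 a0 (Nat.cast_nonneg n)
        have b4 : 0 ≤ √Nb * (∑ i, ∑ l, G i l * S.A t2 u i l) :=
          mul_nonneg (Real.sqrt_nonneg _) a0
        have b5 : (n : ℝ) * ((n : ℝ) ^ 4 * k ^ 2) = (n : ℝ) ^ 5 * k ^ 2 := by ring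
        linarith
    have a6 := mul_le_mul_of_nonneg_left a5 (show 0 ≤ (n : ℝ) * (10 * (k * Γ) ^ 2) by positivity)
    calc ∑ e ∈ row b, bM G (S.DA t2 e u) (S.DA t2 e u) ≤ _ := a2
      _ ≤ _ := a4
      _ = n * (10 * (k * Γ) ^ 2) * (fro (S.A t2 u) * ∑ i, ∑ l, G i l * S.A t2 u i l) := by ring
      _ ≤ _ := a6
      _ = _ := by ring
  rw [h1]
  have e1 : EG fun u => ∑ i, ∑ j, G i j * Xr S t2 b i j u :=
    EG.sum _ fun i _ => EG.sum _ fun j _ => (eg_Xr t2 b i j).const_mul _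
  have e2 := H946.En2.eg_bd S Nb t2
  refine (Tl_mono l hm e1 ((eGA.const_mul _).add (e2.const_mul _)) h2 z).trans (le_of_eq ?_)
  have e3 : ∑ i, ∑ j, G i j * Cl S t2 m σ l i j z =
      Tl S t2 m σ (fun u => ∑ i, ∑ j, G i j * S.A t2 u i j) l z := by
    rw [Tl_sum l hm _ fun i _ => EG.sum _ fun j _ => (S.eg_A t2 i j).const_mul _]
    refine Finset.sum_congr rfl fun i _ => ?_
    exact (Tl_lin l hm _ _ (fun j _ => S.eg_A t2 i j) z).symm
  rw [e3]
  unfold Tl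
  rw [TP_add hU (eGA.const_mul _) (e2.const_mul _) l hm, TD_const_mul, TD_const_mul]
  ring

/-- the sum over the rows against `C_1` -/
lemma sum_Gr_Cl (l : ℕ) (hm : Pm m l) (z : Pair n → ℝ) :
    ∑ b, ∑ i, ∑ j, Gr S t2 m σ l b i j z * Cl S t2 m σ l i j z =
      2 * Tl S t2 m σ (H655.En S t2 (fun i j => Cl S t2 m σ l i j z)) l z := by
  have h1 : ∀ b, ∑ i, ∑ j, Gr S t2 m σ l b i j z * Cl S t2 m σ l i j z =
      Tl S t2 m σ (fun u => ∑ i, ∑ j, Cl S t2 m σ l i j z * Xr S t2 b i j u) l z := by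
    intro b
    rw [← form_Gr l hm b (fun i j => Cl S t2 m σ l i j z) z]
    exact Finset.sum_congr rfl fun i _ => Finset.sum_congr rfl fun j _ => mul_comm _ _
  simp only [h1]
  rw [← Tl_sum l hm Finset.univ (φ := fun b u => ∑ i, ∑ j, Cl S t2 m σ l i j z *
    Xr S t2 b i j u) (fun b _ => EG.sum _ fun i _ => EG.sum _ fun j _ =>
      (eg_Xr t2 b i j).const_mul _) z, ← Tl_const_mul]
  congr 1
  funext u
  exact sum_form_Xr t2 (fun i j => Cl S t2 m σ l i j z) u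

/-- the energy with the weight `C_1` -/
noncomputable def eB (S : CS n k x) (t2 : ℝ) (m σ : ℕ → ℝ) (l : ℕ) (c : ℝ) : ℝ :=
  ∫ g, Tl S t2 m σ (H655.En S t2 (fun i j => Cl S t2 m σ l i j (c • g))) l (c • g) ∂(gI (Pair n))

/-- the energy with the weight `Y` -/
noncomputable def eQ (S : CS n k x) (t2 : ℝ) (m σ : ℕ → ℝ) (l : ℕ) (c : ℝ) : ℝ :=
  ∫ g, Tl S t2 m σ (H655.En S t2 (QR S t2 m σ l (c • g))) l (c • g) ∂(gI (Pair n))

/-- the probability of the bad set -/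
noncomputable def eP (S : CS n k x) (t2 : ℝ) (m σ : ℕ → ℝ) (l : ℕ) (c Nb : ℝ) : ℝ :=
  ∫ g, Tl S t2 m σ (bd S Nb t2) l (c • g) ∂(gI (Pair n))

lemma eg_GC (l : ℕ) (hm : Pm m l) :
    EG fun z => ∑ b, ∑ i, ∑ j, Gr S t2 m σ l b i j z * Cl S t2 m σ l i j z :=
  EG.sum _ fun b _ => EG.sum _ fun i _ => EG.sum _ fun j _ =>
    (eg_Gr l hm b i j).mul (eg_Cl l hm i j)

/-- **the mean energy matrices** -/
theorem int_Gr_sq (ht : 0 < t2) (hFn : Fn k SkS (uu x t2 S.F) (S.mu t2) Γ)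
    (l : ℕ) (hm : Pm m l) (c : ℝ) :
    ∫ g, ∑ b, ∑ i, ∑ j, Gr S t2 m σ l b i j (c • g) ^ 2 ∂(gI (Pair n)) ≤
      10 * (k * Γ) ^ 2 * n * (2 * √Nb * eB S t2 m σ l c +
        (n : ℝ) ^ 6 * k ^ 2 * eP S t2 m σ l c Nb) := by
  have e1 : EG fun z => ∑ b, ∑ i, ∑ j, Gr S t2 m σ l b i j z ^ 2 :=
    EG.sum _ fun b _ => EG.sum _ fun i _ => EG.sum _ fun j _ => (eg_Gr l hm b i j).pow 2
  have e2 : EG fun z => Tl S t2 m σ (bd S Nb t2) l z := eg_Tl (H946.En2.eg_bd S Nb t2) l hm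
  have e3 := eg_GC (S := S) (t2 := t2) (σ := σ) l hm
  have h1 : ∀ z, ∑ b, ∑ i, ∑ j, Gr S t2 m σ l b i j z ^ 2 ≤ 10 * (k * Γ) ^ 2 * n *
      (√Nb * (∑ b, ∑ i, ∑ j, Gr S t2 m σ l b i j z * Cl S t2 m σ l i j z) +
        (n : ℝ) ^ 6 * k ^ 2 * Tl S t2 m σ (bd S Nb t2) l z) := by
    intro z
    refine (Finset.sum_le_sum fun b _ => Gr_sq (Nb := Nb) ht hFn l hm b z).trans (le_of_eq ?_)
    rw [← Finset.mul_sum, Finset.sum_add_distrib, ← Finset.mul_sum, Finset.sum_const,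
      Finset.card_univ, Fintype.card_fin, nsmul_eq_mul]
    ring
  have h2 := integral_mono (eg_sc e1 c).integrable
    (eg_sc (((e3.const_mul (√Nb)).add (e2.const_mul ((n : ℝ) ^ 6 * k ^ 2))).const_mul
      (10 * (k * Γ) ^ 2 * n)) c).integrable fun g => h1 (c • g)
  refine h2.trans (le_of_eq ?_)
  rw [integral_const_mul, integral_add ((eg_sc e3 c).const_mul (√Nb)).integrable
    ((eg_sc e2 c).const_mul ((n : ℝ) ^ 6 * k ^ 2)).integrable, integral_const_mul,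
    integral_const_mul]
  have h3 : ∫ g, ∑ b, ∑ i, ∑ j, Gr S t2 m σ l b i j (c • g) * Cl S t2 m σ l i j (c • g)
      ∂(gI (Pair n)) = 2 * eB S t2 m σ l c := by
    unfold eB
    rw [← integral_const_mul]
    exact integral_congr_ae (Filter.Eventually.of_forall fun g => sum_Gr_Cl l hm (c • g))
  rw [h3]
  unfold eP
  ring

end form

section deep

variable {n : ℕ} {k : ℝ} {q : Par} {S : CS n k q.x} {y l Γ Nb : ℝ}

/-- **The energy of the rows with the frozen weights `Y_b`.** -/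
theorem DMb_le (hT : Tm q y l) (ht2 : 0 < q.s2)
    (hFn : Fn k SkS (uu q.x q.s2 S.F) (S.mu q.s2) Γ) :
    EwG q (R1C.GTwo q y l S.F S.D) S.F (fun w => ∑ b, ∑ i, ∑ j, Yb S y l b (P0 q w) i j *
      Xr S q.s2 b i j (P3 q w)) ≤
      2 * eQ S q.s2 (m3 q y) (s3 q l) 3 (√q.t0) +
      √(2 * q.t0 * EnD S q.s2 (m3 q y) (s3 q l) 3 (√q.t0)) *
        √(10 * (k * Γ) ^ 2 * n * (2 * √Nb * eB S q.s2 (m3 q y) (s3 q l) 3 (√q.t0) +
          (n : ℝ) ^ 6 * k ^ 2 * eP S q.s2 (m3 q y) (s3 q l) 3 (√q.t0) Nb)) := by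
  have hm := pm3 (q := q) S.x0 hT.hy
  have h1 : (fun w : K4 (Pair n) → ℝ => ∑ b, ∑ i, ∑ j, Yb S y l b (P0 q w) i j *
      Xr S q.s2 b i j (P3 q w)) =
      fun w => ∑ r : Fin n × Fin n × Fin n, (fun z => Yb S y l r.1 z r.2.1 r.2.2) (P0 q w) *
        (Xr S q.s2 r.1 r.2.1 r.2.2) (P3 q w) := by
    funext w
    rw [Fintype.sum_prod_type]
    refine Finset.sum_congr rfl fun b _ => ?_
    rw [Fintype.sum_prod_type]
  have h2 := EwG_deep (S := S) hT Finset.univ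
    (α := fun (r : Fin n × Fin n × Fin n) z => Yb S y l r.1 z r.2.1 r.2.2)
    (δ := fun r => Xr S q.s2 r.1 r.2.1 r.2.2)
    (fun r _ => eg_Yb hT r.1 r.2.1 r.2.2) fun r _ => eg_Xr q.s2 r.1 r.2.1 r.2.2
  rw [h1]
  refine (le_of_eq h2).trans ?_
  have e1 : ∀ g : Pair n → ℝ, (∑ r : Fin n × Fin n × Fin n,
      (fun (r : Fin n × Fin n × Fin n) z => Yb S y l r.1 z r.2.1 r.2.2) r (√q.t0 • g) *
      Tl S q.s2 (m3 q y) (s3 q l) ((fun (r : Fin n × Fin n × Fin n) =>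
        Xr S q.s2 r.1 r.2.1 r.2.2) r) 3 (√q.t0 • g)) =
      2 * Tl S q.s2 (m3 q y) (s3 q l) (H655.En S q.s2 (QR S q.s2 (m3 q y) (s3 q l) 3
        (√q.t0 • g))) 3 (√q.t0 • g) +
      ∑ r : Fin n × Fin n × Fin n, Db S y l r.1 (√q.t0 • g) r.2.1 r.2.2 *
        Gr S q.s2 (m3 q y) (s3 q l) 3 r.1 r.2.1 r.2.2 (√q.t0 • g) := by
    intro g
    have a1 : 2 * Tl S q.s2 (m3 q y) (s3 q l) (H655.En S q.s2 (QR S q.s2 (m3 q y) (s3 q l) 3
        (√q.t0 • g))) 3 (√q.t0 • g) =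
        ∑ r : Fin n × Fin n × Fin n, Yd S y l (√q.t0 • g) r.2.1 r.2.2 *
        Gr S q.s2 (m3 q y) (s3 q l) 3 r.1 r.2.1 r.2.2 (√q.t0 • g) := by
      rw [← Tl_const_mul, Fintype.sum_prod_type]
      have a2 : (fun u => 2 * H655.En S q.s2 (QR S q.s2 (m3 q y) (s3 q l) 3 (√q.t0 • g)) u) =
          fun u => ∑ b, ∑ i, ∑ j, QR S q.s2 (m3 q y) (s3 q l) 3 (√q.t0 • g) i j *
            Xr S q.s2 b i j u := by
        funext u
        exact (sum_form_Xr q.s2 _ u).symm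
      rw [a2, Tl_sum 3 hm Finset.univ (φ := fun b u => ∑ i, ∑ j,
        QR S q.s2 (m3 q y) (s3 q l) 3 (√q.t0 • g) i j * Xr S q.s2 b i j u)
        (fun b _ => EG.sum _ fun i _ => EG.sum _ fun j _ => (eg_Xr q.s2 b i j).const_mul _)]
      refine Finset.sum_congr rfl fun b _ => ?_
      rw [Fintype.sum_prod_type]
      exact (form_Gr (S := S) (σ := s3 q l) 3 hm b
        (fun i j => QR S q.s2 (m3 q y) (s3 q l) 3 (√q.t0 • g) i j) (√q.t0 • g)).symm
    rw [a1, ← Finset.sum_add_distrib]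
    refine Finset.sum_congr rfl fun r _ => ?_
    show Yb S y l r.1 (√q.t0 • g) r.2.1 r.2.2 *
      Gr S q.s2 (m3 q y) (s3 q l) 3 r.1 r.2.1 r.2.2 (√q.t0 • g) = _
    unfold Db
    ring
  simp only [e1]
  have i1 : EG fun z => Tl S q.s2 (m3 q y) (s3 q l) (H655.En S q.s2 (QR S q.s2 (m3 q y)
      (s3 q l) 3 z)) 3 z := by
    have a2 : (fun z => Tl S q.s2 (m3 q y) (s3 q l) (H655.En S q.s2 (QR S q.s2 (m3 q y)
      (s3 q l) 3 z)) 3 z) = fun z => 1 / 2 * ∑ b, ∑ i, ∑ j,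
        QR S q.s2 (m3 q y) (s3 q l) 3 z i j * Gr S q.s2 (m3 q y) (s3 q l) 3 b i j z := by
      funext z
      have a3 : (fun u => 2 * H655.En S q.s2 (QR S q.s2 (m3 q y) (s3 q l) 3 z) u) =
          fun u => ∑ b, ∑ i, ∑ j, QR S q.s2 (m3 q y) (s3 q l) 3 z i j * Xr S q.s2 b i j u := by
        funext u
        exact (sum_form_Xr q.s2 _ u).symm
      have a4 := Tl_const_mul (S := S) (t2 := q.s2) (m := m3 q y) (σ := s3 q l) 3 2
        (H655.En S q.s2 (QR S q.s2 (m3 q y) (s3 q l) 3 z)) z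
      rw [a3, Tl_sum 3 hm Finset.univ (φ := fun b u => ∑ i, ∑ j,
        QR S q.s2 (m3 q y) (s3 q l) 3 z i j * Xr S q.s2 b i j u)
        (fun b _ => EG.sum _ fun i _ => EG.sum _ fun j _ =>
          (eg_Xr q.s2 b i j).const_mul _)] at a4
      have a5 : ∀ b, Tl S q.s2 (m3 q y) (s3 q l) (fun u => ∑ i, ∑ j,
          QR S q.s2 (m3 q y) (s3 q l) 3 z i j * Xr S q.s2 b i j u) 3 z =
          ∑ i, ∑ j, QR S q.s2 (m3 q y) (s3 q l) 3 z i j *
            Gr S q.s2 (m3 q y) (s3 q l) 3 b i j z := fun b =>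
        (form_Gr (S := S) (σ := s3 q l) 3 hm b
          (fun i j => QR S q.s2 (m3 q y) (s3 q l) 3 z i j) z).symm
      simp only [a5] at a4
      linarith
    rw [a2]
    exact (EG.sum _ fun b _ => EG.sum _ fun i _ => EG.sum _ fun j _ =>
      (eg_QR 3 hm i j).mul (eg_Gr 3 hm b i j)).const_mul _
  have e2 : EG fun z => ∑ r : Fin n × Fin n × Fin n, Db S y l r.1 z r.2.1 r.2.2 *
      Gr S q.s2 (m3 q y) (s3 q l) 3 r.1 r.2.1 r.2.2 z := EG.sum _ fun r _ =>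
    (eg_Db hT r.1 r.2.1 r.2.2).mul (eg_Gr 3 hm r.1 r.2.1 r.2.2)
  rw [integral_add ((eg_sc i1 (√q.t0)).const_mul 2).integrable (eg_sc e2 (√q.t0)).integrable,
    integral_const_mul]
  refine add_le_add le_rfl ?_
  refine (le_abs_self _).trans ?_
  refine (deep_cs Finset.univ
    (α := fun (r : Fin n × Fin n × Fin n) z => Db S y l r.1 z r.2.1 r.2.2)
    (τ := fun r => Gr S q.s2 (m3 q y) (s3 q l) 3 r.1 r.2.1 r.2.2)
    (fun r _ => eg_Db hT r.1 r.2.1 r.2.2) (fun r _ => eg_Gr 3 hm r.1 r.2.1 r.2.2)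
    (√q.t0)).trans ?_
  refine mul_le_mul (Real.sqrt_le_sqrt ?_) (Real.sqrt_le_sqrt ?_) (Real.sqrt_nonneg _)
    (Real.sqrt_nonneg _)
  · refine le_trans (le_of_eq ?_) (TY_le (S := S) hT)
    have e1 : ∀ b i j, EG fun g : Pair n → ℝ => Db S y l b (√q.t0 • g) i j ^ 2 := fun b i j =>
      (eg_sc (eg_Db hT b i j) (√q.t0)).pow 2
    rw [← integral_finsetSum _ fun b _ =>
      (EG.sum _ fun i _ => EG.sum _ fun j _ => e1 b i j).integrable]
    refine integral_congr_ae (Filter.Eventually.of_forall fun g => ?_)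
    simp only [Fintype.sum_prod_type]
  · refine le_trans (le_of_eq ?_) (int_Gr_sq (S := S) (σ := s3 q l) (Nb := Nb) ht2 hFn 3 hm
      (√q.t0))
    refine integral_congr_ae (Filter.Eventually.of_forall fun g => ?_)
    simp only [Fintype.sum_prod_type]

/-! ### the letters of the rates -/

lemma m3_zero : m3 q y 0 = q.x := by simp [m3]

lemma s3_zero : s3 q l 0 = √(q.s2 - q.t1) := by simp [s3]

lemma eQ_eq (hT : Tm q y l) (c : ℝ) : eQ S q.s2 (m3 q y) (s3 q l) 3 c =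
    H655.EnQ S q.t1 (fun j => m3 q y (1 + j)) (fun j => s3 q l (1 + j)) 2 c q.s2 :=
  H655.EnQ_eq (hT.h1.trans hT.h2) hT.h3 m3_zero s3_zero 2 c

lemma Cl_eq_CW (hT : Tm q y l) (z : Pair n → ℝ) :
    (fun i j => Cl S q.s2 (m3 q y) (s3 q l) 3 i j z) =
      H655.CW S q.t1 (fun j => m3 q y (1 + j)) (fun j => s3 q l (1 + j)) 2 z := by
  funext i j
  have h1 := H655.Tl_eq_E1 (S := S) (hT.h1.trans hT.h2) hT.h3 (m3_zero (q := q) (y := y))
    (s3_zero (q := q) (l := l)) (fun u => S.A q.s2 u i j) 2 z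
  exact h1.trans (H655.E1_A (hT.h1.trans hT.h2) hT.h3 i j z)

lemma eB_eq (hT : Tm q y l) (c : ℝ) : eB S q.s2 (m3 q y) (s3 q l) 3 c =
    H655.EnB S q.t1 (fun j => m3 q y (1 + j)) (fun j => s3 q l (1 + j)) 2 c q.s2 := by
  unfold eB H655.EnB H655.EnW
  refine integral_congr_ae (Filter.Eventually.of_forall fun g => ?_)
  simp only
  rw [Cl_eq_CW hT (c • g)]
  exact H655.Tl_eq_E1 (S := S) (hT.h1.trans hT.h2) hT.h3 (m3_zero (q := q) (y := y))
    (s3_zero (q := q) (l := l)) _ 2 (c • g)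

lemma eP_eq (hT : Tm q y l) (c : ℝ) : eP S q.s2 (m3 q y) (s3 q l) 3 c Nb =
    H946.En2.pB S q.t1 (fun j => m3 q y (1 + j)) (fun j => s3 q l (1 + j)) 2 c Nb q.s2 := by
  unfold eP H946.En2.pB
  refine integral_congr_ae (Filter.Eventually.of_forall fun g => ?_)
  exact H655.Tl_eq_E1 (S := S) (hT.h1.trans hT.h2) hT.h3 (m3_zero (q := q) (y := y))
    (s3_zero (q := q) (l := l)) _ 2 (c • g)

end deep

end Vale.Agent.P146.H693
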