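import Vale.Agent.P146.H712.BtFn
import Vale.Agent.P146.H191.FYZ
import Vale.Agent.P146.H941.HessS

/-!
The derivatives of the overlap matrix as forms: `|v' (D_e C) v| ≤ k Γ v' C v`,
`tr (Y (D_e C) ^ 2) ≤ 10 (k Γ)² |C| tr (Y C)`.
-/

open MeasureTheory ProbabilityTheory

namespace Vale.Agent.P146.H693

open Vale.Agent.P157.Lv Vale.Agent.P146.H425 Vale.Agent.P146.H325 Vale.Agent.P146.H332
  Vale.Agent.P146.H712 Vale.Agent.P146.R1 Vale.Agent.P146.R1C Matrix
  Vale.Agent.P146.R1S Vale.Agent.P146.Cum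
open Vale.Agent.P146.H191 (bY bM fro Pf)

set_option linter.unusedSectionVars false

variable {n : ℕ} {k x s Γ : ℝ}

lemma sum_pr_sq (v : Fin n → ℝ) (σ : Fin n → ℤˣ) :
    ∑ i, ∑ j, pr i j σ * (v i * v j) = (∑ i, v i * sp σ i) ^ 2 := by
  rw [_root_.sq, Finset.sum_mul_sum]
  refine Finset.sum_congr rfl fun i _ => Finset.sum_congr rfl fun j _ => ?_
  unfold pr
  ring

/-- **The derivatives as forms.** -/
theorem DA_form (S : CS n k x) (hFn : Fn k SkS (uu x s S.F) (S.mu s) Γ) (e : Pair n)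
    (z : Pair n → ℝ) (v : Fin n → ℝ) :
    |∑ i, ∑ j, S.DA s e z i j * (v i * v j)| ≤
      k * Γ * ∑ i, ∑ j, S.A s z i j * (v i * v j) := by
  obtain ⟨-, T', h1, h2⟩ := hFn.good 1
  have h4 : Dm (S.mu s) Γ T' := Dm.mono (show Dm (S.mu s) _ T' from h2) (by simp)
  obtain ⟨P, M, p, m, hP, hM, h0, h5⟩ := h4
  -- the entries
  have hD : ∀ i j, S.DA s e z i j = k * ∑ y : Option Unit → Fin n → ℤˣ,
      T' z y * (SkS e (y none) * pr i j (y (some ()))) := by
    intro i j
    have eA : (fun z => S.A s z i j) =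
        ev (fun z (x : Unit → Fin n → ℤˣ) => S.mu s z (x ())) (fun _ => pr i j) := by
      funext z
      rw [S.A_mu]
      unfold ev
      rw [← sum_unit (fun v => S.mu s z v * pr i j v)]
      exact Finset.sum_congr rfl fun x _ => by simp
    have p1 := pd_ev h1 (fun _ => pr i j) e
    have p2 := tpd S s e i j
    rw [eA] at p2
    have h3 : S.DA s e z i j = k * ev T' (exg (fun _ => pr i j) (SkS e)) z := by
      have h3 := (p2 z (z e)).unique (p1 z (z e))
      rwa [Function.update_eq_self] at h3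
    rw [h3]
    congr 1
    unfold ev
    refine Finset.sum_congr rfl fun y _ => ?_
    congr 1
    rw [Fintype.prod_option]
    simp [exg]
  have hk := S.k0
  have hsum : ∑ i, ∑ j, S.DA s e z i j * (v i * v j) =
      k * ∑ y : Option Unit → Fin n → ℤˣ,
        T' z y * (SkS e (y none) * (∑ i, v i * sp (y (some ())) i) ^ 2) := by
    simp only [hD, ← sum_pr_sq]
    simp only [Finset.mul_sum, Finset.sum_mul]
    have e1 : ∀ i : Fin n, ∑ j, ∑ y : Option Unit → Fin n → ℤˣ,
        k * (T' z y * (SkS e (y none) * pr i j (y (some ())))) * (v i * v j) =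
        ∑ y : Option Unit → Fin n → ℤˣ, ∑ j,
        k * (T' z y * (SkS e (y none) * pr i j (y (some ())))) * (v i * v j) :=
      fun i => Finset.sum_comm
    simp only [e1]
    rw [Finset.sum_comm]
    refine Finset.sum_congr rfl fun y _ => Finset.sum_congr rfl fun i _ =>
      Finset.sum_congr rfl fun j _ => ?_
    ring
  have hA : ∑ i, ∑ j, S.A s z i j * (v i * v j) =
      ∑ σ, S.mu s z σ * (∑ i, v i * sp σ i) ^ 2 := by
    simp only [S.A_mu, ← sum_pr_sq]
    simp only [Finset.mul_sum, Finset.sum_mul]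
    have e1 : ∀ i : Fin n, ∑ j, ∑ σ, S.mu s z σ * pr i j σ * (v i * v j) =
        ∑ σ, ∑ j, S.mu s z σ * pr i j σ * (v i * v j) := fun i => Finset.sum_comm
    simp only [e1]
    rw [Finset.sum_comm]
    refine Finset.sum_congr rfl fun y _ => Finset.sum_congr rfl fun i _ =>
      Finset.sum_congr rfl fun j _ => ?_
    ring
  rw [hsum, hA, abs_mul, abs_of_pos hk, mul_assoc]
  refine mul_le_mul_of_nonneg_left ?_ hk.le
  set f : (Fin n → ℤˣ) → ℝ := fun σ => (∑ i, v i * sp σ i) ^ 2 with hf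
  have hf0 : ∀ σ, 0 ≤ f σ := fun σ => sq_nonneg _
  have h6 : |∑ y : Option Unit → Fin n → ℤˣ, T' z y * (SkS e (y none) * f (y (some ())))| ≤
      ∑ y : Option Unit → Fin n → ℤˣ, (P z y * f (y (some ())) + M z y * f (y (some ()))) := by
    refine (Finset.abs_sum_le_sum_abs _ _).trans (Finset.sum_le_sum fun y _ => ?_)
    rw [abs_mul, abs_mul, abs_of_nonneg (hf0 _), h0]
    have b1 : |SkS e (y none)| ≤ 1 := (R1S.abs_pr e.1.1 e.1.2 (y none)).le
    have b2 : |P z y - M z y| ≤ P z y + M z y := by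
      rw [abs_le]
      constructor <;> linarith [hP.nn z y, hM.nn z y]
    have b3 : 0 ≤ P z y + M z y := add_nonneg (hP.nn z y) (hM.nn z y)
    calc |P z y - M z y| * (|SkS e (y none)| * f (y (some ()))) ≤
        (P z y + M z y) * (1 * f (y (some ()))) :=
          mul_le_mul b2 (mul_le_mul_of_nonneg_right b1 (hf0 _))
            (mul_nonneg (abs_nonneg _) (hf0 _)) b3
      _ = _ := by ring
  have h7 : ∑ y : Option Unit → Fin n → ℤˣ,
      (P z y * f (y (some ())) + M z y * f (y (some ()))) =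
      (p + m) * ∑ σ, S.mu s z σ * f σ := by
    rw [Finset.sum_add_distrib, hP.marg z (some ()) f, hM.marg z (some ()) f]
    ring
  refine h6.trans (h7.le.trans (mul_le_mul_of_nonneg_right h5 ?_))
  exact Finset.sum_nonneg fun σ _ => mul_nonneg (S.mu0 s z σ) (hf0 σ)

lemma bM_smul (Y X Z : Fin n → Fin n → ℝ) (a b : ℝ) :
    bM Y (fun i j => a * X i j) (fun i j => b * Z i j) = a * b * bM Y X Z := by
  unfold bM bY
  simp only [Finset.mul_sum]
  exact Finset.sum_congr rfl fun j _ => Finset.sum_congr rfl fun i _ =>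
    Finset.sum_congr rfl fun l _ => by ring

/-- `<X - Z, X - Z> ≤ 2 <X, X> + 2 <Z, Z>` -/
lemma bM_sub_le {Y : Fin n → Fin n → ℝ} (hY : Pf Y) (X Z : Fin n → Fin n → ℝ) :
    bM Y (fun i j => X i j - Z i j) (fun i j => X i j - Z i j) ≤
      2 * bM Y X X + 2 * bM Y Z Z := by
  have h1 : 0 ≤ bM Y (fun i j => X i j + Z i j) (fun i j => X i j + Z i j) :=
    Finset.sum_nonneg fun j _ => hY.ps fun i => X i j + Z i j
  have h2 : bM Y (fun i j => X i j + Z i j) (fun i j => X i j + Z i j) +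
      bM Y (fun i j => X i j - Z i j) (fun i j => X i j - Z i j) =
      2 * bM Y X X + 2 * bM Y Z Z := by
    unfold bM bY
    simp only [Finset.mul_sum, ← Finset.sum_add_distrib]
    exact Finset.sum_congr rfl fun j _ => Finset.sum_congr rfl fun i _ =>
      Finset.sum_congr rfl fun l _ => by ring
  linarith

/-- **`tr (Y (D_e C) ^ 2) ≤ 10 (k Γ)² |C| tr (Y C)`** -/
theorem bM_DA_le (S : CS n k x) (hFn : Fn k SkS (uu x s S.F) (S.mu s) Γ)
    {Y : Fin n → Fin n → ℝ} (hY : Pf Y) (e : Pair n) (z : Pair n → ℝ) :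
    bM Y (S.DA s e z) (S.DA s e z) ≤
      10 * (k * Γ) ^ 2 * (fro (S.A s z) * ∑ i, ∑ l, Y i l * S.A s z i l) := by
  set c := k * Γ with hc
  have hc0 : 0 ≤ c := mul_nonneg S.k0.le hFn.Γ0
  have hf := fun v : Fin n → ℝ => abs_le.1 (DA_form S hFn e z v)
  have hA0 : ∀ v : Fin n → ℝ, 0 ≤ ∑ i, ∑ j, S.A s z i j * (v i * v j) := fun v =>
    (H191.pf_A S s z).ps v
  set X : Fin n → Fin n → ℝ := fun i j => S.DA s e z i j + c * S.A s z i j with hX
  have qX : ∀ v : Fin n → ℝ, ∑ i, ∑ j, X i j * (v i * v j) =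
      ∑ i, ∑ j, S.DA s e z i j * (v i * v j) + c * ∑ i, ∑ j, S.A s z i j * (v i * v j) := by
    intro v
    simp only [hX, Finset.mul_sum, ← Finset.sum_add_distrib]
    exact Finset.sum_congr rfl fun i _ => Finset.sum_congr rfl fun l _ => by ring
  have hXp : Pf X := ⟨fun i l => by
    simp only [hX]
    rw [S.DA_comm, S.A_comm], fun v => by
    rw [qX v]
    linarith [(hf v).1]⟩
  have hC2 : Pf fun i j => (2 * c) * S.A s z i j := ⟨fun i l => by
    rw [S.A_comm], fun v => by
    have h := mul_nonneg (show 0 ≤ 2 * c by linarith) (hA0 v)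
    refine h.trans (le_of_eq ?_)
    simp only [Finset.mul_sum]
    exact Finset.sum_congr rfl fun i _ => Finset.sum_congr rfl fun l _ => by ring⟩
  have hle : ∀ v, bY X v v ≤ bY (fun i j => (2 * c) * S.A s z i j) v v := by
    intro v
    have e1 : bY (fun i j => (2 * c) * S.A s z i j) v v =
        2 * c * ∑ i, ∑ j, S.A s z i j * (v i * v j) := by
      unfold bY
      simp only [Finset.mul_sum]
      exact Finset.sum_congr rfl fun i _ => Finset.sum_congr rfl fun l _ => by ring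
    have e2 : bY X v v = ∑ i, ∑ j, X i j * (v i * v j) := rfl
    rw [e1, e2, qX v]
    linarith [(hf v).2]
  have h1 := hY.bM_le hXp hC2 hle
  have f2 : fro (fun i j => (2 * c) * S.A s z i j) = 2 * c * fro (S.A s z) := by
    unfold H191.fro
    have e1 : ∑ i, ∑ j, ((2 * c) * S.A s z i j) ^ 2 =
        (2 * c) ^ 2 * ∑ i, ∑ j, S.A s z i j ^ 2 := by
      simp only [Finset.mul_sum]
      exact Finset.sum_congr rfl fun i _ => Finset.sum_congr rfl fun l _ => by ring
    rw [e1, Real.sqrt_mul (sq_nonneg _), Real.sqrt_sq (by linarith)]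
  have f3 : ∑ i, ∑ l, Y i l * ((2 * c) * S.A s z i l) =
      2 * c * ∑ i, ∑ l, Y i l * S.A s z i l := by
    simp only [Finset.mul_sum]
    exact Finset.sum_congr rfl fun i _ => Finset.sum_congr rfl fun l _ => by ring
  rw [f2, f3] at h1
  have h2 := hY.bM_le (H191.pf_A S s z) (H191.pf_A S s z) fun v => le_rfl
  have h3 := bM_sub_le hY X fun i j => c * S.A s z i j
  have e3 : (fun i j => X i j - c * S.A s z i j) = S.DA s e z := by
    funext i j
    simp only [hX]
    ring
  rw [e3] at h3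
  have h3' : bM Y (S.DA s e z) (S.DA s e z) ≤ 2 * bM Y X X +
      2 * (c * c * bM Y (S.A s z) (S.A s z)) :=
    le_of_le_of_eq h3 (congrArg (fun t => 2 * bM Y X X + 2 * t)
      (bM_smul Y (S.A s z) (S.A s z) c c))
  have h4 : c * c * bM Y (S.A s z) (S.A s z) ≤
      c * c * (fro (S.A s z) * ∑ i, ∑ l, Y i l * S.A s z i l) :=
    mul_le_mul_of_nonneg_left h2 (mul_nonneg hc0 hc0)
  nlinarith [h1, h3', h4]

end Vale.Agent.P146.H693
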