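import Vale.Agent.P146.H693.Tou2

/-!
Row F0 of plan R2, part 3: the averages `E_1` (base time `t1`, exponent `0` up to `tw`, exponent
`x` from `tw` to `t2`), the matrix `Q_1 = E_1 [C_2 ^ 2]`, and its derivatives.
-/

open MeasureTheory ProbabilityTheory

namespace Vale.Agent.P146.H693

open Vale.Agent.P157.Lv Vale.Agent.P146.H425 Vale.Agent.P146.H325 Vale.Agent.P146.H332
  Vale.Agent.P146.H712 Vale.Agent.P146.H816 Vale.Agent.P146.R1 Vale.Agent.P146.R1C Matrix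
  Vale.Agent.P146.R1S
open Vale.Agent.P146.H785 (Ax)

set_option linter.unusedSectionVars false

variable {n : ℕ} {k x : ℝ} (S : CS n k x)

/-- the tilted average from the time `tw` to the time `t2` -/
noncomputable def Aw (tw t2 : ℝ) (φ : (Pair n → ℝ) → ℝ) (z : Pair n → ℝ) : ℝ :=
  Ax x (√(t2 - tw)) (uu x t2 S.F) φ z

/-- the free average from the time `t1` to the time `tw` -/
noncomputable def B0 (t1 tw : ℝ) (φ : (Pair n → ℝ) → ℝ) (z : Pair n → ℝ) : ℝ :=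
  Ax 0 (√(tw - t1)) (uu x tw S.F) φ z

/-- the average `E_1` -/
noncomputable def B1 (t1 tw t2 : ℝ) (φ : (Pair n → ℝ) → ℝ) (z : Pair n → ℝ) : ℝ :=
  B0 S t1 tw (Aw S tw t2 φ) z

lemma B0_eq (t1 tw : ℝ) (φ : (Pair n → ℝ) → ℝ) (z : Pair n → ℝ) :
    B0 S t1 tw φ z = ∫ g, φ (z + √(tw - t1) • g) ∂(gI (Pair n)) := by
  unfold B0 Ax
  simp

lemma eg_Aw (tw t2 : ℝ) {φ : (Pair n → ℝ) → ℝ} (h : EG φ) : EG (Aw S tw t2 φ) :=
  eg_Ax (c11_uu S.c11 S.x0 t2) h _ _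

lemma eg_B0 (t1 tw : ℝ) {φ : (Pair n → ℝ) → ℝ} (h : EG φ) : EG (B0 S t1 tw φ) :=
  eg_Ax (c11_uu S.c11 S.x0 tw) h _ _

lemma eg_B1 (t1 tw t2 : ℝ) {φ : (Pair n → ℝ) → ℝ} (h : EG φ) : EG (B1 S t1 tw t2 φ) :=
  eg_B0 S t1 tw (eg_Aw S tw t2 h)

/-- the derivative of a free average -/
lemma fd_B0 (t1 tw : ℝ) {φ : (Pair n → ℝ) → ℝ} {φ' : Pair n → (Pair n → ℝ) → ℝ} (hφ : EG φ)
    (hφ' : ∀ f, EG (φ' f)) (hd : ∀ y, HasFDerivAt φ (H785.lf fun f => φ' f y) y)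
    (y : Pair n → ℝ) :
    HasFDerivAt (B0 S t1 tw φ) (H785.lf fun f => B0 S t1 tw (φ' f) y) y := by
  have h := H785.fd_Ax (c11_uu S.c11 S.x0 tw) hφ hφ' hd 0 (√(tw - t1)) y
  simp only [zero_mul, add_zero] at h
  exact h

/-- the derivative of a tilted average -/
lemma fd_Aw0 (tw t2 : ℝ) {φ : (Pair n → ℝ) → ℝ} {φ' : Pair n → (Pair n → ℝ) → ℝ} (hφ : EG φ)
    (hφ' : ∀ f, EG (φ' f)) (hd : ∀ y, HasFDerivAt φ (H785.lf fun f => φ' f y) y)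
    (y : Pair n → ℝ) :
    HasFDerivAt (Aw S tw t2 φ) (H785.lf fun f => Aw S tw t2 (φ' f) y +
      x * (Aw S tw t2 (fun u => φ u * dd x t2 S.F S.D f u) y -
        Aw S tw t2 φ y * Aw S tw t2 (dd x t2 S.F S.D f) y)) y :=
  H785.fd_Ax (c11_uu S.c11 S.x0 t2) hφ hφ' hd x (√(t2 - tw)) y

/-- the value function at the time `tw` in terms of the value function at the time `t2` -/
lemma uu_tw {tw t2 : ℝ} (h1 : tw ≤ t2) (h2 : t2 ≤ 1) (z : Pair n → ℝ) :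
    uu x tw S.F z = W x (√(t2 - tw)) (uu x t2 S.F) z := by
  have hx := S.x0
  have h := uu_step S.c11 S.x0 h1 h2 z
  have h3 := (c11_uu S.c11 S.x0 t2).lip.exp_W (c11_uu S.c11 S.x0 t2).B0 S.x0
    (s := √(t2 - tw)) z
  have h4 : Real.exp (x * uu x tw S.F z) = Real.exp (x * W x (√(t2 - tw)) (uu x t2 S.F) z) := by
    rw [← h]
    exact h3.symm
  have h5 := Real.exp_injective h4
  exact mul_left_cancel₀ hx.ne' h5

lemma Aw_const_mul (tw t2 c : ℝ) (φ : (Pair n → ℝ) → ℝ) (z : Pair n → ℝ) :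
    Aw S tw t2 (fun u => c * φ u) z = c * Aw S tw t2 φ z := H785.Ax_const_mul c φ _ _ z

lemma Aw_const (tw t2 c : ℝ) (z : Pair n → ℝ) : Aw S tw t2 (fun _ => c) z = c :=
  H785.Ax_const (c11_uu S.c11 S.x0 t2).lip (c11_uu S.c11 S.x0 t2).B0 c _ _ z

lemma Aw_add (tw t2 : ℝ) {φ ψ : (Pair n → ℝ) → ℝ} (h : EG φ) (h' : EG ψ) (z : Pair n → ℝ) :
    Aw S tw t2 (fun u => φ u + ψ u) z = Aw S tw t2 φ z + Aw S tw t2 ψ z :=
  H785.Ax_add (c11_uu S.c11 S.x0 t2).lip (c11_uu S.c11 S.x0 t2).B0 h h' _ _ z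

lemma Aw_sum (tw t2 : ℝ) {ι : Type*} (T : Finset ι) {φ : ι → (Pair n → ℝ) → ℝ}
    (h : ∀ i ∈ T, EG (φ i)) (z : Pair n → ℝ) :
    Aw S tw t2 (fun u => ∑ i ∈ T, φ i u) z = ∑ i ∈ T, Aw S tw t2 (φ i) z :=
  H785.Ax_sum (c11_uu S.c11 S.x0 t2).lip (c11_uu S.c11 S.x0 t2).B0 T h _ _ z

lemma B0_const_mul (t1 tw c : ℝ) (φ : (Pair n → ℝ) → ℝ) (z : Pair n → ℝ) :
    B0 S t1 tw (fun u => c * φ u) z = c * B0 S t1 tw φ z := H785.Ax_const_mul c φ _ _ z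

lemma B0_add (t1 tw : ℝ) {φ ψ : (Pair n → ℝ) → ℝ} (h : EG φ) (h' : EG ψ) (z : Pair n → ℝ) :
    B0 S t1 tw (fun u => φ u + ψ u) z = B0 S t1 tw φ z + B0 S t1 tw ψ z :=
  H785.Ax_add (c11_uu S.c11 S.x0 tw).lip (c11_uu S.c11 S.x0 tw).B0 h h' _ _ z

lemma B0_sum (t1 tw : ℝ) {ι : Type*} (T : Finset ι) {φ : ι → (Pair n → ℝ) → ℝ}
    (h : ∀ i ∈ T, EG (φ i)) (z : Pair n → ℝ) :
    B0 S t1 tw (fun u => ∑ i ∈ T, φ i u) z = ∑ i ∈ T, B0 S t1 tw (φ i) z :=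
  H785.Ax_sum (c11_uu S.c11 S.x0 tw).lip (c11_uu S.c11 S.x0 tw).B0 T h _ _ z

lemma B1_const_mul (t1 tw t2 c : ℝ) (φ : (Pair n → ℝ) → ℝ) (z : Pair n → ℝ) :
    B1 S t1 tw t2 (fun u => c * φ u) z = c * B1 S t1 tw t2 φ z := by
  unfold B1
  have h : Aw S tw t2 (fun u => c * φ u) = fun u => c * Aw S tw t2 φ u :=
    funext fun u => Aw_const_mul S tw t2 c φ u
  rw [h]
  exact B0_const_mul S t1 tw c _ z

lemma B1_add (t1 tw t2 : ℝ) {φ ψ : (Pair n → ℝ) → ℝ} (h : EG φ) (h' : EG ψ) (z : Pair n → ℝ) :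
    B1 S t1 tw t2 (fun u => φ u + ψ u) z = B1 S t1 tw t2 φ z + B1 S t1 tw t2 ψ z := by
  unfold B1
  have h1 : Aw S tw t2 (fun u => φ u + ψ u) = fun u => Aw S tw t2 φ u + Aw S tw t2 ψ u :=
    funext fun u => Aw_add S tw t2 h h' u
  rw [h1]
  exact B0_add S t1 tw (eg_Aw S tw t2 h) (eg_Aw S tw t2 h') z

lemma B1_sum (t1 tw t2 : ℝ) {ι : Type*} (T : Finset ι) {φ : ι → (Pair n → ℝ) → ℝ}
    (h : ∀ i ∈ T, EG (φ i)) (z : Pair n → ℝ) :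
    B1 S t1 tw t2 (fun u => ∑ i ∈ T, φ i u) z = ∑ i ∈ T, B1 S t1 tw t2 (φ i) z := by
  unfold B1
  have h1 : Aw S tw t2 (fun u => ∑ i ∈ T, φ i u) = fun u => ∑ i ∈ T, Aw S tw t2 (φ i) u :=
    funext fun u => Aw_sum S tw t2 T h u
  rw [h1]
  exact B0_sum S t1 tw T (fun i hi => eg_Aw S tw t2 (h i hi)) z

/-- **The matrix at the time `tw` is the tilted average of the matrix at the time `t2`.** -/
theorem A_tw {tw t2 : ℝ} (h1 : tw ≤ t2) (h2 : t2 ≤ 1) (z : Pair n → ℝ) (i j : Fin n) :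
    S.A tw z i j = Aw S tw t2 (fun u => S.A t2 u i j) z := by
  have key : ∀ e : Pair n, S.A tw z e.1.1 e.1.2 = Aw S tw t2 (fun u => S.A t2 u e.1.1 e.1.2) z := by
    intro e
    have hc := (c11_uu S.c11 S.x0 t2).W' S.x0 (√(t2 - tw))
    have p1 : PD e (W x (√(t2 - tw)) (uu x t2 S.F)) (DW x (√(t2 - tw)) (uu x t2 S.F)
        (dd x t2 S.F S.D) e) := H785.pd_of_fd (fun z => H785.C11.hasFDerivAt hc z) e
    have p2 := S.pd_uu tw e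
    have e1 : uu x tw S.F = W x (√(t2 - tw)) (uu x t2 S.F) := funext fun z => uu_tw S h1 h2 z
    rw [e1] at p2
    have h3 := PD_unique p2 p1 z
    rw [H785.DW_eq] at h3
    have e2 : dd x t2 S.F S.D e = fun u => k * S.A t2 u e.1.1 e.1.2 :=
      funext fun u => S.dd_eq t2 e u
    rw [e2] at h3
    have h4 := Aw_const_mul S tw t2 k (fun u => S.A t2 u e.1.1 e.1.2) z
    exact mul_left_cancel₀ S.k0.ne' (h3.trans h4)
  rcases lt_trichotomy i j with h | h | h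
  · exact key ⟨(i, j), h⟩
  · subst h
    simp only [S.A_self]
    exact (Aw_const S tw t2 1 z).symm
  · rw [S.A_comm]
    simp only [S.A_comm t2 _ i j]
    exact key ⟨(j, i), h⟩

end Vale.Agent.P146.H693
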