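import Vale.Agent.P146.H693.F0Q

/-!
Row F0 of plan R2, part 5: Gaussian integration by parts of `E tr (Z Q_1 ^ 2)`.
-/

open MeasureTheory ProbabilityTheory

namespace Vale.Agent.P146.H693

open Vale.Agent.P157.Lv Vale.Agent.P146.H425 Vale.Agent.P146.H325 Vale.Agent.P146.H332
  Vale.Agent.P146.H712 Vale.Agent.P146.H816 Vale.Agent.P146.R1 Vale.Agent.P146.R1C Matrix
  Vale.Agent.P146.R1S
open Vale.Agent.P146.H785 (Ax)

set_option linter.unusedSectionVars false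

variable {n : ℕ} {k x : ℝ} (S : CS n k x)

/-- `∑_b <M, C H_b>` -/
def T1 (t : ℝ) (M : Matrix (Fin n) (Fin n) ℝ) (u : Pair n → ℝ) : ℝ :=
  ∑ b, ∑ i, ∑ j, M i j * (S.A t u * S.H t b u) i j

/-- `<M, C ^ 3>` -/
def T3 (t : ℝ) (M : Matrix (Fin n) (Fin n) ℝ) (u : Pair n → ℝ) : ℝ :=
  ∑ i, ∑ j, M i j * (S.A t u * S.A t u * S.A t u) i j

/-- the touch term -/
def Tt (t : ℝ) (M : Matrix (Fin n) (Fin n) ℝ) (u : Pair n → ℝ) : ℝ :=
  ∑ b, ∑ e ∈ H325.row b, ∑ i, ∑ l, M i (oth b e) * S.A t u l b * S.DA t e u i l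

/-- `<M, E_w [C_2 ^ 2] C_w>` -/
noncomputable def Jw (tw t2 : ℝ) (M : Matrix (Fin n) (Fin n) ℝ) (u : Pair n → ℝ) : ℝ :=
  ∑ i, ∑ j, M i j * ∑ b, Aw S tw t2 (A2 S t2 i b) u * S.A tw u b j

lemma sum_two_rows (f : Fin n → Pair n → ℝ) :
    ∑ b, ∑ e ∈ H325.row b, f b e = ∑ e : Pair n, (f e.1.1 e + f e.1.2 e) := by
  have h1 : ∀ b, ∑ e ∈ H325.row b, f b e = ∑ e : Pair n,
      ((if e.1.1 = b then f b e else 0) + (if e.1.2 = b then f b e else 0)) := by
    intro b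
    unfold H325.row
    rw [Finset.sum_filter]
    refine Finset.sum_congr rfl fun e _ => ?_
    have := e.2.ne
    by_cases h1 : e.1.1 = b
    · have h2 : e.1.2 ≠ b := fun h => this (h1.trans h.symm)
      simp [h1, h2]
    · simp [h1]
  simp only [h1]
  rw [Finset.sum_comm]
  refine Finset.sum_congr rfl fun e _ => ?_
  rw [Finset.sum_add_distrib]
  simp

lemma row_dA2 {t : ℝ} (ht : 0 < t) (M : Matrix (Fin n) (Fin n) ℝ) (u : Pair n → ℝ) :
    ∑ b, ∑ e ∈ H325.row b, ∑ i, M i (oth b e) * dA2 S t i b e u =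
      k * T1 S t M u + Tt S t M u := by
  unfold T1 Tt
  rw [Finset.mul_sum, ← Finset.sum_add_distrib]
  refine Finset.sum_congr rfl fun b _ => ?_
  have h1 : ∑ i, ∑ j, M i j * (S.A t u * S.H t b u) i j =
      ∑ e ∈ H325.row b, ∑ i, M i (oth b e) * (S.A t u * S.H t b u) i (oth b e) := by
    rw [Finset.sum_comm]
    rw [← sum_row_all b (G := fun j => ∑ i, M i j * (S.A t u * S.H t b u) i j)]
    refine Finset.sum_eq_zero fun i _ => ?_
    rw [Matrix.mul_apply]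
    simp [S.H_row ht b u]
  rw [h1, Finset.mul_sum, ← Finset.sum_add_distrib]
  refine Finset.sum_congr rfl fun e he => ?_
  rw [Finset.mul_sum, ← Finset.sum_add_distrib]
  refine Finset.sum_congr rfl fun i _ => ?_
  unfold dA2
  rw [Matrix.mul_apply, Finset.sum_add_distrib, mul_add, add_comm]
  congr 1
  · simp only [Finset.mul_sum]
    refine Finset.sum_congr rfl fun l _ => ?_
    rw [S.DA_row ht he]
    ring
  · simp only [Finset.mul_sum]
    refine Finset.sum_congr rfl fun l _ => ?_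
    ring

lemma row_A3 (M : Matrix (Fin n) (Fin n) ℝ) (B : Matrix (Fin n) (Fin n) ℝ)
    (G : Fin n → Fin n → ℝ) (hB : ∀ i j, B i j = B j i) :
    ∑ b, ∑ e ∈ H325.row b, ∑ i, M i (oth b e) * (G i b * B e.1.1 e.1.2) =
      (∑ i, ∑ j, M i j * ∑ b, G i b * B b j) - ∑ b, ∑ i, M i b * G i b * B b b := by
  have h1 : ∀ b, ∑ e ∈ H325.row b, ∑ i, M i (oth b e) * (G i b * B e.1.1 e.1.2) =
      ∑ j, (∑ i, M i j * (G i b * B b j) - if j = b then ∑ i, M i b * (G i b * B b b) else 0) := by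
    intro b
    rw [← sum_row_all b (G := fun j => ∑ i, M i j * (G i b * B b j) -
      if j = b then ∑ i, M i b * (G i b * B b b) else 0) (by simp)]
    refine Finset.sum_congr rfl fun e he => ?_
    have h2 : oth b e ≠ b := oth_ne he
    rw [if_neg h2, sub_zero]
    refine Finset.sum_congr rfl fun i _ => ?_
    have h3 : B e.1.1 e.1.2 = B b (oth b e) := by
      unfold H325.row at he
      simp only [Finset.mem_filter, Finset.mem_univ, true_and] at he
      unfold oth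
      by_cases h : e.1.1 = b
      · rw [if_pos h, ← h]
      · rw [if_neg h]
        have h4 : e.1.2 = b := by tauto
        rw [← h4, hB]
    rw [h3]
  simp only [h1, Finset.sum_sub_distrib, Finset.sum_ite_eq', Finset.mem_univ, if_true]
  congr 1
  · have h5 : ∀ i j, M i j * ∑ b, G i b * B b j = ∑ b, M i j * (G i b * B b j) := fun i j =>
      Finset.mul_sum _ _ _
    simp only [h5]
    rw [Finset.sum_comm]
    have h6 : ∀ j, ∑ b, ∑ i, M i j * (G i b * B b j) = ∑ i, ∑ b, M i j * (G i b * B b j) :=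
      fun j => Finset.sum_comm
    simp only [h6]
    rw [Finset.sum_comm]
  · refine Finset.sum_congr rfl fun b _ => Finset.sum_congr rfl fun i _ => ?_
    ring

lemma eg_T1 {t : ℝ} (ht : 0 < t) (M : Matrix (Fin n) (Fin n) ℝ) : EG (T1 S t M) := by
  refine EG.sum _ fun b _ => EG.sum _ fun i _ => EG.sum _ fun j _ => EG.const_mul _ ?_
  simp only [Matrix.mul_apply]
  exact EG.sum _ fun l _ => (S.eg_A t i l).mul (S.eg_H ht b l j)

lemma T3_eq (t : ℝ) (M : Matrix (Fin n) (Fin n) ℝ) (u : Pair n → ℝ) :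
    T3 S t M u = ∑ i, ∑ j, M i j * ∑ b, A2 S t i b u * S.A t u b j := by
  unfold T3 A2
  refine Finset.sum_congr rfl fun i _ => Finset.sum_congr rfl fun j _ => ?_
  rw [Matrix.mul_apply]
  congr 1

lemma eg_T3 (t : ℝ) (M : Matrix (Fin n) (Fin n) ℝ) : EG (T3 S t M) := by
  have h : T3 S t M = fun u => ∑ i, ∑ j, M i j * ∑ b, A2 S t i b u * S.A t u b j :=
    funext fun u => T3_eq S t M u
  rw [h]
  exact EG.sum _ fun i _ => EG.sum _ fun j _ => EG.const_mul _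
    (EG.sum _ fun b _ => (eg_A2 S t i b).mul (S.eg_A t b j))

lemma eg_Tt (t : ℝ) (M : Matrix (Fin n) (Fin n) ℝ) : EG (Tt S t M) :=
  EG.sum _ fun b _ => EG.sum _ fun e _ => EG.sum _ fun i _ => EG.sum _ fun l _ =>
    ((S.eg_A t l b).const_mul _).mul (S.eg_DA t e i l)

lemma eg_Jw (tw t2 : ℝ) (M : Matrix (Fin n) (Fin n) ℝ) : EG (Jw S tw t2 M) :=
  EG.sum _ fun i _ => EG.sum _ fun j _ => EG.const_mul _
    (EG.sum _ fun b _ => (eg_Aw S tw t2 (eg_A2 S t2 i b)).mul (S.eg_A tw b j))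

/-- the integrand of the derivatives of `Q_1`, summed over the rows -/
lemma row_all {t2 : ℝ} (ht : 0 < t2) (M : Matrix (Fin n) (Fin n) ℝ) (u : Pair n → ℝ) :
    ∑ b, ∑ e ∈ H325.row b, ∑ i, M i (oth b e) * (dA2 S t2 i b e u +
      x * k * (A2 S t2 i b u * S.A t2 u e.1.1 e.1.2)) =
      k * T1 S t2 M u + Tt S t2 M u + x * k * (T3 S t2 M u -
        ∑ b, ∑ i, M i b * A2 S t2 i b u) := by
  have h1 := row_dA2 S ht M u
  have h2 := row_A3 M (S.A t2 u) (fun i b => A2 S t2 i b u) (fun i j => S.A_comm t2 u i j)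
  rw [← T3_eq] at h2
  simp only [S.A_self, mul_one] at h2
  rw [← h1, ← h2, Finset.mul_sum, ← Finset.sum_add_distrib]
  refine Finset.sum_congr rfl fun b _ => ?_
  rw [Finset.mul_sum, ← Finset.sum_add_distrib]
  refine Finset.sum_congr rfl fun e _ => ?_
  rw [Finset.mul_sum, ← Finset.sum_add_distrib]
  exact Finset.sum_congr rfl fun i _ => by ring

lemma row_w (tw t2 : ℝ) (M : Matrix (Fin n) (Fin n) ℝ) (u : Pair n → ℝ) :
    ∑ b, ∑ e ∈ H325.row b, ∑ i, M i (oth b e) * (Aw S tw t2 (A2 S t2 i b) u *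
      S.A tw u e.1.1 e.1.2) = Jw S tw t2 M u - ∑ b, ∑ i, M i b * Aw S tw t2 (A2 S t2 i b) u := by
  have h2 := row_A3 M (S.A tw u) (fun i b => Aw S tw t2 (A2 S t2 i b) u)
    (fun i j => S.A_comm tw u i j)
  simp only [S.A_self, mul_one] at h2
  exact h2

/-- **The derivatives of `Q_1`, summed over the rows.** -/
theorem sum_DQ {t2 : ℝ} (t1 tw : ℝ) (ht : 0 < t2) (M : Matrix (Fin n) (Fin n) ℝ)
    (z : Pair n → ℝ) :
    ∑ b, ∑ e ∈ H325.row b, ∑ i, M i (oth b e) * DQ S t1 tw t2 i b e z =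
      k * B1 S t1 tw t2 (T1 S t2 M) z + B1 S t1 tw t2 (Tt S t2 M) z +
        x * k * (B1 S t1 tw t2 (T3 S t2 M) z - B0 S t1 tw (Jw S tw t2 M) z) := by
  have e1 : ∀ (i b : Fin n) (e : Pair n), EG fun u => dA2 S t2 i b e u +
      x * k * (A2 S t2 i b u * S.A t2 u e.1.1 e.1.2) := fun i b e =>
    (eg_dA2 S t2 i b e).add (((eg_A2 S t2 i b).mul (S.eg_A t2 _ _)).const_mul _)
  have e2 : ∀ (i b : Fin n) (e : Pair n), EG fun u => Aw S tw t2 (A2 S t2 i b) u *
      S.A tw u e.1.1 e.1.2 := fun i b e => (eg_Aw S tw t2 (eg_A2 S t2 i b)).mul (S.eg_A tw _ _)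
  have h1 : B1 S t1 tw t2 (fun u => ∑ b, ∑ e ∈ H325.row b, ∑ i, M i (oth b e) *
      (dA2 S t2 i b e u + x * k * (A2 S t2 i b u * S.A t2 u e.1.1 e.1.2))) z =
      ∑ b, ∑ e ∈ H325.row b, ∑ i, M i (oth b e) * B1 S t1 tw t2 (fun u => dA2 S t2 i b e u +
        x * k * (A2 S t2 i b u * S.A t2 u e.1.1 e.1.2)) z := by
    rw [B1_sum S t1 tw t2 _ fun b _ => EG.sum _ fun e _ => EG.sum _ fun i _ =>
      (e1 i b e).const_mul _]
    refine Finset.sum_congr rfl fun b _ => ?_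
    rw [B1_sum S t1 tw t2 _ fun e _ => EG.sum _ fun i _ => (e1 i b e).const_mul _]
    refine Finset.sum_congr rfl fun e _ => ?_
    rw [B1_sum S t1 tw t2 _ fun i _ => (e1 i b e).const_mul _]
    exact Finset.sum_congr rfl fun i _ => B1_const_mul S t1 tw t2 _ _ z
  have h2 : B0 S t1 tw (fun u => ∑ b, ∑ e ∈ H325.row b, ∑ i, M i (oth b e) *
      (Aw S tw t2 (A2 S t2 i b) u * S.A tw u e.1.1 e.1.2)) z =
      ∑ b, ∑ e ∈ H325.row b, ∑ i, M i (oth b e) * B0 S t1 tw (fun u =>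
        Aw S tw t2 (A2 S t2 i b) u * S.A tw u e.1.1 e.1.2) z := by
    rw [B0_sum S t1 tw _ fun b _ => EG.sum _ fun e _ => EG.sum _ fun i _ =>
      (e2 i b e).const_mul _]
    refine Finset.sum_congr rfl fun b _ => ?_
    rw [B0_sum S t1 tw _ fun e _ => EG.sum _ fun i _ => (e2 i b e).const_mul _]
    refine Finset.sum_congr rfl fun e _ => ?_
    rw [B0_sum S t1 tw _ fun i _ => (e2 i b e).const_mul _]
    exact Finset.sum_congr rfl fun i _ => B0_const_mul S t1 tw _ _ z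
  have e3 : EG fun u => ∑ b, ∑ i, M i b * A2 S t2 i b u :=
    EG.sum _ fun b _ => EG.sum _ fun i _ => (eg_A2 S t2 i b).const_mul _
  have h3 : B1 S t1 tw t2 (fun u => ∑ b, ∑ i, M i b * A2 S t2 i b u) z =
      B0 S t1 tw (fun u => ∑ b, ∑ i, M i b * Aw S tw t2 (A2 S t2 i b) u) z := by
    unfold B1
    congr 1
    funext u
    rw [Aw_sum S tw t2 _ fun b _ => EG.sum _ fun i _ => (eg_A2 S t2 i b).const_mul _]
    refine Finset.sum_congr rfl fun b _ => ?_
    rw [Aw_sum S tw t2 _ fun i _ => (eg_A2 S t2 i b).const_mul _]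
    exact Finset.sum_congr rfl fun i _ => Aw_const_mul S tw t2 _ _ u
  have h4 : ∑ b, ∑ e ∈ H325.row b, ∑ i, M i (oth b e) * DQ S t1 tw t2 i b e z =
      (∑ b, ∑ e ∈ H325.row b, ∑ i, M i (oth b e) * B1 S t1 tw t2 (fun u => dA2 S t2 i b e u +
        x * k * (A2 S t2 i b u * S.A t2 u e.1.1 e.1.2)) z) -
      x * k * ∑ b, ∑ e ∈ H325.row b, ∑ i, M i (oth b e) * B0 S t1 tw (fun u =>
        Aw S tw t2 (A2 S t2 i b) u * S.A tw u e.1.1 e.1.2) z := by
    rw [Finset.mul_sum, ← Finset.sum_sub_distrib]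
    refine Finset.sum_congr rfl fun b _ => ?_
    rw [Finset.mul_sum, ← Finset.sum_sub_distrib]
    refine Finset.sum_congr rfl fun e _ => ?_
    rw [Finset.mul_sum, ← Finset.sum_sub_distrib]
    refine Finset.sum_congr rfl fun i _ => ?_
    unfold DQ
    ring
  rw [h4, ← h1, ← h2]
  simp only [row_all S ht, row_w]
  have g1 : (fun u => k * T1 S t2 M u + Tt S t2 M u + x * k * (T3 S t2 M u -
      ∑ b, ∑ i, M i b * A2 S t2 i b u)) = fun u => (k * T1 S t2 M u + Tt S t2 M u) +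
        (x * k * T3 S t2 M u + (-(x * k)) * ∑ b, ∑ i, M i b * A2 S t2 i b u) := by
    funext u; ring
  have g2 : (fun u => Jw S tw t2 M u - ∑ b, ∑ i, M i b * Aw S tw t2 (A2 S t2 i b) u) =
      fun u => Jw S tw t2 M u + (-1) * ∑ b, ∑ i, M i b * Aw S tw t2 (A2 S t2 i b) u := by
    funext u; ring
  rw [g1, g2, B1_add S t1 tw t2 (((eg_T1 S ht M).const_mul _).add (eg_Tt S t2 M))
    (((eg_T3 S t2 M).const_mul _).add (e3.const_mul _)),
    B1_add S t1 tw t2 ((eg_T1 S ht M).const_mul _) (eg_Tt S t2 M),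
    B1_add S t1 tw t2 ((eg_T3 S t2 M).const_mul _) (e3.const_mul _),
    B1_const_mul, B1_const_mul, B1_const_mul, h3,
    B0_add S t1 tw (eg_Jw S tw t2 M) ((EG.sum _ fun b _ => EG.sum _ fun i _ =>
      (eg_Aw S tw t2 (eg_A2 S t2 i b)).const_mul _).const_mul _), B0_const_mul]
  ring

end Vale.Agent.P146.H693
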