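import Vale.Agent.P146.H693.F0G

/-!
Plan R2, row F0 with the touch term kept on the left side, nested and in the two level law
`R1C.GTwo`.
-/

open MeasureTheory ProbabilityTheory

namespace Vale.Agent.P146.H693

open Vale.Agent.P157.Lv Vale.Agent.P146.H425 Vale.Agent.P146.H325 Vale.Agent.P146.H332
  Vale.Agent.P146.H712 Vale.Agent.P146.H816 Vale.Agent.P146.R1 Vale.Agent.P146.R1C Matrix
  Vale.Agent.P146.R1S
open Vale.Agent.P146.H785 (Ax)
open Vale.Agent.P146.H499 (Zm)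

set_option linter.unusedSectionVars false

section nested

variable {n : ℕ} {k x : ℝ} {S : CS n k x} {t2 : ℝ} {m σ : ℕ → ℝ}

/-- **Row F0 of plan R2**, the touch term kept. -/
theorem F0R_keep (N : ℕ) (hm : Pm m N) (ht : 0 < t2) {c r : ℝ} (hr : 0 ≤ r) :
    2 * c * ∫ g, (Rp S t2 m σ (QR S t2 m σ N (c • g)) N (c • g) +
      Tl S t2 m σ (Tt S t2 (QR S t2 m σ N (c • g))) N (c • g)) ∂(gI (Pair n)) ≤
      (2 * √n + r) * ∫ g, fr (QR S t2 m σ N (c • g)) ∂(gI (Pair n)) +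
        (n : ℝ) ^ 4 * n * Real.exp (-(r ^ 2 / 16)) := by
  have h1 : ∫ g, (Rp S t2 m σ (QR S t2 m σ N (c • g)) N (c • g) +
      Tl S t2 m σ (Tt S t2 (QR S t2 m σ N (c • g))) N (c • g)) ∂(gI (Pair n)) =
      ∫ g, Rr S t2 m σ (QR S t2 m σ N (c • g)) N (c • g) ∂(gI (Pair n)) :=
    integral_congr_ae (Filter.Eventually.of_forall fun g => by
      simp only
      rw [Rr_eq (QR S t2 m σ N (c • g)) ht N hm (c • g)])
  rw [h1, ← ibp_QR N hm ht c]
  have e0 : ∀ i j, EG fun g : Pair n → ℝ => QR S t2 m σ N (c • g) i j := fun i j =>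
    eg_scale (eg_QR N hm i j) c
  have hM : ∀ g : Pair n → ℝ, Psd (QR S t2 m σ N (c • g) * QR S t2 m σ N (c • g)) :=
    fun g => sq_psd fun i j => QR_comm N (c • g) i j
  have hE : ∀ i j, EG fun g : Pair n → ℝ =>
      (QR S t2 m σ N (c • g) * QR S t2 m σ N (c • g)) i j := by
    intro i j
    simp only [Matrix.mul_apply]
    exact EG.sum _ fun l _ => (e0 i l).mul (e0 l j)
  have hT : ∀ g : Pair n → ℝ, (QR S t2 m σ N (c • g) * QR S t2 m σ N (c • g)).trace =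
      fr (QR S t2 m σ N (c • g)) := fun g => sq_trace fun i j => QR_comm N (c • g) i j
  have hK : ∀ g : Pair n → ℝ, (QR S t2 m σ N (c • g) * QR S t2 m σ N (c • g)).trace ≤
      (n : ℝ) ^ 4 := by
    intro g
    rw [hT]
    unfold fr
    have h3 : ∀ i j, QR S t2 m σ N (c • g) i j ^ 2 ≤ (n : ℝ) ^ 2 := by
      intro i j
      rw [← sq_abs]
      exact pow_le_pow_left₀ (abs_nonneg _) (abs_QR N hm (c • g) i j) 2
    refine (Finset.sum_le_sum fun i _ => Finset.sum_le_sum fun j _ => h3 i j).trans ?_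
    simp only [Finset.sum_const, Finset.card_univ, Fintype.card_fin, nsmul_eq_mul]
    exact le_of_eq (by ring)
  have h4 := H499.edge hM hE hK hr
  simp only [hT] at h4
  exact h4

end nested

variable {n : ℕ} {k : ℝ} {q : Par} (S : CS n k q.x) (y l : ℝ)

/-- the touch term -/
noncomputable def nTt (w : K4 (Pair n) → ℝ) : ℝ := Tt S q.s2 (Yd S y l (P0 q w)) (P3 q w)

variable {S y l}

/-- the indices of the touch term -/
def TI (n : ℕ) : Finset ((Σ _ : Fin n, Pair n) × (Fin n × Fin n)) :=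
  (Finset.univ.sigma fun b => H325.row b) ×ˢ Finset.univ

lemma sum_TI (f : Fin n → Pair n → Fin n → Fin n → ℝ) :
    ∑ b, ∑ e ∈ H325.row b, ∑ i, ∑ l, f b e i l =
      ∑ p ∈ TI n, f p.1.1 p.1.2 p.2.1 p.2.2 := by
  unfold TI
  rw [Finset.sum_product, Finset.sum_sigma]
  simp only [Fintype.sum_prod_type]

lemma pt_Tt (hT : Tm q y l) (M : Matrix (Fin n) (Fin n) ℝ) (z : Pair n → ℝ) :
    Tl S q.s2 (m3 q y) (s3 q l) (Tt S q.s2 M) 3 z = ∑ p ∈ TI n,
      M p.2.1 (oth p.1.1 p.1.2) * Al S q.s2 (m3 q y) (s3 q l) 2 (Al S q.s2 (m3 q y) (s3 q l) 1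
        (Al S q.s2 (m3 q y) (s3 q l) 0
          fun u => S.A q.s2 u p.2.2 p.1.1 * S.DA q.s2 p.1.2 u p.2.1 p.2.2)) z := by
  have e2 : Tt S q.s2 M = fun u => ∑ p ∈ TI n, M p.2.1 (oth p.1.1 p.1.2) *
      (S.A q.s2 u p.2.2 p.1.1 * S.DA q.s2 p.1.2 u p.2.1 p.2.2) := by
    funext u
    unfold Tt
    rw [← sum_TI fun b e i l => M i (oth b e) * (S.A q.s2 u l b * S.DA q.s2 e u i l)]
    refine Finset.sum_congr rfl fun b _ => Finset.sum_congr rfl fun e _ =>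
      Finset.sum_congr rfl fun i _ => Finset.sum_congr rfl fun l _ => ?_
    ring
  rw [e2]
  exact nest3 hT _ _ fun p _ => (S.eg_A q.s2 _ _).mul (S.eg_DA q.s2 _ _ _)

lemma eg_fTt (hT : Tm q y l) :
    EG fun z => Tl S q.s2 (m3 q y) (s3 q l) (Tt S q.s2 (Yd S y l z)) 3 z := by
  have hm := pm3 (q := q) S.x0 hT.hy
  simp only [pt_Tt hT]
  exact EG.sum _ fun p _ => (eg_Yd hT _ _).mul (eg_Al (eg_Al (eg_Al
    ((S.eg_A q.s2 _ _).mul (S.eg_DA q.s2 _ _ _)) 0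
    (hm.mono (by omega))) 1 (hm.mono (by omega))) 2 hm)

/-- the touch term -/
theorem num_Tt (hT : Tm q y l) :
    EwG q (R1C.GTwo q y l S.F S.D) S.F (nTt S y l) =
    ∫ g, Tl S q.s2 (m3 q y) (s3 q l) (Tt S q.s2 (Yd S y l (√q.t0 • g))) 3 (√q.t0 • g)
      ∂(gI (Pair n)) := by
  have eδ : ∀ p : (Σ _ : Fin n, Pair n) × (Fin n × Fin n), EG fun u => S.A q.s2 u p.2.2 p.1.1 *
      S.DA q.s2 p.1.2 u p.2.1 p.2.2 := fun p => (S.eg_A q.s2 _ _).mul (S.eg_DA q.s2 _ _ _)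
  have key := num_sum (S := S) hT (TI n)
    (α := fun p z => Yd S y l z p.2.1 (oth p.1.1 p.1.2)) (β := fun _ _ => 1) (γ := fun _ _ => 1)
    (δ := fun p u => S.A q.s2 u p.2.2 p.1.1 * S.DA q.s2 p.1.2 u p.2.1 p.2.2)
    (fun p _ => eg_Yd hT _ _)
    (fun _ _ => EG.const 1) (fun _ _ => EG.const 1) (fun p _ => eδ p)
  simp only [Br_one hT, one_mul] at key
  have e1 : nTt S y l = fun w : K4 (Pair n) → ℝ => ∑ p ∈ TI n,
      Yd S y l (P0 q w) p.2.1 (oth p.1.1 p.1.2) * (S.A q.s2 (P3 q w) p.2.2 p.1.1 *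
        S.DA q.s2 p.1.2 (P3 q w) p.2.1 p.2.2) := by
    funext w
    unfold nTt Tt
    rw [← sum_TI fun b e i j => Yd S y l (P0 q w) i (oth b e) * (S.A q.s2 (P3 q w) j b *
      S.DA q.s2 e (P3 q w) i j)]
    refine Finset.sum_congr rfl fun b _ => Finset.sum_congr rfl fun e _ =>
      Finset.sum_congr rfl fun i _ => Finset.sum_congr rfl fun l _ => ?_
    ring
  rw [e1, key]
  refine integral_congr_ae (Filter.Eventually.of_forall fun g => ?_)
  simp only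
  rw [pt_Tt hT]

lemma Rp3 (z : Pair n → ℝ) :
    Rp S q.s2 (m3 q y) (s3 q l) (QR S q.s2 (m3 q y) (s3 q l) 3 z) 3 z =
      k * (Tl S q.s2 (m3 q y) (s3 q l) (T1 S q.s2 (Yd S y l z)) 3 z +
        q.x * Lf S q.s2 (m3 q y) (s3 q l) 0 (JJ S q.s2 (m3 q y) (s3 q l) 0 (Yd S y l z)) 3 z -
        (q.x - y) * Lf S q.s2 (m3 q y) (s3 q l) 1
          (JJ S q.s2 (m3 q y) (s3 q l) 1 (Yd S y l z)) 2 z -
        y * Lf S q.s2 (m3 q y) (s3 q l) 2
          (JJ S q.s2 (m3 q y) (s3 q l) 2 (Yd S y l z)) 1 z) := by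
  unfold Rp
  rw [Finset.sum_range_succ, Finset.sum_range_succ, Finset.sum_range_succ, Finset.range_zero,
    Finset.sum_empty]
  have h0 : m3 q y 0 = q.x := rfl
  have h1 : m3 q y 1 = y := rfl
  have h2 : m3 q y 2 = 0 := rfl
  rw [h0, h1, h2]
  show k * (_ + (0 + q.x * (_ - _) + y * (_ - _) + 0 * _)) = _
  unfold Yd
  ring

/-- **Row F0 of plan R2 in the two level law**, the touch term kept. -/
theorem F0G_keep (hT : Tm q y l) (ht2 : 0 < q.s2) {r : ℝ} (hr : 0 ≤ r) :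
    2 * √q.t0 * (k * (EwG q (R1C.GTwo q y l S.F S.D) S.F (nT S y l) +
      q.x * EwG q (R1C.GTwo q y l S.F S.D) S.F (nA3 S y l) -
      (q.x - y) * EwG q (R1C.GTwo q y l S.F S.D) S.F (nJw S y l) -
      y * EwG q (R1C.GTwo q y l S.F S.D) S.F (nJa S y l)) +
      EwG q (R1C.GTwo q y l S.F S.D) S.F (nTt S y l)) ≤
      (2 * √n + r) * EwG q (R1C.GTwo q y l S.F S.D) S.F (nA S y l) +
        (n : ℝ) ^ 4 * n * Real.exp (-(r ^ 2 / 16)) := by
  have hm := pm3 (q := q) S.x0 hT.hy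
  have key := F0R_keep (S := S) (t2 := q.s2) (σ := s3 q l) (c := √q.t0) 3 hm ht2 hr
  rw [num_T hT ht2, num_A3 hT, num_Jw hT, num_Ja hT, num_A hT, num_Tt hT]
  have g1 := (eg_scale (eg_fT hT ht2 (S := S)) (√q.t0)).integrable
  have g2 := (eg_scale (eg_fA3 hT (S := S)) (√q.t0)).integrable
  have g3 := (eg_scale (eg_fJw hT (S := S)) (√q.t0)).integrable
  have g4 := (eg_scale (eg_fJa hT (S := S)) (√q.t0)).integrable
  have g5 := (eg_scale (eg_fTt hT (S := S)) (√q.t0)).integrable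
  have g6 := (eg_scale (eg_bRp (S := S) (t2 := q.s2) (σ := s3 q l) 3 hm ht2) (√q.t0)).integrable
  have g7 : Integrable (fun g => Tl S q.s2 (m3 q y) (s3 q l) (Tt S q.s2
      (QR S q.s2 (m3 q y) (s3 q l) 3 (√q.t0 • g))) 3 (√q.t0 • g)) (gI (Pair n)) := g5
  rw [integral_add g6 g7] at key
  simp only [Rp3] at key
  rw [int_lin4 g1 g2 g3 g4] at key
  exact key

end Vale.Agent.P146.H693
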