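import Vale.Agent.P146.H693.F0Id

/-!
Row F0 of plan R2, part 6: `F0_id`, `F0_le`.
-/

open MeasureTheory ProbabilityTheory

namespace Vale.Agent.P146.H693

open Vale.Agent.P157.Lv Vale.Agent.P146.H425 Vale.Agent.P146.H325 Vale.Agent.P146.H332
  Vale.Agent.P146.H712 Vale.Agent.P146.H816 Vale.Agent.P146.R1 Vale.Agent.P146.R1C Matrix
  Vale.Agent.P146.R1S
open Vale.Agent.P146.H785 (Ax)

set_option linter.unusedSectionVars false

variable {n : ℕ} {k x : ℝ} (S : CS n k x)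

lemma A2_comm (t : ℝ) (i j : Fin n) (u : Pair n → ℝ) : A2 S t i j u = A2 S t j i u := by
  unfold A2
  refine Finset.sum_congr rfl fun l _ => ?_
  rw [S.A_comm t u i l, S.A_comm t u l j]
  ring

lemma Q_comm (t1 tw t2 : ℝ) (z : Pair n → ℝ) (i j : Fin n) :
    Q S t1 tw t2 z i j = Q S t1 tw t2 z j i := by
  unfold Q
  congr 1
  funext u
  exact A2_comm S t2 i j u

lemma DQ_comm (t1 tw t2 : ℝ) (e : Pair n) (z : Pair n → ℝ) (i j : Fin n) :
    DQ S t1 tw t2 i j e z = DQ S t1 tw t2 j i e z := by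
  have h1 : ∀ u, dA2 S t2 i j e u = dA2 S t2 j i e u := by
    intro u
    unfold dA2
    refine Finset.sum_congr rfl fun l _ => ?_
    rw [S.A_comm t2 u i l, S.A_comm t2 u l j, S.DA_comm t2 e u i l, S.DA_comm t2 e u l j]
    ring
  have h2 : A2 S t2 i j = A2 S t2 j i := funext fun u => A2_comm S t2 i j u
  unfold DQ
  simp only [h1, h2]

lemma pd_scale {e : Pair n} {G G' : (Pair n → ℝ) → ℝ} (h : PD e G G') (c : ℝ) :
    PD e (fun g => G (c • g)) (fun g => c * G' (c • g)) := by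
  intro y r
  have h1 : ∀ t : ℝ, c • Function.update y e t = Function.update (c • y) e (c * t) := by
    intro t
    funext f
    by_cases hf : f = e
    · subst hf; simp
    · simp [Function.update_of_ne hf]
  simp only [h1]
  have h2 : HasDerivAt (fun t : ℝ => c * t) c r := by simpa using (hasDerivAt_id r).const_mul c
  have h3 := (h (c • y) (c * r)).comp r h2
  exact h3.congr_deriv (mul_comm _ _)

lemma eg_scale {G : (Pair n → ℝ) → ℝ} (h : EG G) (c : ℝ) : EG fun g => G (c • g) := by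
  have := EG.add_smul h 0 c
  simpa using this

/-- **Integration by parts of `E tr (Z Q_1 ^ 2)`.** -/
theorem ibp_Q {tw t2 : ℝ} (t1 : ℝ) (h1 : tw ≤ t2) (h2 : t2 ≤ 1) (c : ℝ) :
    ∫ g, ∑ b, ∑ j, (Q S t1 tw t2 (c • g) * Q S t1 tw t2 (c • g)) b j * pd2 g b j
      ∂(gI (Pair n)) = 2 * c * ∫ g, ∑ b, ∑ e ∈ H325.row b, ∑ i,
        Q S t1 tw t2 (c • g) i (oth b e) * DQ S t1 tw t2 i b e (c • g) ∂(gI (Pair n)) := by
  have e0 : ∀ i j, EG fun g : Pair n → ℝ => Q S t1 tw t2 (c • g) i j := fun i j =>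
    eg_scale (eg_Q S t1 tw t2 i j) c
  have e0' : ∀ i j e, EG fun g : Pair n → ℝ => DQ S t1 tw t2 i j e (c • g) := fun i j e =>
    eg_scale (eg_DQ S t1 tw t2 i j e) c
  have a1 : ∀ g : Pair n → ℝ, ∑ b, ∑ j, (Q S t1 tw t2 (c • g) * Q S t1 tw t2 (c • g)) b j *
      pd2 g b j = ∑ e : Pair n, 2 * (g e * ∑ i, Q S t1 tw t2 (c • g) i e.1.1 *
        Q S t1 tw t2 (c • g) i e.1.2) := by
    intro g
    refine (sum_pd2 (fun p q => (Q S t1 tw t2 (c • g) * Q S t1 tw t2 (c • g)) p q) g).trans ?_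
    refine Finset.sum_congr rfl fun e _ => ?_
    have b1 : ∀ p q, (Q S t1 tw t2 (c • g) * Q S t1 tw t2 (c • g)) p q =
        ∑ i, Q S t1 tw t2 (c • g) i p * Q S t1 tw t2 (c • g) i q := by
      intro p q
      rw [Matrix.mul_apply]
      exact Finset.sum_congr rfl fun i _ => by rw [Q_comm S t1 tw t2 (c • g) p i]
    rw [b1, b1]
    have b2 : ∑ i, Q S t1 tw t2 (c • g) i e.1.2 * Q S t1 tw t2 (c • g) i e.1.1 =
        ∑ i, Q S t1 tw t2 (c • g) i e.1.1 * Q S t1 tw t2 (c • g) i e.1.2 :=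
      Finset.sum_congr rfl fun i _ => mul_comm _ _
    rw [b2]
    ring
  have a2 : ∀ g : Pair n → ℝ, ∑ b, ∑ e ∈ H325.row b, ∑ i,
      Q S t1 tw t2 (c • g) i (oth b e) * DQ S t1 tw t2 i b e (c • g) =
      ∑ e : Pair n, ∑ i, (DQ S t1 tw t2 i e.1.1 e (c • g) * Q S t1 tw t2 (c • g) i e.1.2 +
        Q S t1 tw t2 (c • g) i e.1.1 * DQ S t1 tw t2 i e.1.2 e (c • g)) := by
    intro g
    rw [sum_two_rows fun b e => ∑ i, Q S t1 tw t2 (c • g) i (oth b e) *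
      DQ S t1 tw t2 i b e (c • g)]
    refine Finset.sum_congr rfl fun e _ => ?_
    rw [← Finset.sum_add_distrib]
    refine Finset.sum_congr rfl fun i _ => ?_
    have b1 : oth e.1.1 e = e.1.2 := by unfold oth; rw [if_pos rfl]
    have b2 : oth e.1.2 e = e.1.1 := by unfold oth; rw [if_neg e.2.ne]
    rw [b1, b2]
    ring
  have a3 : ∀ e : Pair n, ∫ g, g e * ∑ i, Q S t1 tw t2 (c • g) i e.1.1 *
      Q S t1 tw t2 (c • g) i e.1.2 ∂(gI (Pair n)) = ∫ g, c * ∑ i,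
        (DQ S t1 tw t2 i e.1.1 e (c • g) * Q S t1 tw t2 (c • g) i e.1.2 +
        Q S t1 tw t2 (c • g) i e.1.1 * DQ S t1 tw t2 i e.1.2 e (c • g)) ∂(gI (Pair n)) := by
    intro e
    refine PD.stein (e := e) (H := fun g => ∑ i, Q S t1 tw t2 (c • g) i e.1.1 *
      Q S t1 tw t2 (c • g) i e.1.2) ?_ (EG.sum _ fun i _ => (e0 i _).mul (e0 i _)) ?_
    · refine (PD.sum Finset.univ fun i _ => (pd_scale (pd_Q S t1 h1 h2 i e.1.1 e) c).mul
        (pd_scale (pd_Q S t1 h1 h2 i e.1.2 e) c)).congr fun g => ?_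
      rw [Finset.mul_sum]
      exact Finset.sum_congr rfl fun i _ => by ring
    · exact (EG.sum _ fun i _ => ((e0' i _ e).mul (e0 i _)).add
        ((e0 i _).mul (e0' i _ e))).const_mul c
  simp only [a1, a2]
  rw [integral_finsetSum _ fun e _ => ((((EG.coord e).mul
    (EG.sum _ fun i _ => (e0 i _).mul (e0 i _))).const_mul 2).integrable),
    integral_finsetSum _ fun e _ => (EG.sum _ fun i _ => ((e0' i _ e).mul (e0 i _)).add
        ((e0 i _).mul (e0' i _ e))).integrable, Finset.mul_sum]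
  refine Finset.sum_congr rfl fun e _ => ?_
  rw [integral_const_mul, a3 e, integral_const_mul]
  ring

lemma Aw_nonneg (tw t2 : ℝ) {φ : (Pair n → ℝ) → ℝ} (h : ∀ u, 0 ≤ φ u) (z : Pair n → ℝ) :
    0 ≤ Aw S tw t2 φ z := by
  unfold Aw Ax
  exact div_nonneg (integral_nonneg fun _ => mul_nonneg (Real.exp_pos _).le (h _))
    (integral_nonneg fun _ => (Real.exp_pos _).le)

lemma B0_nonneg (t1 tw : ℝ) {φ : (Pair n → ℝ) → ℝ} (h : ∀ u, 0 ≤ φ u) (z : Pair n → ℝ) :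
    0 ≤ B0 S t1 tw φ z := by
  rw [B0_eq]
  exact integral_nonneg fun _ => h _

lemma B1_nonneg (t1 tw t2 : ℝ) {φ : (Pair n → ℝ) → ℝ} (h : ∀ u, 0 ≤ φ u) (z : Pair n → ℝ) :
    0 ≤ B1 S t1 tw t2 φ z := B0_nonneg S t1 tw (Aw_nonneg S tw t2 h) z

/-- `Q_1` is positive semidefinite -/
theorem Q_psd (t1 tw t2 : ℝ) (z : Pair n → ℝ) : Psd (Q S t1 tw t2 z) := by
  refine ⟨?_, fun c => ?_⟩
  · ext i j
    rw [transpose_apply]
    exact Q_comm S t1 tw t2 z j i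
  · have h1 : ∑ i, ∑ j, c i * c j * Q S t1 tw t2 z i j =
        B1 S t1 tw t2 (fun u => ∑ i, ∑ j, c i * c j * A2 S t2 i j u) z := by
      rw [B1_sum S t1 tw t2 _ fun i _ => EG.sum _ fun j _ => (eg_A2 S t2 i j).const_mul _]
      refine Finset.sum_congr rfl fun i _ => ?_
      rw [B1_sum S t1 tw t2 _ fun j _ => (eg_A2 S t2 i j).const_mul _]
      exact Finset.sum_congr rfl fun j _ => (B1_const_mul S t1 tw t2 _ _ z).symm
    rw [h1]
    refine B1_nonneg S t1 tw t2 (fun u => ?_) z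
    have h2 : ∑ i, ∑ j, c i * c j * A2 S t2 i j u = ∑ l, (∑ i, c i * S.A t2 u i l) ^ 2 := by
      unfold A2
      have e1 : ∀ l, (∑ i, c i * S.A t2 u i l) ^ 2 =
          ∑ i, ∑ j, c i * c j * (S.A t2 u i l * S.A t2 u l j) := by
        intro l
        rw [_root_.sq, Finset.sum_mul_sum]
        refine Finset.sum_congr rfl fun i _ => Finset.sum_congr rfl fun j _ => ?_
        rw [S.A_comm t2 u l j]
        ring
      simp only [e1, Finset.mul_sum]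
      rw [Finset.sum_comm (s := (Finset.univ : Finset (Fin n)))]
      symm
      rw [Finset.sum_comm]
      have e2 : ∀ i : Fin n, ∑ l, ∑ j, c i * c j * (S.A t2 u i l * S.A t2 u l j) =
          ∑ j, ∑ l, c i * c j * (S.A t2 u i l * S.A t2 u l j) := fun i => Finset.sum_comm
      simp only [e2]
      exact Finset.sum_comm
    rw [h2]
    exact Finset.sum_nonneg fun l _ => sq_nonneg _

lemma Tt_nonneg (t : ℝ) {M : Matrix (Fin n) (Fin n) ℝ} (hM : Psd M) (u : Pair n → ℝ) :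
    0 ≤ Tt S t M u := touch_nonneg S t u hM (S.psd_A t u)

lemma B1_sum2 (t1 tw t2 : ℝ) (m : Fin n → Fin n → ℝ) {f : Fin n → Fin n → (Pair n → ℝ) → ℝ}
    (h : ∀ i j, EG (f i j)) (z : Pair n → ℝ) :
    B1 S t1 tw t2 (fun u => ∑ i, ∑ j, m i j * f i j u) z =
      ∑ i, ∑ j, m i j * B1 S t1 tw t2 (f i j) z := by
  rw [B1_sum S t1 tw t2 _ fun i _ => EG.sum _ fun j _ => (h i j).const_mul _]
  refine Finset.sum_congr rfl fun i _ => ?_
  rw [B1_sum S t1 tw t2 _ fun j _ => (h i j).const_mul _]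
  exact Finset.sum_congr rfl fun j _ => B1_const_mul S t1 tw t2 _ _ z

lemma B0_sum2 (t1 tw : ℝ) (m : Fin n → Fin n → ℝ) {f : Fin n → Fin n → (Pair n → ℝ) → ℝ}
    (h : ∀ i j, EG (f i j)) (z : Pair n → ℝ) :
    B0 S t1 tw (fun u => ∑ i, ∑ j, m i j * f i j u) z =
      ∑ i, ∑ j, m i j * B0 S t1 tw (f i j) z := by
  rw [B0_sum S t1 tw _ fun i _ => EG.sum _ fun j _ => (h i j).const_mul _]
  refine Finset.sum_congr rfl fun i _ => ?_
  rw [B0_sum S t1 tw _ fun j _ => (h i j).const_mul _]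
  exact Finset.sum_congr rfl fun j _ => B0_const_mul S t1 tw _ _ z

lemma eg_AH {t2 : ℝ} (ht : 0 < t2) (b i j : Fin n) : EG fun u => (S.A t2 u * S.H t2 b u) i j := by
  simp only [Matrix.mul_apply]
  exact EG.sum _ fun l _ => (S.eg_A t2 i l).mul (S.eg_H ht b l j)

lemma B1_T1 {t2 : ℝ} (t1 tw : ℝ) (ht : 0 < t2) (M : Matrix (Fin n) (Fin n) ℝ)
    (z : Pair n → ℝ) : B1 S t1 tw t2 (T1 S t2 M) z = ∑ b, ∑ i, ∑ j, M i j *
      B1 S t1 tw t2 (fun u => (S.A t2 u * S.H t2 b u) i j) z := by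
  refine (B1_sum S t1 tw t2 Finset.univ (φ := fun b u => ∑ i, ∑ j, (fun p q => M p q) i j *
    (S.A t2 u * S.H t2 b u) i j) (fun b _ => EG.sum _ fun i _ => EG.sum _ fun j _ =>
      (eg_AH S ht b i j).const_mul _) z).trans ?_
  exact Finset.sum_congr rfl fun b _ => B1_sum2 S t1 tw t2 (fun p q => M p q)
    (fun i j => eg_AH S ht b i j) z

lemma B1_T3 (t1 tw t2 : ℝ) (M : Matrix (Fin n) (Fin n) ℝ) (z : Pair n → ℝ) :
    B1 S t1 tw t2 (T3 S t2 M) z = ∑ i, ∑ j, M i j *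
      B1 S t1 tw t2 (fun u => ∑ b, A2 S t2 i b u * S.A t2 u b j) z := by
  have e1 : ∀ (i j : Fin n), EG fun u => ∑ b, A2 S t2 i b u * S.A t2 u b j := fun i j =>
    EG.sum _ fun b _ => (eg_A2 S t2 i b).mul (S.eg_A t2 b j)
  rw [show T3 S t2 M = fun u => ∑ i, ∑ j, M i j * ∑ b, A2 S t2 i b u * S.A t2 u b j from
    funext fun u => T3_eq S t2 M u]
  exact B1_sum2 S t1 tw t2 (fun p q => M p q) e1 z

lemma B0_Jw (t1 tw t2 : ℝ) (M : Matrix (Fin n) (Fin n) ℝ) (z : Pair n → ℝ) :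
    B0 S t1 tw (Jw S tw t2 M) z = ∑ i, ∑ j, M i j *
      B0 S t1 tw (fun u => ∑ b, Aw S tw t2 (A2 S t2 i b) u * S.A tw u b j) z := by
  have e1 : ∀ (i j : Fin n), EG fun u => ∑ b, Aw S tw t2 (A2 S t2 i b) u * S.A tw u b j :=
    fun i j => EG.sum _ fun b _ => (eg_Aw S tw t2 (eg_A2 S t2 i b)).mul (S.eg_A tw b j)
  exact B0_sum2 S t1 tw (fun p q => M p q) e1 z

/-- `E_1 ∑_b <Q_1, C_2 H_b>` -/
noncomputable def X1 (t1 tw t2 : ℝ) (z : Pair n → ℝ) : ℝ :=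
  B1 S t1 tw t2 (T1 S t2 (Q S t1 tw t2 z)) z

/-- `E_1 <Q_1, C_2 ^ 3>` -/
noncomputable def X3 (t1 tw t2 : ℝ) (z : Pair n → ℝ) : ℝ :=
  B1 S t1 tw t2 (T3 S t2 (Q S t1 tw t2 z)) z

/-- `E_1 <Q_1, E_w [C_2 ^ 2] C_w>` -/
noncomputable def XJ (t1 tw t2 : ℝ) (z : Pair n → ℝ) : ℝ :=
  B0 S t1 tw (Jw S tw t2 (Q S t1 tw t2 z)) z

lemma eg_X1 {t2 : ℝ} (t1 tw : ℝ) (ht : 0 < t2) : EG (X1 S t1 tw t2) := by
  have e1 := eg_AH S ht
  rw [show X1 S t1 tw t2 = fun z => ∑ b, ∑ i, ∑ j, Q S t1 tw t2 z i j *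
      B1 S t1 tw t2 (fun u => (S.A t2 u * S.H t2 b u) i j) z from
    funext fun z => B1_T1 S t1 tw ht (Q S t1 tw t2 z) z]
  exact EG.sum _ fun b _ => EG.sum _ fun i _ => EG.sum _ fun j _ =>
    (eg_Q S t1 tw t2 i j).mul (eg_B1 S t1 tw t2 (e1 b i j))

lemma eg_X3 (t1 tw t2 : ℝ) : EG (X3 S t1 tw t2) := by
  have e1 : ∀ (i j : Fin n), EG fun u => ∑ b, A2 S t2 i b u * S.A t2 u b j := fun i j =>
    EG.sum _ fun b _ => (eg_A2 S t2 i b).mul (S.eg_A t2 b j)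
  rw [show X3 S t1 tw t2 = fun z => ∑ i, ∑ j, Q S t1 tw t2 z i j *
      B1 S t1 tw t2 (fun u => ∑ b, A2 S t2 i b u * S.A t2 u b j) z from
    funext fun z => B1_T3 S t1 tw t2 (Q S t1 tw t2 z) z]
  exact EG.sum _ fun i _ => EG.sum _ fun j _ =>
    (eg_Q S t1 tw t2 i j).mul (eg_B1 S t1 tw t2 (e1 i j))

lemma eg_XJ (t1 tw t2 : ℝ) : EG (XJ S t1 tw t2) := by
  have e1 : ∀ (i j : Fin n), EG fun u => ∑ b, Aw S tw t2 (A2 S t2 i b) u * S.A tw u b j :=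
    fun i j => EG.sum _ fun b _ => (eg_Aw S tw t2 (eg_A2 S t2 i b)).mul (S.eg_A tw b j)
  rw [show XJ S t1 tw t2 = fun z => ∑ i, ∑ j, Q S t1 tw t2 z i j *
      B0 S t1 tw (fun u => ∑ b, Aw S tw t2 (A2 S t2 i b) u * S.A tw u b j) z from
    funext fun z => B0_Jw S t1 tw t2 (Q S t1 tw t2 z) z]
  exact EG.sum _ fun i _ => EG.sum _ fun j _ =>
    (eg_Q S t1 tw t2 i j).mul (eg_B0 S t1 tw (e1 i j))

/-- **The row F0, before the bound of the edge**: for every time `c ^ 2` of the free position. -/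
theorem F0_pre {tw t2 : ℝ} (t1 : ℝ) (h1 : tw ≤ t2) (h2 : t2 ≤ 1) (h0 : 0 < t2) {c : ℝ}
    (hc : 0 ≤ c) :
    2 * c * (k * ∫ g, (X1 S t1 tw t2 (c • g) + x * (X3 S t1 tw t2 (c • g) -
      XJ S t1 tw t2 (c • g))) ∂(gI (Pair n))) ≤
      ∫ g, ∑ b, ∑ j, (Q S t1 tw t2 (c • g) * Q S t1 tw t2 (c • g)) b j * pd2 g b j
        ∂(gI (Pair n)) := by
  rw [ibp_Q S t1 h1 h2 c, ← integral_const_mul]
  refine mul_le_mul_of_nonneg_left ?_ (by positivity)
  refine integral_mono ?_ ?_ fun g => ?_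
  · exact ((eg_scale ((eg_X1 S t1 tw h0).add (((eg_X3 S t1 tw t2).sub
      (eg_XJ S t1 tw t2)).const_mul x)) c).const_mul k).integrable
  · exact (EG.sum _ fun b _ => EG.sum _ fun e _ => EG.sum _ fun i _ =>
      (eg_scale (eg_Q S t1 tw t2 i _) c).mul (eg_scale (eg_DQ S t1 tw t2 i b e) c)).integrable
  · simp only
    rw [sum_DQ S t1 tw h0 (Q S t1 tw t2 (c • g)) (c • g)]
    have h3 := B1_nonneg S t1 tw t2 (Tt_nonneg S t2 (Q_psd S t1 tw t2 (c • g))) (c • g)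
    unfold X1 X3 XJ
    linarith

end Vale.Agent.P146.H693
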