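import Vale.Agent.P146.H693.F0Def

/-!
Row F0 of plan R2, part 4: the matrix `Q_1 = E_1 [C_2 ^ 2]` and its derivatives.
-/

open MeasureTheory ProbabilityTheory

namespace Vale.Agent.P146.H693

open Vale.Agent.P157.Lv Vale.Agent.P146.H425 Vale.Agent.P146.H325 Vale.Agent.P146.H332
  Vale.Agent.P146.H712 Vale.Agent.P146.H816 Vale.Agent.P146.R1 Vale.Agent.P146.R1C Matrix
  Vale.Agent.P146.R1S
open Vale.Agent.P146.H785 (Ax)

set_option linter.unusedSectionVars false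

variable {n : ℕ} {k x : ℝ} (S : CS n k x)

/-- the entries of `C ^ 2` -/
def A2 (t : ℝ) (i j : Fin n) (u : Pair n → ℝ) : ℝ := ∑ l, S.A t u i l * S.A t u l j

/-- the derivatives of the entries of `C ^ 2` -/
def dA2 (t : ℝ) (i j : Fin n) (e : Pair n) (u : Pair n → ℝ) : ℝ :=
  ∑ l, (S.DA t e u i l * S.A t u l j + S.A t u i l * S.DA t e u l j)

lemma eg_A2 (t : ℝ) (i j : Fin n) : EG (A2 S t i j) :=
  EG.sum _ fun l _ => (S.eg_A t i l).mul (S.eg_A t l j)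

lemma eg_dA2 (t : ℝ) (i j : Fin n) (e : Pair n) : EG (dA2 S t i j e) :=
  EG.sum _ fun l _ => ((S.eg_DA t e i l).mul (S.eg_A t l j)).add
    ((S.eg_A t i l).mul (S.eg_DA t e l j))

lemma fd_A2 (t : ℝ) (i j : Fin n) (u : Pair n → ℝ) :
    HasFDerivAt (A2 S t i j) (H785.lf fun e => dA2 S t i j e u) u := by
  have h : HasFDerivAt (A2 S t i j) (∑ l : Fin n,
      (S.A t u i l • (H785.lf fun e => S.DA t e u l j) +
        S.A t u l j • (H785.lf fun e => S.DA t e u i l))) u := by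
    unfold A2
    exact HasFDerivAt.fun_sum fun l _ => (S.fd_A t i l u).mul (S.fd_A t l j u)
  refine h.congr_fderiv ?_
  ext w
  simp only [_root_.sum_apply, _root_.add_apply, _root_.smul_apply, H785.lf_apply, smul_eq_mul,
    dA2, Finset.sum_mul, Finset.mul_sum]
  rw [Finset.sum_comm' (t' := Finset.univ) (s' := fun _ => Finset.univ) (by simp)]
  · refine Finset.sum_congr rfl fun l _ => ?_
    rw [← Finset.sum_add_distrib]
    exact Finset.sum_congr rfl fun e _ => by ring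

/-- the matrix `Q_1` -/
noncomputable def Q (t1 tw t2 : ℝ) (z : Pair n → ℝ) : Matrix (Fin n) (Fin n) ℝ :=
  fun i j => B1 S t1 tw t2 (A2 S t2 i j) z

/-- its derivatives -/
noncomputable def DQ (t1 tw t2 : ℝ) (i j : Fin n) (e : Pair n) (z : Pair n → ℝ) : ℝ :=
  B1 S t1 tw t2 (fun u => dA2 S t2 i j e u + x * k * (A2 S t2 i j u * S.A t2 u e.1.1 e.1.2)) z -
    x * k * B0 S t1 tw (fun u => Aw S tw t2 (A2 S t2 i j) u * S.A tw u e.1.1 e.1.2) z

lemma eg_Q (t1 tw t2 : ℝ) (i j : Fin n) : EG fun z => Q S t1 tw t2 z i j :=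
  eg_B1 S t1 tw t2 (eg_A2 S t2 i j)

lemma eg_DQ (t1 tw t2 : ℝ) (i j : Fin n) (e : Pair n) : EG (DQ S t1 tw t2 i j e) :=
  (eg_B1 S t1 tw t2 ((eg_dA2 S t2 i j e).add (((eg_A2 S t2 i j).mul
    (S.eg_A t2 _ _)).const_mul _))).sub
    ((eg_B0 S t1 tw ((eg_Aw S tw t2 (eg_A2 S t2 i j)).mul (S.eg_A tw _ _))).const_mul _)

theorem fd_Q {tw t2 : ℝ} (t1 : ℝ) (h1 : tw ≤ t2) (h2 : t2 ≤ 1) (i j : Fin n) (z : Pair n → ℝ) :
    HasFDerivAt (fun z => Q S t1 tw t2 z i j) (H785.lf fun e => DQ S t1 tw t2 i j e z) z := by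
  have eφ := eg_A2 S t2 i j
  have e1 : ∀ e : Pair n, EG fun u => dA2 S t2 i j e u +
      x * k * (A2 S t2 i j u * S.A t2 u e.1.1 e.1.2) := fun e =>
    (eg_dA2 S t2 i j e).add ((eφ.mul (S.eg_A t2 _ _)).const_mul _)
  have e2 : ∀ e : Pair n, EG fun u => Aw S tw t2 (A2 S t2 i j) u * S.A tw u e.1.1 e.1.2 :=
    fun e => (eg_Aw S tw t2 eφ).mul (S.eg_A tw _ _)
  have hA : ∀ y, HasFDerivAt (Aw S tw t2 (A2 S t2 i j)) (H785.lf fun e =>
      Aw S tw t2 (fun u => dA2 S t2 i j e u + x * k * (A2 S t2 i j u * S.A t2 u e.1.1 e.1.2)) y +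
        (-(x * k)) * (Aw S tw t2 (A2 S t2 i j) y * S.A tw y e.1.1 e.1.2)) y := by
    intro y
    have h := fd_Aw0 S tw t2 eφ (eg_dA2 S t2 i j) (fd_A2 S t2 i j) y
    refine h.congr_fderiv ?_
    congr 1
    funext e
    have a1 : dd x t2 S.F S.D e = fun u => k * S.A t2 u e.1.1 e.1.2 :=
      funext fun u => S.dd_eq t2 e u
    rw [a1, Aw_const_mul, ← A_tw S h1 h2, Aw_add S tw t2 (eg_dA2 S t2 i j e)
      ((eφ.mul (S.eg_A t2 _ _)).const_mul _), Aw_const_mul]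
    have a2 : (fun u => A2 S t2 i j u * (k * S.A t2 u e.1.1 e.1.2)) =
        fun u => k * (A2 S t2 i j u * S.A t2 u e.1.1 e.1.2) := by
      funext u; ring
    rw [a2, Aw_const_mul]
    ring
  have h := fd_B0 S t1 tw (eg_Aw S tw t2 eφ)
    (fun e => (eg_Aw S tw t2 (e1 e)).add ((e2 e).const_mul (-(x * k)))) hA z
  refine h.congr_fderiv ?_
  congr 1
  funext e
  rw [B0_add S t1 tw (eg_Aw S tw t2 (e1 e)) ((e2 e).const_mul (-(x * k))), B0_const_mul]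
  unfold DQ B1
  ring

lemma pd_Q {tw t2 : ℝ} (t1 : ℝ) (h1 : tw ≤ t2) (h2 : t2 ≤ 1) (i j : Fin n) (e : Pair n) :
    PD e (fun z => Q S t1 tw t2 z i j) (DQ S t1 tw t2 i j e) :=
  H785.pd_of_fd (fun z => fd_Q S t1 h1 h2 i j z) e

end Vale.Agent.P146.H693
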