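import Vale.Agent.P146.H130.GBase
import Vale.Agent.P146.H693.Fub

/-!
Plan R2, B8: the base log density of the two level law `(0 | y on [w - h, w] | x on [w, 1])`: the
position at the time `w - h` is integrated out through the Gaussian bridge.
-/

open MeasureTheory ProbabilityTheory

namespace Vale.Agent.P146.H693

open Vale.Agent.P157.Lv Vale.Agent.P146.H425 Vale.Agent.P146.H712 Vale.Agent.P146.R1
  Vale.Agent.P146.R1C
open Vale.Agent.P146.H785 (Ax)

set_option linter.unusedSectionVars false

section c11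

variable {κ : Type} [Fintype κ] {F G : (κ → ℝ) → ℝ} {D D' : κ → (κ → ℝ) → ℝ} {B L B' L' : ℝ}

lemma c11_const_mul (h : C11 F D B L) (c : ℝ) :
    C11 (fun z => c * F z) (fun e z => c * D e z) (|c| * B) (|c| * L) where
  B0 := mul_nonneg (abs_nonneg _) h.B0
  L0 := mul_nonneg (abs_nonneg _) h.L0
  lip y w := by
    rw [← mul_sub, abs_mul, mul_assoc]
    exact mul_le_mul_of_nonneg_left (h.lip y w) (abs_nonneg _)
  meas e := (h.meas e).const_mul c
  bd e y := by
    rw [abs_mul]
    exact mul_le_mul_of_nonneg_left (h.bd e y) (abs_nonneg _)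
  quad y w := by
    have e1 : c * F (y + w) - c * F y - ∑ e, c * D e y * w e =
        c * (F (y + w) - F y - ∑ e, D e y * w e) := by
      rw [mul_sub, mul_sub, Finset.mul_sum]
      congr 1
      exact Finset.sum_congr rfl fun e _ => by ring
    rw [e1, abs_mul, mul_assoc]
    exact mul_le_mul_of_nonneg_left (h.quad y w) (abs_nonneg _)

lemma c11_add (h : C11 F D B L) (h' : C11 G D' B' L') :
    C11 (fun z => F z + G z) (fun e z => D e z + D' e z) (B + B') (L + L') where
  B0 := add_nonneg h.B0 h'.B0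
  L0 := add_nonneg h.L0 h'.L0
  lip y w := by
    have e1 : F (y + w) + G (y + w) - (F y + G y) = (F (y + w) - F y) + (G (y + w) - G y) := by
      ring
    simp only
    rw [e1, add_mul]
    exact (abs_add_le _ _).trans (add_le_add (h.lip y w) (h'.lip y w))
  meas e := (h.meas e).add (h'.meas e)
  bd e y := (abs_add_le _ _).trans (add_le_add (h.bd e y) (h'.bd e y))
  quad y w := by
    have e1 : F (y + w) + G (y + w) - (F y + G y) - ∑ e, (D e y + D' e y) * w e =
        (F (y + w) - F y - ∑ e, D e y * w e) + (G (y + w) - G y - ∑ e, D' e y * w e) := by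
      have : ∑ e, (D e y + D' e y) * w e = (∑ e, D e y * w e) + ∑ e, D' e y * w e := by
        rw [← Finset.sum_add_distrib]
        exact Finset.sum_congr rfl fun e _ => by ring
      rw [this]
      ring
    rw [e1, add_mul]
    exact (abs_add_le _ _).trans (add_le_add (h.quad y w) (h'.quad y w))

lemma norm_y0 (w : κ ⊕ κ → ℝ) : ‖y0 w‖ ≤ ‖w‖ :=
  (pi_norm_le_iff_of_nonneg (norm_nonneg _)).2 fun _ => norm_le_pi_norm w _

lemma norm_y1 (w : κ ⊕ κ → ℝ) : ‖y1 w‖ ≤ ‖w‖ :=
  (pi_norm_le_iff_of_nonneg (norm_nonneg _)).2 fun _ => norm_le_pi_norm w _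

/-- a function of a linear combination of the two positions -/
lemma c11_lin (h : C11 F D B L) (a b : ℝ) :
    C11 (fun y : κ ⊕ κ → ℝ => F (a • y0 y + b • y1 y))
      (fun j y => Sum.elim (fun e => a * D e (a • y0 y + b • y1 y))
        (fun e => b * D e (a • y0 y + b • y1 y)) j) ((|a| + |b|) * B) ((|a| + |b|) ^ 2 * L) where
  B0 := mul_nonneg (by positivity) h.B0
  L0 := mul_nonneg (by positivity) h.L0
  lip y w := by
    have e1 : a • y0 (y + w) + b • y1 (y + w) =
        (a • y0 y + b • y1 y) + (a • y0 w + b • y1 w) := by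
      funext e
      simp only [y0, y1, Pi.add_apply, Pi.smul_apply, smul_eq_mul]
      ring
    have e2 : ‖a • y0 w + b • y1 w‖ ≤ (|a| + |b|) * ‖w‖ := by
      refine (norm_add_le _ _).trans ?_
      rw [norm_smul, norm_smul, Real.norm_eq_abs, Real.norm_eq_abs]
      have h1 := mul_le_mul_of_nonneg_left (norm_y0 w) (abs_nonneg a)
      have h2 := mul_le_mul_of_nonneg_left (norm_y1 w) (abs_nonneg b)
      linarith
    simp only
    rw [e1]
    refine (h.lip _ _).trans ?_
    have := mul_le_mul_of_nonneg_left e2 h.B0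
    linarith
  meas j := by
    have hm : Measurable fun y : κ ⊕ κ → ℝ => a • y0 y + b • y1 y := by
      unfold y0 y1
      fun_prop
    rcases j with e | e
    · exact ((h.meas e).comp hm).const_mul a
    · exact ((h.meas e).comp hm).const_mul b
  bd j y := by
    have hB := h.B0
    rcases j with e | e
    · simp only [Sum.elim_inl]
      rw [abs_mul]
      have h1 := mul_le_mul_of_nonneg_left (h.bd e (a • y0 y + b • y1 y)) (abs_nonneg a)
      have h2 := mul_nonneg (abs_nonneg b) hB
      linarith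
    · simp only [Sum.elim_inr]
      rw [abs_mul]
      have h1 := mul_le_mul_of_nonneg_left (h.bd e (a • y0 y + b • y1 y)) (abs_nonneg b)
      have h2 := mul_nonneg (abs_nonneg a) hB
      linarith
  quad y w := by
    have e1 : a • y0 (y + w) + b • y1 (y + w) =
        (a • y0 y + b • y1 y) + (a • y0 w + b • y1 w) := by
      funext e
      simp only [y0, y1, Pi.add_apply, Pi.smul_apply, smul_eq_mul]
      ring
    have e2 : ‖a • y0 w + b • y1 w‖ ≤ (|a| + |b|) * ‖w‖ := by
      refine (norm_add_le _ _).trans ?_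
      rw [norm_smul, norm_smul, Real.norm_eq_abs, Real.norm_eq_abs]
      have h1 := mul_le_mul_of_nonneg_left (norm_y0 w) (abs_nonneg a)
      have h2 := mul_le_mul_of_nonneg_left (norm_y1 w) (abs_nonneg b)
      linarith
    have e3 : ∑ j, Sum.elim (fun e => a * D e (a • y0 y + b • y1 y))
        (fun e => b * D e (a • y0 y + b • y1 y)) j * w j =
        ∑ e, D e (a • y0 y + b • y1 y) * (a • y0 w + b • y1 w) e := by
      rw [Fintype.sum_sum_type, ← Finset.sum_add_distrib]
      refine Finset.sum_congr rfl fun e _ => ?_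
      simp only [Sum.elim_inl, Sum.elim_inr, Pi.add_apply, Pi.smul_apply, smul_eq_mul, y0, y1]
      ring
    rw [e3, e1]
    refine (h.quad _ _).trans ?_
    have h1 : ‖a • y0 w + b • y1 w‖ ^ 2 ≤ ((|a| + |b|) * ‖w‖) ^ 2 :=
      pow_le_pow_left₀ (norm_nonneg _) e2 2
    have := mul_le_mul_of_nonneg_left h1 h.L0
    refine this.trans (le_of_eq ?_)
    ring

lemma c11_congr (h : C11 F D B L) (e1 : ∀ z, F z = G z) (e2 : ∀ e z, D e z = D' e z) :
    C11 G D' B L := by
  have h1 : F = G := funext e1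
  have h2 : D = D' := funext fun e => funext (e2 e)
  rw [← h1, ← h2]
  exact h

end c11

/-! ### the two level law -/

section two

variable {κ : Type} [Fintype κ] {F : (κ → ℝ) → ℝ} {D : κ → (κ → ℝ) → ℝ} {B L : ℝ}

/-- the weight of the bridge -/
noncomputable def la (q : Par) (h : ℝ) : ℝ := (q.t1 - h - q.t0) / (q.t1 - q.t0)

/-- the standard deviation of the bridge (with a sign) -/
noncomputable def sb (q : Par) (h : ℝ) : ℝ :=
  -(√(q.t1 - h - q.t0) * √h / √(q.t1 - q.t0))

/-- the value function at the time `w - h` -/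
noncomputable def U2 (q : Par) (y h : ℝ) (F : (κ → ℝ) → ℝ) : (κ → ℝ) → ℝ :=
  W y (√h) (uu q.x q.t1 F)

/-- its gradient -/
noncomputable def D2 (q : Par) (y h : ℝ) (F : (κ → ℝ) → ℝ) (D : κ → (κ → ℝ) → ℝ) (e : κ) :
    (κ → ℝ) → ℝ := DW y (√h) (uu q.x q.t1 F) (dd q.x q.t1 F D) e

/-- the conditional mean of a function of the position at the time `w - h` -/
noncomputable def Bc (q : Par) (y h : ℝ) (F φ : (κ → ℝ) → ℝ) (z0 z1 : κ → ℝ) : ℝ :=
  Ax y (sb q h) (fun z => -U2 q y h F z) φ ((1 - la q h) • z0 + la q h • z1)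

/-- The base log density of the two level law. -/
noncomputable def GTwo (q : Par) (y h : ℝ) (F : (κ → ℝ) → ℝ) (D : κ → (κ → ℝ) → ℝ) : GD κ where
  f z0 z1 := -(q.x - y) * uu q.x q.t1 F z1 +
    y * W y (sb q h) (fun z => -U2 q y h F z) ((1 - la q h) • z0 + la q h • z1)
  d0 e z0 z1 := -((1 - la q h) * (y * Bc q y h F (D2 q y h F D e) z0 z1))
  d1 e z0 z1 := -(q.x - y) * dd q.x q.t1 F D e z1 -
    la q h * (y * Bc q y h F (D2 q y h F D e) z0 z1)

lemma c11_U2 (h : C11 F D B L) {q : Par} (hx : 0 < q.x) {y : ℝ} (hy : 0 < y) (l : ℝ) :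
    ∃ B' L', C11 (U2 q y l F) (D2 q y l F D) B' L' :=
  ⟨_, _, (c11_uu h hx q.t1).W' hy (√l)⟩

lemma c11_neg (h : C11 F D B L) : C11 (fun z => -F z) (fun e z => -D e z) B L := by
  have h1 := c11_const_mul h (-1)
  have h2 := c11_congr h1 (G := fun z => -F z) (D' := fun e z => -D e z)
    (fun z => by ring) (fun e z => by ring)
  simpa using h2

/-- **Regularity of the base log density.** -/
theorem GTwo_ok (h : C11 F D B L) {q : Par} (hx : 0 < q.x) {y : ℝ} (hy : 0 < y) (l : ℝ) :
    (GTwo q y l F D).Ok := by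
  obtain ⟨B', L', hU⟩ := c11_U2 h hx hy l
  have h1 := c11_lin (c11_uu h hx q.t1) 0 1
  have h2 := (c11_neg hU).W' hy (sb q l)
  have h3 := c11_lin h2 (1 - la q l) (la q l)
  have h4 := c11_add (c11_const_mul h1 (-(q.x - y))) (c11_const_mul h3 y)
  refine ⟨_, _, c11_congr h4 (fun z => ?_) fun j z => ?_⟩
  · simp only [GD.F, GTwo, zero_smul, one_smul, zero_add]
  · have e1 : ∀ (e : κ) (v : κ → ℝ), DW y (sb q l) (fun z => -U2 q y l F z)
        (fun e z => -D2 q y l F D e z) e v =
        -Ax y (sb q l) (fun z => -U2 q y l F z) (D2 q y l F D e) v := by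
      intro e v
      rw [H785.DW_eq]
      exact Ax_neg _ _ _
    rcases j with e | e
    · simp only [GD.D, GTwo, Bc, Sum.elim_inl, zero_smul, one_smul, zero_add, e1]
      ring
    · simp only [GD.D, GTwo, Bc, Sum.elim_inr, zero_smul, one_smul, zero_add, e1]
      ring

end two

end Vale.Agent.P146.H693
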