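import Vale.Agent.P146.H693.GTwo

/-!
Plan R2, B0: the two level law on the coordinates `K4` in terms of nested means.
-/

open MeasureTheory ProbabilityTheory

namespace Vale.Agent.P146.H693

open Vale.Agent.P157.Lv Vale.Agent.P146.H425 Vale.Agent.P146.H712 Vale.Agent.P146.R1
  Vale.Agent.P146.R1C
open Vale.Agent.P146.H785 (Ax)

set_option linter.unusedSectionVars false

variable {κ : Type} [Fintype κ] [DecidableEq κ] {F : (κ → ℝ) → ℝ} {D : κ → (κ → ℝ) → ℝ}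
  {B L : ℝ} {q : Par} {y l : ℝ} {α β γ δ : (κ → ℝ) → ℝ}

lemma Ax_mul_exp {U φ : (κ → ℝ) → ℝ} {D' : κ → (κ → ℝ) → ℝ} {B' L' : ℝ} (h : C11 U D' B' L')
    {x : ℝ} (hx : 0 < x) (s : ℝ) (z : κ → ℝ) :
    ∫ g, Real.exp (x * U (z + s • g)) * φ (z + s • g) ∂(gI κ) =
      Real.exp (x * W x s U z) * Ax x s U φ z := by
  rw [h.lip.exp_W h.B0 hx z]
  unfold Ax
  rw [mul_div_cancel₀]
  exact (C11.posx h x s z).ne'

lemma eg_Bc (h : C11 F D B L) (hx : 0 < q.x) (hy : 0 < y) (hβ : EG β) :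
    EG fun w : κ ⊕ κ → ℝ => Bc q y l F β (y0 w) (y1 w) := by
  obtain ⟨B', L', hU⟩ := c11_U2 h hx hy l
  have h1 : EG (Ax y (sb q l) (fun z => -U2 q y l F z) β) := eg_Ax (c11_neg hU) hβ _ _
  unfold Bc
  refine eg_compK h1 (A := fun w : κ ⊕ κ → ℝ => (1 - la q l) • y0 w + la q l • y1 w)
    (by unfold y0 y1; fun_prop) (K := 0) (C := |1 - la q l| + |la q l|) (by positivity)
    fun w => ?_
  refine (norm_add_le _ _).trans ?_
  rw [norm_smul, norm_smul, Real.norm_eq_abs, Real.norm_eq_abs]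
  have h2 := mul_le_mul_of_nonneg_left (norm_y0 w) (abs_nonneg (1 - la q l))
  have h3 := mul_le_mul_of_nonneg_left (norm_y1 w) (abs_nonneg (la q l))
  linarith

/-- one position deep: the increments up to `P3` for a fixed deep position -/
lemma law2_in (h : C11 F D B L) (hx : 0 < q.x) (hy : 0 < y) (hl : 0 < l)
    (ht : q.t0 ≤ q.t1 - l) (hs1 : q.t1 ≤ q.s1) (hs2 : q.s1 ≤ q.s2) (hs3 : q.s2 ≤ 1)
    (hβ : EG β) (hγ : EG γ) (hδ : EG δ) (z0 : κ → ℝ) :
    ∫ w1, (∫ w2, (∫ w3, Real.exp (q.x * uu q.x q.s2 F (z0 + √(q.t1 - q.t0) • w1 +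
        √(q.s1 - q.t1) • w2 + √(q.s2 - q.s1) • w3) +
        (GTwo q y l F D).f z0 (z0 + √(q.t1 - q.t0) • w1)) *
      (Bc q y l F β z0 (z0 + √(q.t1 - q.t0) • w1) * γ (z0 + √(q.t1 - q.t0) • w1) *
        δ (z0 + √(q.t1 - q.t0) • w1 + √(q.s1 - q.t1) • w2 + √(q.s2 - q.s1) • w3))
        ∂(gI κ)) ∂(gI κ)) ∂(gI κ) =
    ∫ g1, β (z0 + √(q.t1 - l - q.t0) • g1) * Ax y (√l) (uu q.x q.t1 F)
      (fun z => γ z * Ax q.x (√(q.s2 - q.t1)) (uu q.x q.s2 F) δ z)
        (z0 + √(q.t1 - l - q.t0) • g1) ∂(gI κ) := by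
  obtain ⟨B', L', hU⟩ := c11_U2 h hx hy l
  have hu := fun t => c11_uu h hx t
  set τ := √(q.t1 - q.t0) with hτd
  set a := √(q.t1 - l - q.t0) with had
  have hτ : 0 < τ := Real.sqrt_pos.2 (by linarith)
  have hτ2 : τ ^ 2 = q.t1 - q.t0 := Real.sq_sqrt (by linarith)
  have ha2 : a ^ 2 = q.t1 - l - q.t0 := Real.sq_sqrt (by linarith)
  have hl2 : √l ^ 2 = l := Real.sq_sqrt hl.le
  have eA : EG fun z => γ z * Ax q.x (√(q.s2 - q.t1)) (uu q.x q.s2 F) δ z :=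
    hγ.mul (eg_Ax (hu _) hδ _ _)
  -- the two functions
  have ef : EG fun z => Real.exp (-(y * U2 q y l F z)) * β z := by
    have h1 := (C11.egx (c11_neg hU) y).mul hβ
    simpa only [mul_neg] using h1
  have eg' : EG fun z => Real.exp (y * uu q.x q.t1 F z) * (γ z *
      Ax q.x (√(q.s2 - q.t1)) (uu q.x q.s2 F) δ z) := (C11.egx (hu _) y).mul eA
  have key := bridge ef eg' z0 (a := a) (h := √l) (τ := τ) (Real.sqrt_nonneg _)
    (Real.sqrt_nonneg _) hτ (by rw [ha2, hl2, hτ2]; ring)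
  -- the right side
  have hR : ∀ g1 : κ → ℝ, ∫ g2, Real.exp (-(y * U2 q y l F (z0 + a • g1))) * β (z0 + a • g1) *
      (Real.exp (y * uu q.x q.t1 F (z0 + a • g1 + √l • g2)) * (γ (z0 + a • g1 + √l • g2) *
        Ax q.x (√(q.s2 - q.t1)) (uu q.x q.s2 F) δ (z0 + a • g1 + √l • g2))) ∂(gI κ) =
      β (z0 + a • g1) * Ax y (√l) (uu q.x q.t1 F) (fun z => γ z *
        Ax q.x (√(q.s2 - q.t1)) (uu q.x q.s2 F) δ z) (z0 + a • g1) := by
    intro g1
    rw [integral_const_mul]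
    have h1 := Ax_mul_exp (φ := fun z => γ z * Ax q.x (√(q.s2 - q.t1)) (uu q.x q.s2 F) δ z)
      (hu q.t1) hy (√l) (z0 + a • g1)
    rw [h1]
    have h2 : W y (√l) (uu q.x q.t1 F) (z0 + a • g1) = U2 q y l F (z0 + a • g1) := rfl
    rw [h2]
    have h3 : Real.exp (-(y * U2 q y l F (z0 + a • g1))) *
        Real.exp (y * U2 q y l F (z0 + a • g1)) = 1 := by
      rw [← Real.exp_add]
      simp
    calc _ = (Real.exp (-(y * U2 q y l F (z0 + a • g1))) *
        Real.exp (y * U2 q y l F (z0 + a • g1))) * (β (z0 + a • g1) * Ax y (√l)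
          (uu q.x q.t1 F) (fun z => γ z * Ax q.x (√(q.s2 - q.t1)) (uu q.x q.s2 F) δ z)
            (z0 + a • g1)) := by ring
      _ = _ := by rw [h3, one_mul]
  simp only [hR] at key
  rw [key]
  -- the left side
  refine integral_congr_ae (Filter.Eventually.of_forall fun w1 => ?_)
  simp only
  set z1 := z0 + τ • w1 with hz1
  have hlam : a ^ 2 / τ ^ 2 = la q l := by rw [ha2, hτ2]; rfl
  have hsb : -(a * √l / τ) = sb q l := rfl
  have hv : z0 + la q l • (τ • w1) = (1 - la q l) • z0 + la q l • z1 := by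
    rw [hz1, smul_add, sub_smul, one_smul]
    abel
  have e1 : EG fun z : κ → ℝ => Real.exp (q.x * uu q.x q.s2 F z + (GTwo q y l F D).f z0 z1) *
      (Bc q y l F β z0 z1 * γ z1 * δ z) := by
    have h1 : EG fun z : κ → ℝ => Real.exp ((GTwo q y l F D).f z0 z1) *
        (Bc q y l F β z0 z1 * γ z1) * (Real.exp (q.x * uu q.x q.s2 F z) * δ z) :=
      ((C11.egx (hu _) q.x).mul hδ).const_mul _
    refine (show (fun z : κ → ℝ => Real.exp (q.x * uu q.x q.s2 F z +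
      (GTwo q y l F D).f z0 z1) * (Bc q y l F β z0 z1 * γ z1 * δ z)) = _ from ?_) ▸ h1
    funext z
    rw [Real.exp_add]
    ring
  have h2 := gI_rot e1 (a := √(q.s1 - q.t1)) (b := √(q.s2 - q.s1)) (c := √(q.s2 - q.t1)) (by
    rw [Real.sq_sqrt (by linarith), Real.sq_sqrt (by linarith), Real.sq_sqrt (by linarith)]
    ring) z1
  rw [h2]
  have h3 : (fun w => Real.exp (q.x * uu q.x q.s2 F (z1 + √(q.s2 - q.t1) • w) +
      (GTwo q y l F D).f z0 z1) * (Bc q y l F β z0 z1 * γ z1 * δ (z1 + √(q.s2 - q.t1) • w))) =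
      fun w => (Real.exp ((GTwo q y l F D).f z0 z1) * (Bc q y l F β z0 z1 * γ z1)) *
        (Real.exp (q.x * uu q.x q.s2 F (z1 + √(q.s2 - q.t1) • w)) *
          δ (z1 + √(q.s2 - q.t1) • w)) := by
    funext w
    rw [Real.exp_add]
    ring
  rw [h3, integral_const_mul, Ax_mul_exp (hu q.s2) hx]
  have h4 : Real.exp (q.x * W q.x (√(q.s2 - q.t1)) (uu q.x q.s2 F) z1) =
      Real.exp (q.x * uu q.x q.t1 F z1) := by
    rw [(hu q.s2).lip.exp_W (hu q.s2).B0 hx z1, uu_step h hx (by linarith) hs3]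
  rw [h4, hlam, hsb, hv]
  have h5 := Ax_mul_exp (φ := β) (c11_neg hU) hy (sb q l) ((1 - la q l) • z0 + la q l • z1)
  simp only [mul_neg] at h5
  rw [h5]
  have h6 : Real.exp ((GTwo q y l F D).f z0 z1) = Real.exp (-(q.x - y) * uu q.x q.t1 F z1) *
      Real.exp (y * W y (sb q l) (fun z => -U2 q y l F z)
        ((1 - la q l) • z0 + la q l • z1)) := by
    rw [← Real.exp_add]
    rfl
  rw [h6]
  have h7 : Real.exp (-(q.x - y) * uu q.x q.t1 F z1) * Real.exp (q.x * uu q.x q.t1 F z1) =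
      Real.exp (y * uu q.x q.t1 F z1) := by
    rw [← Real.exp_add]
    congr 1
    ring
  rw [← h7]
  unfold Bc
  ring

lemma eg_law2 (h : C11 F D B L) (hx : 0 < q.x) (hy : 0 < y) (hα : EG α)
    (hβ : EG β) (hγ : EG γ) (hδ : EG δ) :
    EG fun w : K4 κ → ℝ => α (P0 q w) * (Bc q y l F β (P0 q w) (P1 q w) * γ (P1 q w) *
      δ (P3 q w)) :=
  (eg_P0 hα).mul (((eg_P01 (q := q) (eg_Bc (l := l) h hx hy hβ)).mul (eg_P1 hγ)).mul
    (eg_P3 hδ))

/-- **the two level law** -/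
theorem law2 (h : C11 F D B L) (hx : 0 < q.x) (hy : 0 < y) (hl : 0 < l)
    (ht : q.t0 ≤ q.t1 - l) (hs1 : q.t1 ≤ q.s1) (hs2 : q.s1 ≤ q.s2) (hs3 : q.s2 ≤ 1)
    (hα : EG α) (hβ : EG β) (hγ : EG γ) (hδ : EG δ) :
    EwG q (GTwo q y l F D) F (fun w => α (P0 q w) * (Bc q y l F β (P0 q w) (P1 q w) *
      γ (P1 q w) * δ (P3 q w))) =
    ∫ g0, α (√q.t0 • g0) * ∫ g1, β (√q.t0 • g0 + √(q.t1 - l - q.t0) • g1) *
      Ax y (√l) (uu q.x q.t1 F) (fun z => γ z * Ax q.x (√(q.s2 - q.t1)) (uu q.x q.s2 F) δ z)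
        (√q.t0 • g0 + √(q.t1 - l - q.t0) • g1) ∂(gI κ) ∂(gI κ) := by
  have hG := (eg_densG h hx (GTwo_ok (y := y) h hx hy l)).mul
    (eg_law2 (l := l) h hx hy hα hβ hγ hδ)
  unfold EwG
  rw [R1.int_sum hG]
  refine integral_congr_ae (Filter.Eventually.of_forall fun y0 => ?_)
  simp only
  rw [R1.int_K3 (eg_elim hG y0), ← law2_in (B := B) (L := L) (D := D) h hx hy hl ht hs1 hs2 hs3 hβ
    hγ hδ (√q.t0 • y0), ← integral_const_mul]
  refine integral_congr_ae (Filter.Eventually.of_forall fun y1 => ?_)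
  simp only
  rw [← integral_const_mul]
  refine integral_congr_ae (Filter.Eventually.of_forall fun y2 => ?_)
  simp only
  rw [← integral_const_mul]
  refine integral_congr_ae (Filter.Eventually.of_forall fun y3 => ?_)
  show densG q (GTwo q y l F D) F _ * _ = α (√q.t0 • y0) * (_ * _)
  rw [densG_eq, mul_left_comm]
  rfl

end Vale.Agent.P146.H693
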