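import Vale.Agent.P146.H693.RowY

/-!
Cauchy–Schwarz for two conditionally independent copies of matrices; the deep weights against means
given the deep position.
-/

open MeasureTheory ProbabilityTheory

namespace Vale.Agent.P146.H693

open Vale.Agent.P157.Lv Vale.Agent.P146.H425 Vale.Agent.P146.H325 Vale.Agent.P146.H332
  Vale.Agent.P146.H712 Vale.Agent.P146.H816 Vale.Agent.P146.R1 Vale.Agent.P146.R1C Matrix
  Vale.Agent.P146.R1S
open Vale.Agent.P146.H785 (Ax)

set_option linter.unusedSectionVars false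

section alg

variable {ι ρ : Type} [Fintype ι] [Fintype ρ]

lemma mat_swap (a b c d : ι → ρ → ℝ) :
    ∑ r, ∑ r', (∑ i, a i r * b i r') * (∑ j, c j r * d j r') =
      ∑ i, ∑ j, (∑ r, a i r * c j r) * (∑ r', b i r' * d j r') := by
  have h1 : ∀ r r', (∑ i, a i r * b i r') * (∑ j, c j r * d j r') =
      ∑ i, ∑ j, (a i r * c j r) * (b i r' * d j r') := fun r r' => by
    rw [Finset.sum_mul_sum]
    exact Finset.sum_congr rfl fun i _ => Finset.sum_congr rfl fun j _ => by ring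
  have h2 : ∀ i j, (∑ r, a i r * c j r) * (∑ r', b i r' * d j r') =
      ∑ r, ∑ r', (a i r * c j r) * (b i r' * d j r') := fun i j => by
    rw [Finset.sum_mul_sum]
  simp only [h1, h2]
  have h3 : ∀ r, ∑ r', ∑ i, ∑ j, (a i r * c j r) * (b i r' * d j r') =
      ∑ i, ∑ j, ∑ r', (a i r * c j r) * (b i r' * d j r') := fun r => by
    rw [Finset.sum_comm]
    exact Finset.sum_congr rfl fun i _ => Finset.sum_comm
  simp only [h3]
  rw [Finset.sum_comm]
  exact Finset.sum_congr rfl fun i _ => Finset.sum_comm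

lemma mat_pt (s : ℝ) (p q P Q : ι → ρ → ℝ) :
    0 ≤ ∑ i, ∑ j, (s ^ 2 * ((∑ r, p i r * p j r) * (∑ r, P i r * P j r)) +
      (-2 * s) * ((∑ r, p i r * q j r) * (∑ r, P i r * Q j r)) +
      (∑ r, q i r * q j r) * (∑ r, Q i r * Q j r)) := by
  have h0 : 0 ≤ ∑ r, ∑ r', (s * (∑ i, p i r * P i r') - ∑ i, q i r * Q i r') ^ 2 :=
    Finset.sum_nonneg fun r _ => Finset.sum_nonneg fun r' _ => sq_nonneg _
  refine h0.trans (le_of_eq ?_)
  have h1 : ∀ r r', (s * (∑ i, p i r * P i r') - ∑ i, q i r * Q i r') ^ 2 =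
      s ^ 2 * ((∑ i, p i r * P i r') * (∑ j, p j r * P j r')) +
      (-2 * s) * ((∑ i, p i r * P i r') * (∑ j, q j r * Q j r')) +
      (∑ i, q i r * Q i r') * (∑ j, q j r * Q j r') := fun r r' => by ring
  simp only [h1, Finset.sum_add_distrib, ← Finset.mul_sum]
  rw [mat_swap p P p P, mat_swap p P q Q, mat_swap q Q q Q]

end alg

section mat

variable {n : ℕ} {k x : ℝ} {S : CS n k x} {t2 : ℝ} {m σ : ℕ → ℝ}
variable {ι ρ : Type} [Fintype ι] [Fintype ρ] {p q : ι → ρ → (Pair n → ℝ) → ℝ}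

/-- the mean of the product `P Q'` -/
noncomputable def MR (S : CS n k x) (t2 : ℝ) (m σ : ℕ → ℝ) (l : ℕ) (z : Pair n → ℝ)
    (p q : ι → ρ → (Pair n → ℝ) → ℝ) (i j : ι) : ℝ :=
  Tl S t2 m σ (fun u => ∑ r, p i r u * q j r u) l z

lemma eg_pq (hp : ∀ i r, EG (p i r)) (hq : ∀ i r, EG (q i r)) (i j : ι) :
    EG fun u => ∑ r, p i r u * q j r u := EG.sum _ fun r _ => (hp i r).mul (hq j r)

/-- the mean of a combination of three families -/
lemma Tl_three (l : ℕ) (hm : Pm m l) {f g h : ι → ι → (Pair n → ℝ) → ℝ} (hf : ∀ i j, EG (f i j))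
    (hg : ∀ i j, EG (g i j)) (hh : ∀ i j, EG (h i j)) (a b : ℝ) (F G H : ι → ι → ℝ)
    (z : Pair n → ℝ) :
    Tl S t2 m σ (fun u => ∑ i, ∑ j, (a * (f i j u * F i j) + b * (g i j u * G i j) +
      h i j u * H i j)) l z =
      ∑ i, ∑ j, (a * (Tl S t2 m σ (f i j) l z * F i j) + b * (Tl S t2 m σ (g i j) l z * G i j) +
        Tl S t2 m σ (h i j) l z * H i j) := by
  have e1 : ∀ i j, EG fun u => a * (f i j u * F i j) + b * (g i j u * G i j) +
      h i j u * H i j := fun i j =>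
    ((((hf i j).mul (EG.const _)).const_mul a).add (((hg i j).mul (EG.const _)).const_mul b)).add
      ((hh i j).mul (EG.const _))
  rw [Tl_sum l hm _ fun i _ => EG.sum _ fun j _ => e1 i j]
  refine Finset.sum_congr rfl fun i _ => ?_
  rw [Tl_sum l hm _ fun j _ => e1 i j]
  refine Finset.sum_congr rfl fun j _ => ?_
  have e2 : (fun u => a * (f i j u * F i j) + b * (g i j u * G i j) + h i j u * H i j) =
      fun u => ((a * F i j) * f i j u + (b * G i j) * g i j u) + H i j * h i j u := by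
    funext u; ring
  rw [e2]
  unfold Tl
  rw [TP_add hU (((hf i j).const_mul _).add ((hg i j).const_mul _)) ((hh i j).const_mul _) l hm]
  simp only
  rw [TP_add hU ((hf i j).const_mul _) ((hg i j).const_mul _) l hm,
    TD_const_mul, TD_const_mul, TD_const_mul]
  ring

/-- **two copies of matrices**: `|E [P Q']|⁴ ≤ |E [P P']|² |E [Q Q']|²` -/
theorem mat_cs (l : ℕ) (hm : Pm m l) (hp : ∀ i r, EG (p i r)) (hq : ∀ i r, EG (q i r))
    (z : Pair n → ℝ) :
    (∑ i, ∑ j, MR S t2 m σ l z p q i j ^ 2) ^ 2 ≤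
      (∑ i, ∑ j, MR S t2 m σ l z p p i j ^ 2) * ∑ i, ∑ j, MR S t2 m σ l z q q i j ^ 2 := by
  have key : ∀ s : ℝ, 0 ≤ (∑ i, ∑ j, MR S t2 m σ l z p p i j ^ 2) * (s * s) +
      (-2 * ∑ i, ∑ j, MR S t2 m σ l z p q i j ^ 2) * s +
      ∑ i, ∑ j, MR S t2 m σ l z q q i j ^ 2 := by
    intro s
    -- the second copy fixed
    have h1 : ∀ u' : Pair n → ℝ, 0 ≤ ∑ i, ∑ j,
        (s ^ 2 * (MR S t2 m σ l z p p i j * (∑ r, p i r u' * p j r u')) +
          (-2 * s) * (MR S t2 m σ l z p q i j * (∑ r, p i r u' * q j r u')) +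
          MR S t2 m σ l z q q i j * (∑ r, q i r u' * q j r u')) := by
      intro u'
      have h2 : 0 ≤ Tl S t2 m σ (fun u => ∑ i, ∑ j,
          (s ^ 2 * ((∑ r, p i r u * p j r u) * (∑ r, p i r u' * p j r u')) +
          (-2 * s) * ((∑ r, p i r u * q j r u) * (∑ r, p i r u' * q j r u')) +
          (∑ r, q i r u * q j r u) * (∑ r, q i r u' * q j r u'))) l z :=
        Tl_nonneg l (fun u => mat_pt s (fun i r => p i r u) (fun i r => q i r u)
          (fun i r => p i r u') fun i r => q i r u') z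
      rw [Tl_three l hm (eg_pq hp hp) (eg_pq hp hq) (eg_pq hq hq)] at h2
      exact h2
    -- the mean over the second copy
    have h3 : 0 ≤ Tl S t2 m σ (fun u' => ∑ i, ∑ j,
        (s ^ 2 * ((∑ r, p i r u' * p j r u') * MR S t2 m σ l z p p i j) +
          (-2 * s) * ((∑ r, p i r u' * q j r u') * MR S t2 m σ l z p q i j) +
          (∑ r, q i r u' * q j r u') * MR S t2 m σ l z q q i j)) l z := by
      refine Tl_nonneg l (fun u' => ?_) z
      refine (h1 u').trans (le_of_eq ?_)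
      exact Finset.sum_congr rfl fun i _ => Finset.sum_congr rfl fun j _ => by ring
    rw [Tl_three l hm (eg_pq hp hp) (eg_pq hp hq) (eg_pq hq hq)] at h3
    refine h3.trans (le_of_eq ?_)
    simp only [Finset.mul_sum, Finset.sum_mul, ← Finset.sum_add_distrib]
    refine Finset.sum_congr rfl fun i _ => Finset.sum_congr rfl fun j _ => ?_
    show s ^ 2 * (MR S t2 m σ l z p p i j * _) + -2 * s * (MR S t2 m σ l z p q i j * _) +
      MR S t2 m σ l z q q i j * _ = _
    ring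
  have h3 := discrim_le_zero key
  unfold discrim at h3
  nlinarith

end mat

section deep

variable {n : ℕ} {k : ℝ} {q : Par} {S : CS n k q.x} {y l : ℝ}

/-- the mean in the two level law of deep weights times functions of the last position -/
theorem EwG_deep (hT : Tm q y l) {ι : Type} (T : Finset ι) {α δ : ι → (Pair n → ℝ) → ℝ}
    (hα : ∀ i ∈ T, EG (α i)) (hδ : ∀ i ∈ T, EG (δ i)) :
    EwG q (R1C.GTwo q y l S.F S.D) S.F (fun w => ∑ i ∈ T, α i (P0 q w) * δ i (P3 q w)) =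
      ∫ g, ∑ i ∈ T, α i (√q.t0 • g) * Tl S q.s2 (m3 q y) (s3 q l) (δ i) 3 (√q.t0 • g)
        ∂(gI (Pair n)) := by
  have h := num_sum (S := S) hT T (α := α) (β := fun _ _ => 1) (γ := fun _ _ => 1) (δ := δ) hα
    (fun _ _ => EG.const 1) (fun _ _ => EG.const 1) hδ
  simp only [Br_one hT, one_mul] at h
  exact h

/-- **Cauchy–Schwarz at the deep position** -/
theorem deep_cs {ι : Type} (T : Finset ι) {α τ : ι → (Pair n → ℝ) → ℝ}
    (hα : ∀ i ∈ T, EG (α i)) (hτ : ∀ i ∈ T, EG (τ i)) (c : ℝ) :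
    |∫ g, ∑ i ∈ T, α i (c • g) * τ i (c • g) ∂(gI (Pair n))| ≤
      √(∫ g, ∑ i ∈ T, α i (c • g) ^ 2 ∂(gI (Pair n))) *
        √(∫ g, ∑ i ∈ T, τ i (c • g) ^ 2 ∂(gI (Pair n))) := by
  have eα : EG fun g : Pair n → ℝ => ∑ i ∈ T, α i (c • g) ^ 2 :=
    EG.sum _ fun i hi => (eg_sc (hα i hi) c).pow 2
  have eτ : EG fun g : Pair n → ℝ => ∑ i ∈ T, τ i (c • g) ^ 2 :=
    EG.sum _ fun i hi => (eg_sc (hτ i hi) c).pow 2
  have eατ : EG fun g : Pair n → ℝ => ∑ i ∈ T, α i (c • g) * τ i (c • g) :=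
    EG.sum _ fun i hi => (eg_sc (hα i hi) c).mul (eg_sc (hτ i hi) c)
  set a := ∫ g, ∑ i ∈ T, α i (c • g) ^ 2 ∂(gI (Pair n)) with ha
  set b := ∫ g, ∑ i ∈ T, τ i (c • g) ^ 2 ∂(gI (Pair n)) with hb
  set d := ∫ g, ∑ i ∈ T, α i (c • g) * τ i (c • g) ∂(gI (Pair n)) with hd
  have ha0 : 0 ≤ a := integral_nonneg fun g => Finset.sum_nonneg fun i _ => sq_nonneg _
  have hb0 : 0 ≤ b := integral_nonneg fun g => Finset.sum_nonneg fun i _ => sq_nonneg _
  have key : ∀ s : ℝ, 0 ≤ a * (s * s) + (-2 * d) * s + b := by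
    intro s
    have h1 : 0 ≤ ∫ g, ∑ i ∈ T, (s * α i (c • g) - τ i (c • g)) ^ 2 ∂(gI (Pair n)) :=
      integral_nonneg fun g => Finset.sum_nonneg fun i _ => sq_nonneg _
    have e1 : (fun g : Pair n → ℝ => ∑ i ∈ T, (s * α i (c • g) - τ i (c • g)) ^ 2) =
        fun g => (s * s) * (∑ i ∈ T, α i (c • g) ^ 2) +
          ((-2 * s) * (∑ i ∈ T, α i (c • g) * τ i (c • g)) + ∑ i ∈ T, τ i (c • g) ^ 2) := by
      funext g
      simp only [Finset.mul_sum, ← Finset.sum_add_distrib]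
      exact Finset.sum_congr rfl fun i _ => by ring
    have e2 : EG fun g : Pair n → ℝ =>
        (-2 * s) * (∑ i ∈ T, α i (c • g) * τ i (c • g)) + ∑ i ∈ T, τ i (c • g) ^ 2 :=
      (eατ.const_mul _).add eτ
    rw [e1, integral_add (eα.const_mul _).integrable e2.integrable,
      integral_add (eατ.const_mul _).integrable eτ.integrable, integral_const_mul,
      integral_const_mul] at h1
    linarith
  have h3 := discrim_le_zero key
  unfold discrim at h3
  rw [← Real.sqrt_mul ha0]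
  refine Real.le_sqrt_of_sq_le ?_
  rw [sq_abs]
  nlinarith

/-- **(T1)** the touch of the weight in the quadratic form of the columns of `C`, only the energy of
the deep weight enters: `|∑_b E <Y_b - Y, C e_b e_b' C>| ≤ (2 t0 E|∇Y|²)^(1/2) (E tr (Y C))^(1/2)` -/
theorem T1_le (hT : Tm q y l) :
    |EwG q (R1C.GTwo q y l S.F S.D) S.F (fun w => ∑ b, ∑ i, ∑ j, Db S y l b (P0 q w) i j *
      (S.A q.s2 (P3 q w) i b * S.A q.s2 (P3 q w) j b))| ≤
      √(2 * q.t0 * EnD S q.s2 (m3 q y) (s3 q l) 3 (√q.t0)) *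
        √(nB S q.s2 (m3 q y) (s3 q l) 3 (√q.t0)) := by
  have hm := pm3 (q := q) S.x0 hT.hy
  have h1 : (fun w : K4 (Pair n) → ℝ => ∑ b, ∑ i, ∑ j, Db S y l b (P0 q w) i j *
      (S.A q.s2 (P3 q w) i b * S.A q.s2 (P3 q w) j b)) =
      fun w => ∑ r : Fin n × Fin n × Fin n, (fun z => Db S y l r.1 z r.2.1 r.2.2) (P0 q w) *
        (fun u => colA S q.s2 r.1 r.2.1 u * colA S q.s2 r.1 r.2.2 u) (P3 q w) := by
    funext w
    rw [Fintype.sum_prod_type]
    refine Finset.sum_congr rfl fun b _ => ?_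
    rw [Fintype.sum_prod_type]
    rfl
  have h2 := EwG_deep (S := S) hT Finset.univ
    (α := fun (r : Fin n × Fin n × Fin n) z => Db S y l r.1 z r.2.1 r.2.2)
    (δ := fun r u => colA S q.s2 r.1 r.2.1 u * colA S q.s2 r.1 r.2.2 u)
    (fun r _ => eg_Db hT r.1 r.2.1 r.2.2)
    fun r _ => (eg_colA r.1 r.2.1).mul (eg_colA r.1 r.2.2)
  rw [h1]
  refine (le_of_eq (congrArg abs h2)).trans ?_
  refine (deep_cs Finset.univ
    (α := fun (r : Fin n × Fin n × Fin n) z => Db S y l r.1 z r.2.1 r.2.2)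
    (τ := fun r => Tl S q.s2 (m3 q y) (s3 q l) (fun u => colA S q.s2 r.1 r.2.1 u *
      colA S q.s2 r.1 r.2.2 u) 3)
    (fun r _ => eg_Db hT r.1 r.2.1 r.2.2)
    (fun r _ => eg_MM (S := S) (σ := s3 q l) 3 hm r.1 r.1 r.2.1 r.2.2) (√q.t0)).trans ?_
  refine mul_le_mul (Real.sqrt_le_sqrt ?_) (Real.sqrt_le_sqrt ?_) (Real.sqrt_nonneg _)
    (Real.sqrt_nonneg _)
  · refine le_trans (le_of_eq ?_) (TY_le (S := S) hT)
    have e1 : ∀ b i j, EG fun g : Pair n → ℝ => Db S y l b (√q.t0 • g) i j ^ 2 := fun b i j =>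
      (eg_sc (eg_Db hT b i j) (√q.t0)).pow 2
    rw [← integral_finsetSum _ fun b _ =>
      (EG.sum _ fun i _ => EG.sum _ fun j _ => e1 b i j).integrable]
    refine integral_congr_ae (Filter.Eventually.of_forall fun g => ?_)
    simp only [Fintype.sum_prod_type]
  · refine integral_mono (EG.sum _ fun r _ => (eg_sc (eg_MM (S := S) (σ := s3 q l) 3 hm r.1 r.1
      r.2.1 r.2.2) (√q.t0)).pow 2).integrable (eg_sc (eg_QC (S := S) (σ := s3 q l) 3 hm)
      (√q.t0)).integrable fun g => ?_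
    refine le_trans (le_of_eq ?_) (sum_gam (S := S) (σ := s3 q l) 3 hm (√q.t0 • g))
    simp only [Fintype.sum_prod_type]
    rfl

end deep

end Vale.Agent.P146.H693
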