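import Vale.Agent.P146.H693.F0Le

/-!
Row F0 of plan R2 for a layered base (ramp), part 1: deep means whose last layer may have the
exponent `0`; their derivatives.
-/

open MeasureTheory ProbabilityTheory

namespace Vale.Agent.P146.H693

open Vale.Agent.P157.Lv Vale.Agent.P146.H425 Vale.Agent.P146.H325 Vale.Agent.P146.H332
  Vale.Agent.P146.H712 Vale.Agent.P146.H816 Vale.Agent.P146.R1 Vale.Agent.P146.R1C Matrix
  Vale.Agent.P146.R1S
open Vale.Agent.P146.H785 (Ax)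

set_option linter.unusedSectionVars false

section gen

variable {κ : Type} [Fintype κ] {F : (κ → ℝ) → ℝ} {D : κ → (κ → ℝ) → ℝ} {B L : ℝ}
  {m σ : ℕ → ℝ} {φ ψ c : (κ → ℝ) → ℝ}

/-- all exponents before the last layer are positive -/
def Pm (m : ℕ → ℝ) (i : ℕ) : Prop := ∀ j, j + 1 < i → 0 < m j

lemma Pm.low {i : ℕ} (h : Pm m (i + 1)) : Pm m i := fun j hj => h j (by omega)

lemma Pm.pos {i : ℕ} (h : Pm m (i + 1)) (j : ℕ) (hj : j < i) : 0 < m j := h j (by omega)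

lemma eg_TP (h : C11 F D B L) (hφ : EG φ) : ∀ i, Pm m i → EG (TD F m σ φ i)
  | 0, _ => hφ
  | i + 1, hm => eg_Ax (c11_FD (σ := σ) h i hm.pos) (eg_TP h hφ i hm.low) (m i) (σ i)

lemma TP_sum {ι : Type*} (h : C11 F D B L) (T : Finset ι) {φ : ι → (κ → ℝ) → ℝ}
    (hφ : ∀ a ∈ T, EG (φ a)) : ∀ i, Pm m i →
    TD F m σ (fun u => ∑ a ∈ T, φ a u) i = fun y => ∑ a ∈ T, TD F m σ (φ a) i y
  | 0, _ => rfl
  | i + 1, hm => by
    have hc := c11_FD (σ := σ) h i hm.pos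
    funext y
    rw [TD_succ, TP_sum h T hφ i hm.low]
    exact H785.Ax_sum hc.lip hc.B0 T (fun a ha => eg_TP h (hφ a ha) i hm.low) _ _ y

lemma TP_add (h : C11 F D B L) (hφ : EG φ) (hψ : EG ψ) : ∀ i, Pm m i →
    TD F m σ (fun u => φ u + ψ u) i = fun y => TD F m σ φ i y + TD F m σ ψ i y
  | 0, _ => rfl
  | i + 1, hm => by
    have hc := c11_FD (σ := σ) h i hm.pos
    funext y
    rw [TD_succ, TP_add h hφ hψ i hm.low]
    exact H785.Ax_add hc.lip hc.B0 (eg_TP h hφ i hm.low) (eg_TP h hψ i hm.low) _ _ y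

lemma TP_const (h : C11 F D B L) (a : ℝ) : ∀ i, Pm m i →
    TD F m σ (fun _ => a) i = fun _ => a
  | 0, _ => rfl
  | i + 1, hm => by
    have hc := c11_FD (σ := σ) h i hm.pos
    funext y
    rw [TD_succ, TP_const h a i hm.low]
    exact H785.Ax_const hc.lip hc.B0 a _ _ y

lemma TP_nonneg (hle : ∀ u, 0 ≤ φ u) : ∀ i, ∀ y, 0 ≤ TD F m σ φ i y
  | 0, y => hle y
  | i + 1, y => by
    rw [TD_succ]
    unfold Ax
    exact div_nonneg (integral_nonneg fun _ => mul_nonneg (Real.exp_pos _).le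
      (TP_nonneg hle i _)) (integral_nonneg fun _ => (Real.exp_pos _).le)

lemma eg_KP (h : C11 F D B L) (hc : EG c) (hφ : EG φ) (hψ : EG ψ) : ∀ i, Pm m i →
    EG (KD F m σ c φ ψ i)
  | 0, _ => hc
  | i + 1, hm => eg_KW (c11_FD (σ := σ) h i hm.pos) (eg_KP h hc hφ hψ i hm.low)
      (eg_TP h hφ i hm.low) (eg_TP h hψ i hm.low) (m i) (σ i)

/-- the derivative of a deep mean -/
theorem fd_TP (h : C11 F D B L) {φ' : κ → (κ → ℝ) → ℝ} (hφ : EG φ) (hφ' : ∀ f, EG (φ' f))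
    (hd : ∀ y, HasFDerivAt φ (H785.lf fun f => φ' f y) y) : ∀ i, Pm m i → ∀ y,
    HasFDerivAt (TD F m σ φ i) (H785.lf fun e => KD F m σ (φ' e) φ (D e) i y) y
  | 0, _, y => hd y
  | i + 1, hm, y => by
    have hc := c11_FD (σ := σ) h i hm.pos
    exact H785.fd_Ax hc (eg_TP h hφ i hm.low)
      (fun e => eg_KP h (hφ' e) hφ (C11.egD h e) i hm.low)
      (fun y => fd_TP h hφ hφ' hd i hm.low y) (m i) (σ i) y

end gen

end Vale.Agent.P146.H693
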