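import Vale.Agent.P146.H693.R0

/-!
Row F0 of plan R2 for a layered base (ramp), part 2: the derivatives of `Q_1`, summed over the
rows.
-/

open MeasureTheory ProbabilityTheory

namespace Vale.Agent.P146.H693

open Vale.Agent.P157.Lv Vale.Agent.P146.H425 Vale.Agent.P146.H325 Vale.Agent.P146.H332
  Vale.Agent.P146.H712 Vale.Agent.P146.H816 Vale.Agent.P146.R1 Vale.Agent.P146.R1C Matrix
  Vale.Agent.P146.R1S
open Vale.Agent.P146.H785 (Ax)

set_option linter.unusedSectionVars false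

variable {n : ℕ} {k x : ℝ} (S : CS n k x) (t2 : ℝ) (m σ : ℕ → ℝ)

/-- the value function after `l` layers -/
noncomputable def Ul (l : ℕ) : (Pair n → ℝ) → ℝ := FD (uu x t2 S.F) m σ l

/-- the mean over `l` layers -/
noncomputable def Tl (φ : (Pair n → ℝ) → ℝ) (l : ℕ) : (Pair n → ℝ) → ℝ :=
  TD (uu x t2 S.F) m σ φ l

/-- one layer: the mean over the layer `l` -/
noncomputable def Al (l : ℕ) (φ : (Pair n → ℝ) → ℝ) : (Pair n → ℝ) → ℝ :=
  Ax (m l) (σ l) (Ul S t2 m σ l) φ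

/-- the entries of `E_l [C ^ 2]` -/
noncomputable def Gl (l : ℕ) (i j : Fin n) : (Pair n → ℝ) → ℝ := Tl S t2 m σ (A2 S t2 i j) l

/-- the entries of `C_l = E_l [C]` -/
noncomputable def Cl (l : ℕ) (i j : Fin n) : (Pair n → ℝ) → ℝ :=
  Tl S t2 m σ (fun u => S.A t2 u i j) l

/-- the matrix `Q = E_l [C ^ 2]` -/
noncomputable def QR (l : ℕ) (z : Pair n → ℝ) : Matrix (Fin n) (Fin n) ℝ :=
  fun i j => Gl S t2 m σ l i j z

/-- its derivatives -/
noncomputable def DR (l : ℕ) (i j : Fin n) (e : Pair n) : (Pair n → ℝ) → ℝ :=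
  KD (uu x t2 S.F) m σ (dA2 S t2 i j e) (A2 S t2 i j) (dd x t2 S.F S.D e) l

/-- `<M, E_l [C ^ 2] C_l>` -/
noncomputable def JJ (l : ℕ) (M : Matrix (Fin n) (Fin n) ℝ) (u : Pair n → ℝ) : ℝ :=
  ∑ i, ∑ j, M i j * ∑ b, Gl S t2 m σ l i b u * Cl S t2 m σ l b j u

variable {S t2 m σ}

lemma Tl_succ (φ : (Pair n → ℝ) → ℝ) (l : ℕ) :
    Tl S t2 m σ φ (l + 1) = Al S t2 m σ l (Tl S t2 m σ φ l) := rfl

lemma hU : C11 (uu x t2 S.F) (dd x t2 S.F S.D) S.bB (S.bL + 2 * x *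
    (Fintype.card (Pair n) * S.bB) ^ 2) := c11_uu S.c11 S.x0 t2

lemma eg_Tl {φ : (Pair n → ℝ) → ℝ} (h : EG φ) (l : ℕ) (hm : Pm m l) :
    EG (Tl S t2 m σ φ l) := eg_TP hU h l hm

lemma eg_Al {φ : (Pair n → ℝ) → ℝ} (h : EG φ) (l : ℕ) (hm : Pm m (l + 1)) :
    EG (Al S t2 m σ l φ) := eg_Ax (c11_FD (σ := σ) hU l hm.pos) h _ _

lemma Al_const_mul (l : ℕ) (c : ℝ) (φ : (Pair n → ℝ) → ℝ) :
    Al S t2 m σ l (fun u => c * φ u) = fun z => c * Al S t2 m σ l φ z :=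
  funext fun z => H785.Ax_const_mul c φ _ _ z

lemma Al_add (l : ℕ) (hm : Pm m (l + 1)) {φ ψ : (Pair n → ℝ) → ℝ} (h : EG φ) (h' : EG ψ) :
    Al S t2 m σ l (fun u => φ u + ψ u) = fun z => Al S t2 m σ l φ z + Al S t2 m σ l ψ z :=
  funext fun z => H785.Ax_add (c11_FD (σ := σ) hU l hm.pos).lip
    (c11_FD (σ := σ) (hU (S := S) (t2 := t2)) l hm.pos).B0 h h' _ _ z

lemma Al_sum (l : ℕ) (hm : Pm m (l + 1)) {ι : Type*} (T : Finset ι) {φ : ι → (Pair n → ℝ) → ℝ}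
    (h : ∀ i ∈ T, EG (φ i)) :
    Al S t2 m σ l (fun u => ∑ i ∈ T, φ i u) = fun z => ∑ i ∈ T, Al S t2 m σ l (φ i) z :=
  funext fun z => H785.Ax_sum (c11_FD (σ := σ) hU l hm.pos).lip
    (c11_FD (σ := σ) (hU (S := S) (t2 := t2)) l hm.pos).B0 T h _ _ z

lemma eg_Gl (l : ℕ) (hm : Pm m l) (i j : Fin n) : EG (Gl S t2 m σ l i j) :=
  eg_Tl (eg_A2 S t2 i j) l hm

lemma eg_Cl (l : ℕ) (hm : Pm m l) (i j : Fin n) : EG (Cl S t2 m σ l i j) :=
  eg_Tl (S.eg_A t2 i j) l hm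

lemma eg_DR (l : ℕ) (hm : Pm m l) (i j : Fin n) (e : Pair n) : EG (DR S t2 m σ l i j e) :=
  eg_KP hU (eg_dA2 S t2 i j e) (eg_A2 S t2 i j) (C11.egD hU e) l hm

lemma Cl_comm (l : ℕ) (i j : Fin n) : Cl S t2 m σ l i j = Cl S t2 m σ l j i := by
  unfold Cl
  have : (fun u => S.A t2 u i j) = fun u => S.A t2 u j i := funext fun u => S.A_comm t2 u i j
  rw [this]

lemma Cl_self (l : ℕ) (hm : Pm m l) (i : Fin n) (u : Pair n → ℝ) :
    Cl S t2 m σ l i i u = 1 := by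
  unfold Cl Tl
  have : (fun u => S.A t2 u i i) = fun _ => 1 := funext fun u => S.A_self t2 u i
  rw [this, TP_const hU 1 l hm]

lemma TD_dd (l : ℕ) (e : Pair n) : TD (uu x t2 S.F) m σ (dd x t2 S.F S.D e) l =
    fun u => k * Cl S t2 m σ l e.1.1 e.1.2 u := by
  have : dd x t2 S.F S.D e = fun u => k * S.A t2 u e.1.1 e.1.2 := funext fun u => S.dd_eq t2 e u
  rw [this, TD_const_mul]
  rfl

lemma fd_QR (l : ℕ) (hm : Pm m l) (i j : Fin n) (z : Pair n → ℝ) :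
    HasFDerivAt (fun z => QR S t2 m σ l z i j) (H785.lf fun e => DR S t2 m σ l i j e z) z :=
  fd_TP hU (eg_A2 S t2 i j) (eg_dA2 S t2 i j) (fd_A2 S t2 i j) l hm z

lemma pd_QR (l : ℕ) (hm : Pm m l) (i j : Fin n) (e : Pair n) :
    PD e (fun z => QR S t2 m σ l z i j) (DR S t2 m σ l i j e) :=
  H785.pd_of_fd (fun z => fd_QR l hm i j z) e

/-- one more layer -/
lemma DR_succ (l : ℕ) (i j : Fin n) (e : Pair n) (z : Pair n → ℝ) :
    DR S t2 m σ (l + 1) i j e z = Al S t2 m σ l (DR S t2 m σ l i j e) z +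
      m l * (k * (Al S t2 m σ l (fun u => Gl S t2 m σ l i j u * Cl S t2 m σ l e.1.1 e.1.2 u) z -
        Gl S t2 m σ (l + 1) i j z * Cl S t2 m σ (l + 1) e.1.1 e.1.2 z)) := by
  have h1 : DR S t2 m σ (l + 1) i j e z = Al S t2 m σ l (DR S t2 m σ l i j e) z +
      m l * (Al S t2 m σ l (fun u => Gl S t2 m σ l i j u *
        TD (uu x t2 S.F) m σ (dd x t2 S.F S.D e) l u) z -
        Gl S t2 m σ (l + 1) i j z * TD (uu x t2 S.F) m σ (dd x t2 S.F S.D e) (l + 1) z) := rfl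
  rw [h1, TD_dd, TD_dd]
  have h2 : (fun u => Gl S t2 m σ l i j u * (k * Cl S t2 m σ l e.1.1 e.1.2 u)) =
      fun u => k * (Gl S t2 m σ l i j u * Cl S t2 m σ l e.1.1 e.1.2 u) := by
    funext u; ring
  simp only [h2, Al_const_mul]
  ring

/-- The sum over the rows, by recursion on the layers. -/
noncomputable def Rr (S : CS n k x) (t2 : ℝ) (m σ : ℕ → ℝ) (M : Matrix (Fin n) (Fin n) ℝ) :
    ℕ → (Pair n → ℝ) → ℝ
  | 0 => fun u => k * T1 S t2 M u + Tt S t2 M u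
  | l + 1 => fun z => Al S t2 m σ l (Rr S t2 m σ M l) z +
      m l * (k * (Al S t2 m σ l (JJ S t2 m σ l M) z - JJ S t2 m σ (l + 1) M z))

lemma eg_JJ (l : ℕ) (hm : Pm m l) (M : Matrix (Fin n) (Fin n) ℝ) : EG (JJ S t2 m σ l M) :=
  EG.sum _ fun i _ => EG.sum _ fun j _ => EG.const_mul _
    (EG.sum _ fun b _ => (eg_Gl l hm i b).mul (eg_Cl l hm b j))

lemma row_l (l : ℕ) (hm : Pm m l) (M : Matrix (Fin n) (Fin n) ℝ) (u : Pair n → ℝ) :
    ∑ b, ∑ e ∈ H325.row b, ∑ i, M i (oth b e) * (Gl S t2 m σ l i b u *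
      Cl S t2 m σ l e.1.1 e.1.2 u) = JJ S t2 m σ l M u - ∑ b, ∑ i, M i b * Gl S t2 m σ l i b u := by
  have h2 := row_A3 M (fun i j => Cl S t2 m σ l i j u) (fun i b => Gl S t2 m σ l i b u)
    (fun i j => by rw [Cl_comm])
  simp only [Cl_self l hm, mul_one] at h2
  exact h2

/-- **The derivatives of `Q_1`, summed over the rows.** -/
theorem sum_DR (M : Matrix (Fin n) (Fin n) ℝ) (ht : 0 < t2) : ∀ l, Pm m l → ∀ z,
    ∑ b, ∑ e ∈ H325.row b, ∑ i, M i (oth b e) * DR S t2 m σ l i b e z = Rr S t2 m σ M l z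
  | 0, _, z => row_dA2 S ht M z
  | l + 1, hm, z => by
    have hl := hm.low
    have e1 : ∀ (i b : Fin n) (e : Pair n), EG (DR S t2 m σ l i b e) := fun i b e =>
      eg_DR l hl i b e
    have e2 : ∀ (i b : Fin n) (e : Pair n), EG fun u => Gl S t2 m σ l i b u *
        Cl S t2 m σ l e.1.1 e.1.2 u := fun i b e => (eg_Gl l hl i b).mul (eg_Cl l hl _ _)
    have h1 : Al S t2 m σ l (Rr S t2 m σ M l) z = ∑ b, ∑ e ∈ H325.row b, ∑ i,
        M i (oth b e) * Al S t2 m σ l (DR S t2 m σ l i b e) z := by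
      rw [show Rr S t2 m σ M l = fun u => ∑ b, ∑ e ∈ H325.row b, ∑ i, M i (oth b e) *
        DR S t2 m σ l i b e u from funext fun u => (sum_DR M ht l hl u).symm]
      rw [Al_sum l hm _ fun b _ => EG.sum _ fun e _ => EG.sum _ fun i _ => (e1 i b e).const_mul _]
      refine Finset.sum_congr rfl fun b _ => ?_
      rw [Al_sum l hm _ fun e _ => EG.sum _ fun i _ => (e1 i b e).const_mul _]
      refine Finset.sum_congr rfl fun e _ => ?_
      rw [Al_sum l hm _ fun i _ => (e1 i b e).const_mul _]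
      exact Finset.sum_congr rfl fun i _ => by rw [Al_const_mul]
    have h2 : Al S t2 m σ l (fun u => ∑ b, ∑ e ∈ H325.row b, ∑ i, M i (oth b e) *
        (Gl S t2 m σ l i b u * Cl S t2 m σ l e.1.1 e.1.2 u)) z = ∑ b, ∑ e ∈ H325.row b, ∑ i,
        M i (oth b e) * Al S t2 m σ l (fun u => Gl S t2 m σ l i b u *
          Cl S t2 m σ l e.1.1 e.1.2 u) z := by
      rw [Al_sum l hm _ fun b _ => EG.sum _ fun e _ => EG.sum _ fun i _ => (e2 i b e).const_mul _]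
      refine Finset.sum_congr rfl fun b _ => ?_
      rw [Al_sum l hm _ fun e _ => EG.sum _ fun i _ => (e2 i b e).const_mul _]
      refine Finset.sum_congr rfl fun e _ => ?_
      rw [Al_sum l hm _ fun i _ => (e2 i b e).const_mul _]
      exact Finset.sum_congr rfl fun i _ => by rw [Al_const_mul]
    have eG : EG fun u => ∑ b, ∑ i, M i b * Gl S t2 m σ l i b u :=
      EG.sum _ fun b _ => EG.sum _ fun i _ => (eg_Gl l hl i b).const_mul _
    have h3 : Al S t2 m σ l (fun u => ∑ b, ∑ i, M i b * Gl S t2 m σ l i b u) z =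
        ∑ b, ∑ i, M i b * Gl S t2 m σ (l + 1) i b z := by
      rw [Al_sum l hm _ fun b _ => EG.sum _ fun i _ => (eg_Gl l hl i b).const_mul _]
      refine Finset.sum_congr rfl fun b _ => ?_
      rw [Al_sum l hm _ fun i _ => (eg_Gl l hl i b).const_mul _]
      refine Finset.sum_congr rfl fun i _ => ?_
      rw [Al_const_mul]
      rfl
    have h4 : ∑ b, ∑ e ∈ H325.row b, ∑ i, M i (oth b e) * DR S t2 m σ (l + 1) i b e z =
        (∑ b, ∑ e ∈ H325.row b, ∑ i, M i (oth b e) * Al S t2 m σ l (DR S t2 m σ l i b e) z) +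
        m l * (k * ((∑ b, ∑ e ∈ H325.row b, ∑ i, M i (oth b e) * Al S t2 m σ l (fun u =>
          Gl S t2 m σ l i b u * Cl S t2 m σ l e.1.1 e.1.2 u) z) -
          ∑ b, ∑ e ∈ H325.row b, ∑ i, M i (oth b e) * (Gl S t2 m σ (l + 1) i b z *
            Cl S t2 m σ (l + 1) e.1.1 e.1.2 z))) := by
      rw [← Finset.sum_sub_distrib, Finset.mul_sum, Finset.mul_sum, ← Finset.sum_add_distrib]
      refine Finset.sum_congr rfl fun b _ => ?_
      rw [← Finset.sum_sub_distrib, Finset.mul_sum, Finset.mul_sum, ← Finset.sum_add_distrib]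
      refine Finset.sum_congr rfl fun e _ => ?_
      rw [← Finset.sum_sub_distrib, Finset.mul_sum, Finset.mul_sum, ← Finset.sum_add_distrib]
      refine Finset.sum_congr rfl fun i _ => ?_
      rw [DR_succ]
      ring
    have eJ := eg_JJ (S := S) (t2 := t2) (σ := σ) l hl M
    rw [h4, ← h1, ← h2, row_l (l + 1) hm M z]
    simp only [row_l l hl M]
    have h5 : (fun u => JJ S t2 m σ l M u - ∑ b, ∑ i, M i b * Gl S t2 m σ l i b u) =
        fun u => JJ S t2 m σ l M u + (-1) * ∑ b, ∑ i, M i b * Gl S t2 m σ l i b u := by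
      funext u; ring
    rw [h5, Al_add l hm eJ (eG.const_mul _), Al_const_mul]
    simp only
    rw [h3]
    show _ = Al S t2 m σ l (Rr S t2 m σ M l) z +
      m l * (k * (Al S t2 m σ l (JJ S t2 m σ l M) z - JJ S t2 m σ (l + 1) M z))
    ring

end Vale.Agent.P146.H693
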