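import Vale.Agent.P146.H693.R1
import Vale.Agent.P146.H499.Edge

/-!
Row F0 of plan R2 for a layered base (ramp), part 3: the theorem `F0R`.
-/

open MeasureTheory ProbabilityTheory

namespace Vale.Agent.P146.H693

open Vale.Agent.P157.Lv Vale.Agent.P146.H425 Vale.Agent.P146.H325 Vale.Agent.P146.H332
  Vale.Agent.P146.H712 Vale.Agent.P146.H816 Vale.Agent.P146.R1 Vale.Agent.P146.R1C Matrix
  Vale.Agent.P146.R1S
open Vale.Agent.P146.H785 (Ax)
open Vale.Agent.P146.H499 (Zm)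

set_option linter.unusedSectionVars false

variable {n : ℕ} {k x : ℝ} {S : CS n k x} {t2 : ℝ} {m σ : ℕ → ℝ}

lemma pd2_Zm (g : Pair n → ℝ) (i j : Fin n) : pd2 g i j = Zm g i j := by
  unfold pd2 Zm
  rfl

lemma QR_comm (l : ℕ) (z : Pair n → ℝ) (i j : Fin n) :
    QR S t2 m σ l z i j = QR S t2 m σ l z j i := by
  unfold QR Gl
  rw [show A2 S t2 i j = A2 S t2 j i from funext fun u => A2_comm S t2 i j u]

lemma eg_QR (l : ℕ) (hm : Pm m l) (i j : Fin n) : EG fun z => QR S t2 m σ l z i j :=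
  eg_Gl l hm i j

/-- **Integration by parts of `E tr (Z Q_1 ^ 2)`.** -/
theorem ibp_QR (N : ℕ) (hm : Pm m N) (ht : 0 < t2) (c : ℝ) :
    ∫ g, ∑ b, ∑ j, Zm g b j * (QR S t2 m σ N (c • g) * QR S t2 m σ N (c • g)) b j
      ∂(gI (Pair n)) = 2 * c * ∫ g, Rr S t2 m σ (QR S t2 m σ N (c • g)) N (c • g)
        ∂(gI (Pair n)) := by
  have e0 : ∀ i j, EG fun g : Pair n → ℝ => QR S t2 m σ N (c • g) i j := fun i j =>
    eg_scale (eg_QR N hm i j) c
  have e0' : ∀ i j e, EG fun g : Pair n → ℝ => DR S t2 m σ N i j e (c • g) := fun i j e =>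
    eg_scale (eg_DR N hm i j e) c
  have a1 : ∀ g : Pair n → ℝ, ∑ b, ∑ j, Zm g b j *
      (QR S t2 m σ N (c • g) * QR S t2 m σ N (c • g)) b j =
      ∑ e : Pair n, 2 * (g e * ∑ i, QR S t2 m σ N (c • g) i e.1.1 *
        QR S t2 m σ N (c • g) i e.1.2) := by
    intro g
    have a0 : ∑ b, ∑ j, Zm g b j * (QR S t2 m σ N (c • g) * QR S t2 m σ N (c • g)) b j =
        ∑ b, ∑ j, (fun p q => (QR S t2 m σ N (c • g) * QR S t2 m σ N (c • g)) p q) b j *
          pd2 g b j :=
      Finset.sum_congr rfl fun b _ => Finset.sum_congr rfl fun j _ => by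
        rw [pd2_Zm, mul_comm]
    rw [a0]
    refine (sum_pd2 (fun p q => (QR S t2 m σ N (c • g) * QR S t2 m σ N (c • g)) p q)
      g).trans ?_
    refine Finset.sum_congr rfl fun e _ => ?_
    have b1 : ∀ p q, (QR S t2 m σ N (c • g) * QR S t2 m σ N (c • g)) p q =
        ∑ i, QR S t2 m σ N (c • g) i p * QR S t2 m σ N (c • g) i q := by
      intro p q
      rw [Matrix.mul_apply]
      exact Finset.sum_congr rfl fun i _ => by rw [QR_comm N (c • g) p i]
    rw [b1, b1]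
    have b2 : ∑ i, QR S t2 m σ N (c • g) i e.1.2 * QR S t2 m σ N (c • g) i e.1.1 =
        ∑ i, QR S t2 m σ N (c • g) i e.1.1 * QR S t2 m σ N (c • g) i e.1.2 :=
      Finset.sum_congr rfl fun i _ => mul_comm _ _
    rw [b2]
    ring
  have a2 : ∀ g : Pair n → ℝ, Rr S t2 m σ (QR S t2 m σ N (c • g)) N (c • g) =
      ∑ e : Pair n, ∑ i, (DR S t2 m σ N i e.1.1 e (c • g) * QR S t2 m σ N (c • g) i e.1.2 +
        QR S t2 m σ N (c • g) i e.1.1 * DR S t2 m σ N i e.1.2 e (c • g)) := by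
    intro g
    rw [← sum_DR (QR S t2 m σ N (c • g)) ht N hm (c • g)]
    rw [sum_two_rows fun b e => ∑ i, QR S t2 m σ N (c • g) i (oth b e) *
      DR S t2 m σ N i b e (c • g)]
    refine Finset.sum_congr rfl fun e _ => ?_
    rw [← Finset.sum_add_distrib]
    refine Finset.sum_congr rfl fun i _ => ?_
    have b1 : oth e.1.1 e = e.1.2 := by unfold oth; rw [if_pos rfl]
    have b2 : oth e.1.2 e = e.1.1 := by unfold oth; rw [if_neg e.2.ne]
    rw [b1, b2]
    ring
  have a3 : ∀ e : Pair n, ∫ g, g e * ∑ i, QR S t2 m σ N (c • g) i e.1.1 *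
      QR S t2 m σ N (c • g) i e.1.2 ∂(gI (Pair n)) = ∫ g, c * ∑ i,
        (DR S t2 m σ N i e.1.1 e (c • g) * QR S t2 m σ N (c • g) i e.1.2 +
        QR S t2 m σ N (c • g) i e.1.1 * DR S t2 m σ N i e.1.2 e (c • g)) ∂(gI (Pair n)) := by
    intro e
    refine PD.stein (e := e) (H := fun g => ∑ i, QR S t2 m σ N (c • g) i e.1.1 *
      QR S t2 m σ N (c • g) i e.1.2) ?_ (EG.sum _ fun i _ => (e0 i _).mul (e0 i _)) ?_
    · refine (PD.sum Finset.univ fun i _ => (pd_scale (pd_QR N hm i e.1.1 e) c).mul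
        (pd_scale (pd_QR N hm i e.1.2 e) c)).congr fun g => ?_
      rw [Finset.mul_sum]
      exact Finset.sum_congr rfl fun i _ => by ring
    · exact (EG.sum _ fun i _ => ((e0' i _ e).mul (e0 i _)).add
        ((e0 i _).mul (e0' i _ e))).const_mul c
  simp only [a1, a2]
  rw [integral_finsetSum _ fun e _ => ((((EG.coord e).mul
    (EG.sum _ fun i _ => (e0 i _).mul (e0 i _))).const_mul 2).integrable),
    integral_finsetSum _ fun e _ => (EG.sum _ fun i _ => ((e0' i _ e).mul (e0 i _)).add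
        ((e0 i _).mul (e0' i _ e))).integrable, Finset.mul_sum]
  refine Finset.sum_congr rfl fun e _ => ?_
  rw [integral_const_mul, a3 e, integral_const_mul]
  ring

end Vale.Agent.P146.H693
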