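import Vale.Agent.P146.H693.R2

/-!
Row F0 of plan R2 for a layered base (ramp), part 4: the theorem `F0R`.
-/

open MeasureTheory ProbabilityTheory

namespace Vale.Agent.P146.H693

open Vale.Agent.P157.Lv Vale.Agent.P146.H425 Vale.Agent.P146.H325 Vale.Agent.P146.H332
  Vale.Agent.P146.H712 Vale.Agent.P146.H816 Vale.Agent.P146.R1 Vale.Agent.P146.R1C Matrix
  Vale.Agent.P146.R1S
open Vale.Agent.P146.H785 (Ax)
open Vale.Agent.P146.H499 (Zm)

set_option linter.unusedSectionVars false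

variable {n : ℕ} {k x : ℝ}

/-- the mean over the layers `l, l + 1, .., l + d - 1` of a function of the position below the
layer `l` -/
noncomputable def Lf (S : CS n k x) (t2 : ℝ) (m σ : ℕ → ℝ) (l : ℕ) (ψ : (Pair n → ℝ) → ℝ) :
    ℕ → (Pair n → ℝ) → ℝ
  | 0 => ψ
  | d + 1 => Al S t2 m σ (l + d) (Lf S t2 m σ l ψ d)

/-- the sum over the rows without the touch term -/
noncomputable def Rp (S : CS n k x) (t2 : ℝ) (m σ : ℕ → ℝ) (M : Matrix (Fin n) (Fin n) ℝ)
    (N : ℕ) (z : Pair n → ℝ) : ℝ :=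
  k * (Tl S t2 m σ (T1 S t2 M) N z + ∑ l ∈ Finset.range N, m l *
    (Lf S t2 m σ l (JJ S t2 m σ l M) (N - l) z -
      Lf S t2 m σ (l + 1) (JJ S t2 m σ (l + 1) M) (N - (l + 1)) z))

variable {S : CS n k x} {t2 : ℝ} {m σ : ℕ → ℝ}

lemma Pm.mono {i j : ℕ} (h : Pm m j) (hij : i ≤ j) : Pm m i := fun l hl => h l (by omega)

lemma eg_Lf {l : ℕ} {ψ : (Pair n → ℝ) → ℝ} (h : EG ψ) : ∀ d, Pm m (l + d) →
    EG (Lf S t2 m σ l ψ d)
  | 0, _ => h
  | d + 1, hm => eg_Al (eg_Lf h d (hm.mono (by omega))) (l + d) hm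

lemma Lf_succ {l N : ℕ} (hl : l ≤ N) (ψ : (Pair n → ℝ) → ℝ) :
    Lf S t2 m σ l ψ (N + 1 - l) = Al S t2 m σ N (Lf S t2 m σ l ψ (N - l)) := by
  have h1 : N + 1 - l = (N - l) + 1 := by omega
  have h2 : l + (N - l) = N := by omega
  rw [h1]
  show Al S t2 m σ (l + (N - l)) (Lf S t2 m σ l ψ (N - l)) = _
  rw [h2]

lemma eg_Tt' {N : ℕ} (hm : Pm m N) (M : Matrix (Fin n) (Fin n) ℝ) :
    EG (Tl S t2 m σ (Tt S t2 M) N) := eg_Tl (eg_Tt S t2 M) N hm

theorem Rr_eq (M : Matrix (Fin n) (Fin n) ℝ) (ht : 0 < t2) : ∀ N, Pm m N → ∀ z,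
    Rr S t2 m σ M N z = Rp S t2 m σ M N z + Tl S t2 m σ (Tt S t2 M) N z
  | 0, _, z => by
    show k * T1 S t2 M z + Tt S t2 M z = Rp S t2 m σ M 0 z + Tt S t2 M z
    unfold Rp
    rw [Finset.range_zero, Finset.sum_empty, add_zero]
    rfl
  | N + 1, hm, z => by
    have hl := hm.low
    have e1 : EG (Tl S t2 m σ (T1 S t2 M) N) := eg_Tl (eg_T1 S ht M) N hl
    have e2 : ∀ l ∈ Finset.range N, EG (Lf S t2 m σ l (JJ S t2 m σ l M) (N - l)) := by
      intro l hl'
      rw [Finset.mem_range] at hl'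
      exact eg_Lf (eg_JJ l (hl.mono hl'.le) M) _ (hl.mono (by omega))
    have e3 : ∀ l ∈ Finset.range N,
        EG (Lf S t2 m σ (l + 1) (JJ S t2 m σ (l + 1) M) (N - (l + 1))) := by
      intro l hl'
      rw [Finset.mem_range] at hl'
      exact eg_Lf (eg_JJ (l + 1) (hl.mono hl') M) _ (hl.mono (by omega))
    have h0 : Rr S t2 m σ M (N + 1) z = Al S t2 m σ N (Rr S t2 m σ M N) z +
      m N * (k * (Al S t2 m σ N (JJ S t2 m σ N M) z - JJ S t2 m σ (N + 1) M z)) := rfl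
    have h1 : Rr S t2 m σ M N = fun u => k * Tl S t2 m σ (T1 S t2 M) N u +
        (∑ l ∈ Finset.range N, ((k * m l) * Lf S t2 m σ l (JJ S t2 m σ l M) (N - l) u +
          (-(k * m l)) * Lf S t2 m σ (l + 1) (JJ S t2 m σ (l + 1) M) (N - (l + 1)) u)) +
        Tl S t2 m σ (Tt S t2 M) N u := by
      funext u
      rw [Rr_eq M ht N hl u]
      unfold Rp
      rw [mul_add, Finset.mul_sum]
      congr 2
      exact Finset.sum_congr rfl fun l _ => by ring
    have e4 : ∀ l ∈ Finset.range N, EG fun u => ((k * m l) * Lf S t2 m σ l (JJ S t2 m σ l M)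
        (N - l) u + (-(k * m l)) * Lf S t2 m σ (l + 1) (JJ S t2 m σ (l + 1) M)
          (N - (l + 1)) u) := fun l hl' =>
      ((e2 l hl').const_mul _).add ((e3 l hl').const_mul _)
    have h2 : Al S t2 m σ N (Rr S t2 m σ M N) z = k * Tl S t2 m σ (T1 S t2 M) (N + 1) z +
        (∑ l ∈ Finset.range N, ((k * m l) * Lf S t2 m σ l (JJ S t2 m σ l M) (N + 1 - l) z +
          (-(k * m l)) * Lf S t2 m σ (l + 1) (JJ S t2 m σ (l + 1) M) (N + 1 - (l + 1)) z)) +
        Tl S t2 m σ (Tt S t2 M) (N + 1) z := by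
      rw [h1, Al_add N hm ((e1.const_mul k).add (EG.sum _ e4)) (eg_Tt' hl M)]
      simp only
      rw [Al_add N hm (e1.const_mul k) (EG.sum _ e4), Al_const_mul]
      simp only
      rw [Al_sum N hm _ e4]
      simp only
      congr 2
      refine Finset.sum_congr rfl fun l hl' => ?_
      rw [Al_add N hm ((e2 l hl').const_mul _) ((e3 l hl').const_mul _), Al_const_mul,
        Al_const_mul]
      simp only
      rw [Finset.mem_range] at hl'
      rw [Lf_succ hl'.le, Lf_succ (l := l + 1) hl']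
    rw [h0, h2]
    unfold Rp
    rw [Finset.sum_range_succ]
    have h3 : Lf S t2 m σ N (JJ S t2 m σ N M) (N + 1 - N) = Al S t2 m σ N (JJ S t2 m σ N M) := by
      rw [Lf_succ le_rfl, Nat.sub_self]
      rfl
    have h4 : Lf S t2 m σ (N + 1) (JJ S t2 m σ (N + 1) M) (N + 1 - (N + 1)) =
        JJ S t2 m σ (N + 1) M := by
      rw [Nat.sub_self]
      rfl
    rw [h3, h4]
    have h5 : ∑ l ∈ Finset.range N, ((k * m l) * Lf S t2 m σ l (JJ S t2 m σ l M) (N + 1 - l) z +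
        (-(k * m l)) * Lf S t2 m σ (l + 1) (JJ S t2 m σ (l + 1) M) (N + 1 - (l + 1)) z) =
        k * ∑ l ∈ Finset.range N, m l * (Lf S t2 m σ l (JJ S t2 m σ l M) (N + 1 - l) z -
          Lf S t2 m σ (l + 1) (JJ S t2 m σ (l + 1) M) (N + 1 - (l + 1)) z) := by
      rw [Finset.mul_sum]
      exact Finset.sum_congr rfl fun l _ => by ring
    rw [h5]
    ring

/-! ### bounds -/

lemma abs_A2 (t : ℝ) (i j : Fin n) (u : Pair n → ℝ) : |A2 S t i j u| ≤ n := by
  unfold A2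
  refine (Finset.abs_sum_le_sum_abs _ _).trans ?_
  have h : ∀ l ∈ (Finset.univ : Finset (Fin n)), |S.A t u i l * S.A t u l j| ≤ 1 := by
    intro l _
    rw [abs_mul]
    exact mul_le_one₀ (S.abs_A t u i l) (abs_nonneg _) (S.abs_A t u l j)
  refine (Finset.sum_le_sum h).trans ?_
  simp

lemma abs_Tl {φ : (Pair n → ℝ) → ℝ} (h : EG φ) {C : ℝ} (hC : ∀ u, |φ u| ≤ C) (l : ℕ)
    (hm : Pm m l) (z : Pair n → ℝ) : |Tl S t2 m σ φ l z| ≤ C := by
  have h1 : 0 ≤ Tl S t2 m σ (fun u => C + (-1) * φ u) l z :=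
    TP_nonneg (fun u => by linarith [(abs_le.1 (hC u)).2]) l z
  have h2 : 0 ≤ Tl S t2 m σ (fun u => C + φ u) l z :=
    TP_nonneg (fun u => by linarith [(abs_le.1 (hC u)).1]) l z
  unfold Tl at *
  rw [TP_add hU (EG.const C) (h.const_mul _) l hm, TP_const hU C l hm, TD_const_mul] at h1
  rw [TP_add hU (EG.const C) h l hm, TP_const hU C l hm] at h2
  simp only at h1 h2
  exact abs_le.2 ⟨by linarith, by linarith⟩

lemma abs_QR (l : ℕ) (hm : Pm m l) (z : Pair n → ℝ) (i j : Fin n) :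
    |QR S t2 m σ l z i j| ≤ n := abs_Tl (eg_A2 S t2 i j) (abs_A2 t2 i j) l hm z

/-- `Q_1` is positive semidefinite -/
theorem QR_psd (l : ℕ) (hm : Pm m l) (z : Pair n → ℝ) : Psd (QR S t2 m σ l z) := by
  refine ⟨?_, fun c => ?_⟩
  · ext i j
    rw [transpose_apply]
    exact QR_comm l z j i
  · have h1 : Tl S t2 m σ (fun u => ∑ i, ∑ j, c i * c j * A2 S t2 i j u) l z =
        ∑ i, ∑ j, c i * c j * QR S t2 m σ l z i j := by
      unfold Tl
      rw [TP_sum hU _ (fun i _ => EG.sum _ fun j _ => (eg_A2 S t2 i j).const_mul _) l hm]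
      refine Finset.sum_congr rfl fun i _ => ?_
      rw [TP_sum hU _ (fun j _ => (eg_A2 S t2 i j).const_mul _) l hm]
      refine Finset.sum_congr rfl fun j _ => ?_
      rw [TD_const_mul]
      rfl
    rw [← h1]
    refine TP_nonneg (fun u => ?_) l z
    have h2 : ∑ i, ∑ j, c i * c j * A2 S t2 i j u = ∑ l, (∑ i, c i * S.A t2 u i l) ^ 2 := by
      unfold A2
      have e1 : ∀ l, (∑ i, c i * S.A t2 u i l) ^ 2 =
          ∑ i, ∑ j, c i * c j * (S.A t2 u i l * S.A t2 u l j) := by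
        intro l
        rw [_root_.sq, Finset.sum_mul_sum]
        refine Finset.sum_congr rfl fun i _ => Finset.sum_congr rfl fun j _ => ?_
        rw [S.A_comm t2 u l j]
        ring
      simp only [e1, Finset.mul_sum]
      rw [Finset.sum_comm (s := (Finset.univ : Finset (Fin n)))]
      symm
      rw [Finset.sum_comm]
      have e2 : ∀ i : Fin n, ∑ l, ∑ j, c i * c j * (S.A t2 u i l * S.A t2 u l j) =
          ∑ j, ∑ l, c i * c j * (S.A t2 u i l * S.A t2 u l j) := fun i => Finset.sum_comm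
      simp only [e2]
      exact Finset.sum_comm
    rw [h2]
    exact Finset.sum_nonneg fun l _ => sq_nonneg _

lemma sq_trace {Q : Matrix (Fin n) (Fin n) ℝ} (hQ : ∀ i j, Q i j = Q j i) :
    (Q * Q).trace = fr Q := by
  unfold Matrix.trace fr
  refine Finset.sum_congr rfl fun i _ => ?_
  rw [Matrix.diag_apply, Matrix.mul_apply]
  exact Finset.sum_congr rfl fun j _ => by rw [hQ j i, _root_.sq]

lemma sq_psd {Q : Matrix (Fin n) (Fin n) ℝ} (hQ : ∀ i j, Q i j = Q j i) : Psd (Q * Q) := by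
  refine ⟨?_, fun c => ?_⟩
  · ext i j
    rw [transpose_apply, Matrix.mul_apply, Matrix.mul_apply]
    exact Finset.sum_congr rfl fun l _ => by rw [hQ j l, hQ l i]; ring
  · have h : ∑ i, ∑ j, c i * c j * (Q * Q) i j = ∑ l, (∑ i, c i * Q i l) ^ 2 := by
      have e1 : ∀ l, (∑ i, c i * Q i l) ^ 2 = ∑ i, ∑ j, c i * c j * (Q i l * Q l j) := by
        intro l
        rw [_root_.sq, Finset.sum_mul_sum]
        refine Finset.sum_congr rfl fun i _ => Finset.sum_congr rfl fun j _ => ?_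
        rw [hQ l j]
        ring
      simp only [e1, Matrix.mul_apply, Finset.mul_sum]
      symm
      rw [Finset.sum_comm]
      exact Finset.sum_congr rfl fun i _ => Finset.sum_comm
    rw [h]
    exact Finset.sum_nonneg fun l _ => sq_nonneg _

/-! ### the touch term and the regularity in the base point -/

lemma Tl_Tt (N : ℕ) (hm : Pm m N) (M : Matrix (Fin n) (Fin n) ℝ) (z : Pair n → ℝ) :
    Tl S t2 m σ (Tt S t2 M) N z = ∑ b, ∑ e ∈ H325.row b, ∑ i, ∑ l, M i (oth b e) *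
      Tl S t2 m σ (fun u => S.A t2 u l b * S.DA t2 e u i l) N z := by
  have e1 : ∀ (b : Fin n) (e : Pair n) (i l : Fin n), EG fun u => S.A t2 u l b *
      S.DA t2 e u i l := fun b e i l => (S.eg_A t2 l b).mul (S.eg_DA t2 e i l)
  have h1 : Tt S t2 M = fun u => ∑ b, ∑ e ∈ H325.row b, ∑ i, ∑ l,
      (fun p q => M p q) i (oth b e) * (S.A t2 u l b * S.DA t2 e u i l) := by
    funext u
    unfold Tt
    refine Finset.sum_congr rfl fun b _ => Finset.sum_congr rfl fun e _ =>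
      Finset.sum_congr rfl fun i _ => Finset.sum_congr rfl fun l _ => ?_
    ring
  rw [h1]
  unfold Tl
  rw [TP_sum hU _ (fun b _ => EG.sum _ fun e _ => EG.sum _ fun i _ => EG.sum _ fun l _ =>
    (e1 b e i l).const_mul _) N hm]
  refine Finset.sum_congr rfl fun b _ => ?_
  rw [TP_sum hU _ (fun e _ => EG.sum _ fun i _ => EG.sum _ fun l _ =>
    (e1 b e i l).const_mul _) N hm]
  refine Finset.sum_congr rfl fun e _ => ?_
  rw [TP_sum hU _ (fun i _ => EG.sum _ fun l _ => (e1 b e i l).const_mul _) N hm]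
  refine Finset.sum_congr rfl fun i _ => ?_
  rw [TP_sum hU _ (fun l _ => (e1 b e i l).const_mul _) N hm]
  refine Finset.sum_congr rfl fun l _ => ?_
  rw [TD_const_mul]

lemma eg_bTt (N : ℕ) (hm : Pm m N) :
    EG fun z => Tl S t2 m σ (Tt S t2 (QR S t2 m σ N z)) N z := by
  have h : (fun z => Tl S t2 m σ (Tt S t2 (QR S t2 m σ N z)) N z) = fun z =>
      ∑ b, ∑ e ∈ H325.row b, ∑ i, ∑ l, QR S t2 m σ N z i (oth b e) *
        Tl S t2 m σ (fun u => S.A t2 u l b * S.DA t2 e u i l) N z :=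
    funext fun z => Tl_Tt N hm (QR S t2 m σ N z) z
  rw [h]
  exact EG.sum _ fun b _ => EG.sum _ fun e _ => EG.sum _ fun i _ => EG.sum _ fun l _ =>
    (eg_QR N hm i _).mul (eg_Tl ((S.eg_A t2 l b).mul (S.eg_DA t2 e i l)) N hm)

lemma eg_bRr (N : ℕ) (hm : Pm m N) (ht : 0 < t2) :
    EG fun z => Rr S t2 m σ (QR S t2 m σ N z) N z := by
  have h : (fun z => Rr S t2 m σ (QR S t2 m σ N z) N z) = fun z =>
      ∑ b, ∑ e ∈ H325.row b, ∑ i, QR S t2 m σ N z i (oth b e) * DR S t2 m σ N i b e z :=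
    funext fun z => (sum_DR (QR S t2 m σ N z) ht N hm z).symm
  rw [h]
  exact EG.sum _ fun b _ => EG.sum _ fun e _ => EG.sum _ fun i _ =>
    (eg_QR N hm i _).mul (eg_DR N hm i b e)

lemma eg_bRp (N : ℕ) (hm : Pm m N) (ht : 0 < t2) :
    EG fun z => Rp S t2 m σ (QR S t2 m σ N z) N z := by
  have h : (fun z => Rp S t2 m σ (QR S t2 m σ N z) N z) = fun z =>
      Rr S t2 m σ (QR S t2 m σ N z) N z - Tl S t2 m σ (Tt S t2 (QR S t2 m σ N z)) N z := by
    funext z
    rw [Rr_eq (QR S t2 m σ N z) ht N hm z]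
    ring
  rw [h]
  exact (eg_bRr N hm ht).sub (eg_bTt N hm)

lemma bTt_nonneg (N : ℕ) (hm : Pm m N) (z : Pair n → ℝ) :
    0 ≤ Tl S t2 m σ (Tt S t2 (QR S t2 m σ N z)) N z :=
  TP_nonneg (Tt_nonneg S t2 (QR_psd N hm z)) N z

/-- **Row F0 of plan R2**, for a base of `N` layers (innermost first) with exponents `m` and
standard deviations `σ`, all exponents but the last one positive, the last one arbitrary (`0` in
the applications): the position above the layers is a free Gaussian with variance `c ^ 2`. -/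
theorem F0R (N : ℕ) (hm : Pm m N) (ht : 0 < t2) {c r : ℝ} (hc : 0 ≤ c) (hr : 0 ≤ r) :
    2 * c * ∫ g, Rp S t2 m σ (QR S t2 m σ N (c • g)) N (c • g) ∂(gI (Pair n)) ≤
      (2 * √n + r) * ∫ g, fr (QR S t2 m σ N (c • g)) ∂(gI (Pair n)) +
        (n : ℝ) ^ 4 * n * Real.exp (-(r ^ 2 / 16)) := by
  have h1 : ∫ g, Rp S t2 m σ (QR S t2 m σ N (c • g)) N (c • g) ∂(gI (Pair n)) ≤
      ∫ g, Rr S t2 m σ (QR S t2 m σ N (c • g)) N (c • g) ∂(gI (Pair n)) := by
    refine integral_mono (eg_scale (eg_bRp N hm ht) c).integrable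
      (eg_scale (eg_bRr N hm ht) c).integrable fun g => ?_
    simp only
    rw [Rr_eq (QR S t2 m σ N (c • g)) ht N hm (c • g)]
    linarith [bTt_nonneg (S := S) (t2 := t2) (σ := σ) N hm (c • g)]
  have h2 := mul_le_mul_of_nonneg_left h1 (by positivity : (0 : ℝ) ≤ 2 * c)
  refine h2.trans ?_
  rw [← ibp_QR N hm ht c]
  have e0 : ∀ i j, EG fun g : Pair n → ℝ => QR S t2 m σ N (c • g) i j := fun i j =>
    eg_scale (eg_QR N hm i j) c
  have hM : ∀ g : Pair n → ℝ, Psd (QR S t2 m σ N (c • g) * QR S t2 m σ N (c • g)) :=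
    fun g => sq_psd fun i j => QR_comm N (c • g) i j
  have hE : ∀ i j, EG fun g : Pair n → ℝ =>
      (QR S t2 m σ N (c • g) * QR S t2 m σ N (c • g)) i j := by
    intro i j
    simp only [Matrix.mul_apply]
    exact EG.sum _ fun l _ => (e0 i l).mul (e0 l j)
  have hT : ∀ g : Pair n → ℝ, (QR S t2 m σ N (c • g) * QR S t2 m σ N (c • g)).trace =
      fr (QR S t2 m σ N (c • g)) := fun g => sq_trace fun i j => QR_comm N (c • g) i j
  have hK : ∀ g : Pair n → ℝ, (QR S t2 m σ N (c • g) * QR S t2 m σ N (c • g)).trace ≤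
      (n : ℝ) ^ 4 := by
    intro g
    rw [hT]
    unfold fr
    have h3 : ∀ i j, QR S t2 m σ N (c • g) i j ^ 2 ≤ (n : ℝ) ^ 2 := by
      intro i j
      rw [← sq_abs]
      exact pow_le_pow_left₀ (abs_nonneg _) (abs_QR N hm (c • g) i j) 2
    refine (Finset.sum_le_sum fun i _ => Finset.sum_le_sum fun j _ => h3 i j).trans ?_
    simp only [Finset.sum_const, Finset.card_univ, Fintype.card_fin, nsmul_eq_mul]
    exact le_of_eq (by ring)
  have h4 := H499.edge hM hE hK hr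
  simp only [hT] at h4
  exact h4

end Vale.Agent.P146.H693
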