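import Vale.Agent.P146.H645.CSys
import Vale.Agent.P146.H713.Deep

/-!
Row F0 of plan R2, part 1: the Hessian form of the value function in terms of the derivatives
`DA` of the two point functions is symmetric and positive semidefinite; the touch term.
-/

open MeasureTheory ProbabilityTheory

namespace Vale.Agent.P146.H693

open Vale.Agent.P157.Lv Vale.Agent.P146.H425 Vale.Agent.P146.H325 Vale.Agent.P146.H332
  Vale.Agent.P146.H712 Vale.Agent.P146.H816 Vale.Agent.P146.R1 Vale.Agent.P146.R1C Matrix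
  Vale.Agent.P146.R1S

set_option linter.unusedSectionVars false

variable {n : ℕ} {k x : ℝ} (S : CS n k x)

lemma cv_uu (s : ℝ) : Cv (uu x s S.F) := H941.cv_W S.c11 S.cv S.x0 _

/-- the gradient of the value function, as a linear form -/
noncomputable def gr (s : ℝ) (z : Pair n → ℝ) : (Pair n → ℝ) →L[ℝ] ℝ :=
  ∑ e : Pair n, (k * S.A s z e.1.1 e.1.2) • ContinuousLinearMap.proj (R := ℝ) (φ := fun _ => ℝ) e

lemma gr_apply (s : ℝ) (z w : Pair n → ℝ) :
    gr S s z w = ∑ e : Pair n, k * S.A s z e.1.1 e.1.2 * w e := by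
  simp [gr, _root_.sum_apply, _root_.smul_apply]

lemma fd_uu (s : ℝ) (z : Pair n → ℝ) : HasFDerivAt (uu x s S.F) (gr S s z) z := by
  have h := H785.C11.hasFDerivAt (c11_uu S.c11 S.x0 s) z
  refine h.congr_fderiv ?_
  ext w
  rw [gr_apply, H785.lf_apply]
  refine Finset.sum_congr rfl fun e _ => ?_
  rw [S.dd_eq]

/-- its derivative -/
noncomputable def gr2 (s : ℝ) (z : Pair n → ℝ) : (Pair n → ℝ) →L[ℝ] (Pair n → ℝ) →L[ℝ] ℝ :=
  ∑ f : Pair n, (k • H785.lf fun e => S.DA s e z f.1.1 f.1.2).smulRight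
    (ContinuousLinearMap.proj (R := ℝ) (φ := fun _ => ℝ) f)

lemma gr2_apply (s : ℝ) (z v w : Pair n → ℝ) :
    gr2 S s z v w = k * ∑ e, ∑ f : Pair n, v e * w f * S.DA s e z f.1.1 f.1.2 := by
  simp only [gr2, _root_.sum_apply, ContinuousLinearMap.smulRight_apply, _root_.smul_apply,
    H785.lf_apply, smul_eq_mul, ContinuousLinearMap.proj_apply]
  rw [Finset.sum_comm, Finset.mul_sum]
  refine Finset.sum_congr rfl fun f _ => ?_
  rw [Finset.mul_sum, Finset.mul_sum, Finset.sum_mul]
  exact Finset.sum_congr rfl fun e _ => by ring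

lemma fd_gr (s : ℝ) (z : Pair n → ℝ) : HasFDerivAt (gr S s) (gr2 S s z) z := by
  unfold gr gr2
  refine HasFDerivAt.fun_sum fun f _ => ?_
  have h := (S.fd_A s f.1.1 f.1.2 z).const_mul k
  exact h.smul_const (ContinuousLinearMap.proj (R := ℝ) (φ := fun _ : Pair n => ℝ) f)

/-- The derivatives of the two point functions are symmetric. -/
theorem DA_symm (s : ℝ) (e f : Pair n) (z : Pair n → ℝ) :
    S.DA s e z f.1.1 f.1.2 = S.DA s f z e.1.1 e.1.2 := by
  have h := second_derivative_symmetric (fun y => fd_uu S s y) (fd_gr S s z)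
    (Pi.single e 1) (Pi.single f 1)
  rw [gr2_apply, gr2_apply] at h
  have h1 : ∀ e f : Pair n, (∑ e', ∑ f' : Pair n, (Pi.single e 1 : Pair n → ℝ) e' *
      (Pi.single f 1 : Pair n → ℝ) f' * S.DA s e' z f'.1.1 f'.1.2) = S.DA s e z f.1.1 f.1.2 := by
    intro e f
    rw [Finset.sum_eq_single e, Finset.sum_eq_single f]
    · simp
    · intro b _ hb
      simp [Pi.single_eq_of_ne hb]
    · simp
    · intro b _ hb
      simp [Pi.single_eq_of_ne hb]
    · simp
  rw [h1, h1] at h
  exact mul_left_cancel₀ S.k0.ne' h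

/-- The Hessian form is positive semidefinite. -/
theorem DA_psd (s : ℝ) (z w : Pair n → ℝ) :
    0 ≤ ∑ e, ∑ f : Pair n, w e * w f * S.DA s e z f.1.1 f.1.2 := by
  have hk := S.k0
  set φ : ℝ → ℝ := fun t => uu x s S.F (z + t • w) with hφ
  have hline : ∀ t : ℝ, HasDerivAt (fun t : ℝ => z + t • w) w t := by
    intro t
    simpa using ((hasDerivAt_id t).smul_const w).const_add z
  have h1 : ∀ t, HasDerivAt φ (gr S s (z + t • w) w) t := fun t =>
    (fd_uu S s (z + t • w)).comp_hasDerivAt t (hline t)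
  have h2 : ConvexOn ℝ Set.univ φ := by
    refine ⟨convex_univ, fun a _ b _ p q hp hq hpq => ?_⟩
    have := cv_uu S s p q hp hq hpq (z + a • w) (z + b • w)
    simp only [hφ, smul_eq_mul]
    refine le_trans (le_of_eq ?_) this
    congr 1
    have e1 : z = p • z + q • z := by rw [← add_smul, hpq, one_smul]
    nth_rw 1 [e1]
    simp only [smul_add, smul_smul, add_smul]
    abel
  have h3 : Monotone (deriv φ) := by
    have := h2.monotoneOn_deriv fun t _ => (h1 t).differentiableAt
    exact monotoneOn_univ.1 this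
  have h4 : deriv φ = fun t => gr S s (z + t • w) w := funext fun t => (h1 t).deriv
  have h5 : HasDerivAt (fun t : ℝ => gr S s (z + t • w) w) (gr2 S s z w w) (0 : ℝ) := by
    have h6 := fd_gr S s z
    have h7 : HasFDerivAt (gr S s) (gr2 S s z) (z + (0 : ℝ) • w) := by simpa using h6
    have h8 := h7.comp_hasDerivAt (0 : ℝ) (hline 0)
    have h9 := h8.clm_apply (hasDerivAt_const (0 : ℝ) w)
    simpa using h9
  have h6 : 0 ≤ gr2 S s z w w := by
    rw [← h5.deriv]
    have : Monotone fun t : ℝ => gr S s (z + t • w) w := h4 ▸ h3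
    exact this.deriv_nonneg
  rw [gr2_apply] at h6
  exact nonneg_of_mul_nonneg_right h6 hk

end Vale.Agent.P146.H693
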