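import Vale.Agent.P146.H693.Tou

/-!
Row F0 of plan R2, part 2: the touch term is nonnegative.
-/

open MeasureTheory ProbabilityTheory

namespace Vale.Agent.P146.H693

open Vale.Agent.P157.Lv Vale.Agent.P146.H425 Vale.Agent.P146.H325 Vale.Agent.P146.H332
  Vale.Agent.P146.H712 Vale.Agent.P146.H816 Vale.Agent.P146.R1 Vale.Agent.P146.R1C Matrix
  Vale.Agent.P146.R1S

set_option linter.unusedSectionVars false

variable {n : ℕ} {k x : ℝ} (S : CS n k x)

/-- a function of pairs as a symmetric matrix with zero diagonal -/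
def pd2 (f : Pair n → ℝ) (b j : Fin n) : ℝ :=
  if h : b < j then f ⟨(b, j), h⟩ else if h : j < b then f ⟨(j, b), h⟩ else 0

lemma pd2_self (f : Pair n → ℝ) (b : Fin n) : pd2 f b b = 0 := by
  simp [pd2]

lemma pd2_comm (f : Pair n → ℝ) (b j : Fin n) : pd2 f b j = pd2 f j b := by
  unfold pd2
  rcases lt_trichotomy b j with h | h | h
  · simp [h, h.not_gt]
  · subst h; rfl
  · simp [h, h.not_gt]

lemma pd2_pair (f : Pair n → ℝ) (e : Pair n) : pd2 f e.1.1 e.1.2 = f e := by
  have := e.2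
  simp [pd2, this]

lemma pd2_row (f : Pair n → ℝ) {b : Fin n} {e : Pair n} (he : e ∈ H325.row b) :
    pd2 f b (oth b e) = f e := by
  unfold oth
  unfold H325.row at he
  simp only [Finset.mem_filter, Finset.mem_univ, true_and] at he
  by_cases h : e.1.1 = b
  · rw [if_pos h, ← h, pd2_pair]
  · rw [if_neg h, pd2_comm]
    have h2 : e.1.2 = b := by tauto
    rw [← h2, pd2_pair]

lemma sum_pd2 (M : Fin n → Fin n → ℝ) (f : Pair n → ℝ) :
    ∑ b, ∑ j, M b j * pd2 f b j = ∑ e : Pair n, (M e.1.1 e.1.2 + M e.1.2 e.1.1) * f e := by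
  have h1 := sum_pairs (fun b j : Fin n => (M b j + M j b) * pd2 f b j)
    (fun p q => by simp only [pd2_comm f p q]; ring) (fun p => by simp [pd2_self])
  have h2 : ∑ b, ∑ j, (M b j + M j b) * pd2 f b j = 2 * ∑ b, ∑ j, M b j * pd2 f b j := by
    simp only [add_mul, Finset.sum_add_distrib]
    have : ∑ b, ∑ j, M j b * pd2 f b j = ∑ b, ∑ j, M b j * pd2 f b j := by
      rw [Finset.sum_comm]
      exact Finset.sum_congr rfl fun b _ => Finset.sum_congr rfl fun j _ => by
        rw [pd2_comm f j b]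
    rw [this]
    ring
  rw [h2] at h1
  have h3 : ∑ e : Pair n, (M e.1.1 e.1.2 + M e.1.2 e.1.1) * pd2 f e.1.1 e.1.2 =
      ∑ e : Pair n, (M e.1.1 e.1.2 + M e.1.2 e.1.1) * f e :=
    Finset.sum_congr rfl fun e _ => by rw [pd2_pair]
  rw [← h3]
  linarith

lemma A_pd2 (s : ℝ) (e : Pair n) (z : Pair n → ℝ) (i j : Fin n) :
    S.DA s e z i j = pd2 (fun f => S.DA s e z f.1.1 f.1.2) i j := by
  unfold pd2
  rcases lt_trichotomy i j with h | h | h
  · simp [h]
  · subst h; simp [S.DA_self]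
  · simp [h, h.not_gt, S.DA_comm s e z i j]

/-- the Hessian as a matrix on ordered pairs -/
def KK (s : ℝ) (z : Pair n → ℝ) : Matrix (Fin n × Fin n) (Fin n × Fin n) ℝ :=
  fun p r => pd2 (fun e => S.DA s e z p.1 p.2) r.2 r.1

lemma sum_rot4 (f : Fin n → Fin n → Fin n → Fin n → ℝ) :
    ∑ a, ∑ j, ∑ l, ∑ b, f a j l b = ∑ l, ∑ b, ∑ a, ∑ j, f a j l b := by
  have h1 : ∀ a, ∑ j, ∑ l, ∑ b, f a j l b = ∑ l, ∑ b, ∑ j, f a j l b := by
    intro a
    rw [Finset.sum_comm]
    exact Finset.sum_congr rfl fun l _ => Finset.sum_comm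
  simp only [h1]
  rw [Finset.sum_comm]
  exact Finset.sum_congr rfl fun l _ => Finset.sum_comm

lemma KK_eq (s : ℝ) (z : Pair n → ℝ) (p r : Fin n × Fin n) : KK S s z p r =
    pd2 (fun e => pd2 (fun f => S.DA s e z f.1.1 f.1.2) p.1 p.2) r.1 r.2 := by
  unfold KK
  rw [pd2_comm]
  congr 1
  funext e
  rw [A_pd2 S s e z]

lemma pd2_pd2 (G : Pair n → Pair n → ℝ) (hG : ∀ e f, G e f = G f e) (i j p q : Fin n) :
    pd2 (fun e => pd2 (fun f => G e f) i j) p q = pd2 (fun e => pd2 (fun f => G e f) p q) i j := by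
  unfold pd2
  split_ifs <;> first | rfl | exact hG _ _

lemma KK_T (s : ℝ) (z : Pair n → ℝ) : (KK S s z)ᵀ = KK S s z := by
  ext p r
  rw [transpose_apply, KK_eq, KK_eq]
  exact pd2_pd2 _ (fun e f => DA_symm S s e f z) _ _ _ _

theorem KK_psd (s : ℝ) (z : Pair n → ℝ) : Psd (KK S s z) := by
  refine ⟨KK_T S s z, fun c => ?_⟩
  have h := DA_psd S s z fun e => c (e.1.1, e.1.2) + c (e.1.2, e.1.1)
  refine h.trans (le_of_eq ?_)
  have e1 : ∀ p : Fin n × Fin n, ∑ r, c r * KK S s z p r =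
      ∑ e : Pair n, (c (e.1.1, e.1.2) + c (e.1.2, e.1.1)) * S.DA s e z p.1 p.2 := by
    intro p
    rw [← sum_pd2 (fun a b => c (a, b)), Fintype.sum_prod_type]
    refine Finset.sum_congr rfl fun a _ => Finset.sum_congr rfl fun b _ => ?_
    unfold KK
    rw [pd2_comm]
  have e3 : ∀ e : Pair n, ∑ p : Fin n × Fin n, c p * S.DA s e z p.1 p.2 =
      ∑ f : Pair n, (c (f.1.1, f.1.2) + c (f.1.2, f.1.1)) * S.DA s e z f.1.1 f.1.2 := by
    intro e
    rw [← sum_pd2 (fun a b => c (a, b)), Fintype.sum_prod_type]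
    refine Finset.sum_congr rfl fun a _ => Finset.sum_congr rfl fun b _ => ?_
    rw [← A_pd2 S s e z a b]
  have e2 : ∑ p, ∑ r, c p * c r * KK S s z p r = ∑ p, c p * ∑ r, c r * KK S s z p r := by
    refine Finset.sum_congr rfl fun p _ => ?_
    rw [Finset.mul_sum]
    exact Finset.sum_congr rfl fun r _ => by ring
  rw [e2]
  simp only [e1]
  have e4 : ∑ p : Fin n × Fin n, c p * ∑ e : Pair n, (c (e.1.1, e.1.2) + c (e.1.2, e.1.1)) *
      S.DA s e z p.1 p.2 = ∑ e : Pair n, (c (e.1.1, e.1.2) + c (e.1.2, e.1.1)) *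
        ∑ p : Fin n × Fin n, c p * S.DA s e z p.1 p.2 := by
    simp only [Finset.mul_sum]
    rw [Finset.sum_comm]
    refine Finset.sum_congr rfl fun e _ => Finset.sum_congr rfl fun p _ => by ring
  rw [e4]
  refine Finset.sum_congr rfl fun e _ => ?_
  rw [e3, Finset.mul_sum]
  exact Finset.sum_congr rfl fun f _ => by ring

/-- tensor products of positive semidefinite matrices -/
theorem psd_tens {Q C : Matrix (Fin n) (Fin n) ℝ} (hQ : Psd Q) (hC : Psd C) :
    Psd (fun p r : Fin n × Fin n => Q p.1 r.1 * C p.2 r.2 : Matrix _ _ ℝ) := by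
  refine ⟨?_, fun c => ?_⟩
  · ext p r
    have h1 : ∀ i j, Q i j = Q j i := fun i j => congrFun (congrFun hQ.1 j) i
    have h2 : ∀ i j, C i j = C j i := fun i j => congrFun (congrFun hC.1 j) i
    show Q r.1 p.1 * C r.2 p.2 = Q p.1 r.1 * C p.2 r.2
    rw [h1 r.1, h2 r.2]
  · have hY : Psd (fun l b : Fin n => ∑ a, ∑ j, c (a, l) * c (j, b) * Q a j : Matrix _ _ ℝ) := by
      refine ⟨?_, fun d => ?_⟩
      · ext l b
        have h1 : ∀ i j, Q i j = Q j i := fun i j => congrFun (congrFun hQ.1 j) i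
        show (∑ a, ∑ j, c (a, b) * c (j, l) * Q a j) = ∑ a, ∑ j, c (a, l) * c (j, b) * Q a j
        rw [Finset.sum_comm]
        refine Finset.sum_congr rfl fun a _ => Finset.sum_congr rfl fun j _ => ?_
        rw [h1]
        ring
      · have h3 := hQ.2 fun a => ∑ l, d l * c (a, l)
        refine h3.trans (le_of_eq ?_)
        have e1 : ∀ a j, (∑ l, d l * c (a, l)) * (∑ l, d l * c (j, l)) * Q a j =
            ∑ l, ∑ b, d l * d b * (c (a, l) * c (j, b) * Q a j) := by
          intro a j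
          rw [Finset.sum_mul_sum, Finset.sum_mul]
          refine Finset.sum_congr rfl fun l _ => ?_
          rw [Finset.sum_mul]
          exact Finset.sum_congr rfl fun b _ => by ring
        have e2 : ∀ l b, d l * d b * (∑ a, ∑ j, c (a, l) * c (j, b) * Q a j) =
            ∑ a, ∑ j, d l * d b * (c (a, l) * c (j, b) * Q a j) := by
          intro l b
          rw [Finset.mul_sum]
          exact Finset.sum_congr rfl fun a _ => Finset.mul_sum _ _ _
        simp only [e1]
        show _ = ∑ l, ∑ b, d l * d b * (∑ a, ∑ j, c (a, l) * c (j, b) * Q a j)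
        simp only [e2]
        rw [sum_rot4]
    have h4 := hC.sum_mul_nonneg hY
    refine h4.trans (le_of_eq ?_)
    have e3 : ∑ l, ∑ b, C l b * (∑ a, ∑ j, c (a, l) * c (j, b) * Q a j) =
        ∑ l, ∑ b, ∑ a, ∑ j, c (a, l) * c (j, b) * (Q a j * C l b) := by
      refine Finset.sum_congr rfl fun l _ => Finset.sum_congr rfl fun b _ => ?_
      rw [Finset.mul_sum]
      refine Finset.sum_congr rfl fun a _ => ?_
      rw [Finset.mul_sum]
      exact Finset.sum_congr rfl fun j _ => by ring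
    rw [e3, Fintype.sum_prod_type]
    simp only [Fintype.sum_prod_type]
    rw [← sum_rot4 fun a j l b => c (a, l) * c (j, b) * (Q a j * C l b)]
    refine Finset.sum_congr rfl fun a _ => ?_
    rw [Finset.sum_comm]

/-- **The touch term is nonnegative.** -/
theorem touch_nonneg (s : ℝ) (z : Pair n → ℝ) {Q C : Matrix (Fin n) (Fin n) ℝ} (hQ : Psd Q)
    (hC : Psd C) : 0 ≤ ∑ b, ∑ e ∈ H325.row b, ∑ i, ∑ l, Q i (oth b e) * C l b *
      S.DA s e z i l := by
  have h := (KK_psd S s z).sum_mul_nonneg (psd_tens hQ hC)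
  refine h.trans (le_of_eq ?_)
  have e1 : ∀ b, ∑ e ∈ H325.row b, ∑ i, ∑ l, Q i (oth b e) * C l b * S.DA s e z i l =
      ∑ j, ∑ i, ∑ l, Q i j * C l b * pd2 (fun e => S.DA s e z i l) b j := by
    intro b
    rw [← sum_row_all b (G := fun j => ∑ i, ∑ l, Q i j * C l b *
      pd2 (fun e => S.DA s e z i l) b j) (by simp [pd2_self])]
    refine Finset.sum_congr rfl fun e he => Finset.sum_congr rfl fun i _ =>
      Finset.sum_congr rfl fun l _ => ?_
    rw [pd2_row _ he]
  simp only [e1, Fintype.sum_prod_type]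
  rw [sum_rot4 fun b j i l => Q i j * C l b * pd2 (fun e => S.DA s e z i l) b j]
  refine Finset.sum_congr rfl fun i _ => Finset.sum_congr rfl fun l _ => ?_
  rw [Finset.sum_comm]
  refine Finset.sum_congr rfl fun b _ => Finset.sum_congr rfl fun j _ => ?_
  unfold KK
  ring

end Vale.Agent.P146.H693
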