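import Vale.Agent.P146.H693.R3

/-!
Plan R2: the tensor `E_1 [C ⊗ C]` has squared norm at most `n tr (E_1 [C ^ 2] E_1 [C])`: no
flatness of `E_1 [C ^ 2]` is needed.
-/

open MeasureTheory ProbabilityTheory

namespace Vale.Agent.P146.H693

open Vale.Agent.P157.Lv Vale.Agent.P146.H425 Vale.Agent.P146.H325 Vale.Agent.P146.H332
  Vale.Agent.P146.H712 Vale.Agent.P146.H816 Vale.Agent.P146.R1 Vale.Agent.P146.R1C Matrix
  Vale.Agent.P146.R1S
open Vale.Agent.P146.H785 (Ax)

set_option linter.unusedSectionVars false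

variable {n : ℕ} {k x : ℝ} {S : CS n k x} {t2 : ℝ} {m σ : ℕ → ℝ}

/-! ### the mean as a positive linear functional -/

lemma Tl_sum (l : ℕ) (hm : Pm m l) {ι : Type*} (T : Finset ι) {φ : ι → (Pair n → ℝ) → ℝ}
    (h : ∀ a ∈ T, EG (φ a)) (z : Pair n → ℝ) :
    Tl S t2 m σ (fun u => ∑ a ∈ T, φ a u) l z = ∑ a ∈ T, Tl S t2 m σ (φ a) l z := by
  unfold Tl
  rw [TP_sum hU T h l hm]

lemma Tl_const_mul (l : ℕ) (c : ℝ) (φ : (Pair n → ℝ) → ℝ) (z : Pair n → ℝ) :
    Tl S t2 m σ (fun u => c * φ u) l z = c * Tl S t2 m σ φ l z := by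
  unfold Tl
  rw [TD_const_mul]

lemma Tl_lin (l : ℕ) (hm : Pm m l) {ι : Type*} (T : Finset ι) (c : ι → ℝ)
    {φ : ι → (Pair n → ℝ) → ℝ} (h : ∀ a ∈ T, EG (φ a)) (z : Pair n → ℝ) :
    Tl S t2 m σ (fun u => ∑ a ∈ T, c a * φ a u) l z = ∑ a ∈ T, c a * Tl S t2 m σ (φ a) l z := by
  rw [Tl_sum l hm T fun a ha => (h a ha).const_mul _]
  exact Finset.sum_congr rfl fun a _ => Tl_const_mul l _ _ z

lemma Tl_nonneg (l : ℕ) {φ : (Pair n → ℝ) → ℝ} (h : ∀ u, 0 ≤ φ u) (z : Pair n → ℝ) :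
    0 ≤ Tl S t2 m σ φ l z := TP_nonneg h l z

lemma Tl_mono (l : ℕ) (hm : Pm m l) {φ ψ : (Pair n → ℝ) → ℝ} (hφ : EG φ) (hψ : EG ψ)
    (h : ∀ u, φ u ≤ ψ u) (z : Pair n → ℝ) :
    Tl S t2 m σ φ l z ≤ Tl S t2 m σ ψ l z := by
  have h1 : 0 ≤ Tl S t2 m σ (fun u => ψ u + (-1) * φ u) l z :=
    Tl_nonneg l (fun u => by linarith [h u]) z
  unfold Tl at *
  rw [TP_add hU hψ (hφ.const_mul _) l hm, TD_const_mul] at h1
  simp only at h1
  linarith

/-! ### Cauchy–Schwarz for two conditionally independent copies -/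

section two

variable {ι : Type} [Fintype ι] {p q : ι → (Pair n → ℝ) → ℝ}

/-- the matrix of second moments -/
noncomputable def MM (S : CS n k x) (t2 : ℝ) (m σ : ℕ → ℝ) (l : ℕ) (z : Pair n → ℝ)
    (p q : ι → (Pair n → ℝ) → ℝ) (i j : ι) : ℝ :=
  Tl S t2 m σ (fun u => p i u * q j u) l z

lemma two_step (l : ℕ) (hm : Pm m l) (hp : ∀ i, EG (p i)) (hq : ∀ i, EG (q i)) (z : Pair n → ℝ)
    (s : ℝ) (P Q : ι → ℝ) :
    0 ≤ ∑ i, ∑ j, (s ^ 2 * (MM S t2 m σ l z p p i j * (P i * P j)) +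
      (-2 * s) * (MM S t2 m σ l z p q i j * (P i * Q j)) +
      MM S t2 m σ l z q q i j * (Q i * Q j)) := by
  have h1 : 0 ≤ Tl S t2 m σ (fun u => (s * (∑ i, p i u * P i) - ∑ i, q i u * Q i) ^ 2) l z :=
    Tl_nonneg l (fun u => sq_nonneg _) z
  have e1 : (fun u => (s * (∑ i, p i u * P i) - ∑ i, q i u * Q i) ^ 2) = fun u =>
      ∑ r : ι × ι, ((s ^ 2 * (P r.1 * P r.2)) * (p r.1 u * p r.2 u) +
        ((-2 * s * (P r.1 * Q r.2)) * (p r.1 u * q r.2 u) +
          (Q r.1 * Q r.2) * (q r.1 u * q r.2 u))) := by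
    funext u
    have a1 : (∑ i, p i u * P i) * (∑ i, p i u * P i) =
        ∑ i, ∑ j, (P i * P j) * (p i u * p j u) := by
      rw [Finset.sum_mul_sum]
      exact Finset.sum_congr rfl fun i _ => Finset.sum_congr rfl fun j _ => by ring
    have a2 : (∑ i, p i u * P i) * (∑ i, q i u * Q i) =
        ∑ i, ∑ j, (P i * Q j) * (p i u * q j u) := by
      rw [Finset.sum_mul_sum]
      exact Finset.sum_congr rfl fun i _ => Finset.sum_congr rfl fun j _ => by ring
    have a3 : (∑ i, q i u * Q i) * (∑ i, q i u * Q i) =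
        ∑ i, ∑ j, (Q i * Q j) * (q i u * q j u) := by
      rw [Finset.sum_mul_sum]
      exact Finset.sum_congr rfl fun i _ => Finset.sum_congr rfl fun j _ => by ring
    rw [Fintype.sum_prod_type]
    have a4 : (s * (∑ i, p i u * P i) - ∑ i, q i u * Q i) ^ 2 =
        s ^ 2 * ((∑ i, p i u * P i) * (∑ i, p i u * P i)) +
          ((-2 * s) * ((∑ i, p i u * P i) * (∑ i, q i u * Q i)) +
            (∑ i, q i u * Q i) * (∑ i, q i u * Q i)) := by ring
    rw [a4, a1, a2, a3]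
    simp only [Finset.mul_sum, ← Finset.sum_add_distrib]
    exact Finset.sum_congr rfl fun i _ => Finset.sum_congr rfl fun j _ => by ring
  have eg1 : ∀ r : ι × ι, EG fun u => (s ^ 2 * (P r.1 * P r.2)) * (p r.1 u * p r.2 u) +
        ((-2 * s * (P r.1 * Q r.2)) * (p r.1 u * q r.2 u) +
          (Q r.1 * Q r.2) * (q r.1 u * q r.2 u)) := fun r =>
    (((hp _).mul (hp _)).const_mul _).add ((((hp _).mul (hq _)).const_mul _).add
      (((hq _).mul (hq _)).const_mul _))
  rw [e1, Tl_sum l hm _ fun r _ => eg1 r, Fintype.sum_prod_type] at h1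
  refine h1.trans (le_of_eq ?_)
  refine Finset.sum_congr rfl fun i _ => Finset.sum_congr rfl fun j _ => ?_
  unfold MM Tl
  rw [TP_add hU (((hp _).mul (hp _)).const_mul _) ((((hp _).mul (hq _)).const_mul _).add
      (((hq _).mul (hq _)).const_mul _)) l hm]
  simp only
  rw [TP_add hU (((hp _).mul (hq _)).const_mul _) (((hq _).mul (hq _)).const_mul _) l hm,
    TD_const_mul, TD_const_mul, TD_const_mul]
  simp only
  ring

/-- two copies: `(E (p.p') (q.q')) ² ≤ E (p.p')² E (q.q')²` -/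
theorem two_cs (l : ℕ) (hm : Pm m l) (hp : ∀ i, EG (p i)) (hq : ∀ i, EG (q i))
    (z : Pair n → ℝ) :
    (∑ i, ∑ j, MM S t2 m σ l z p q i j ^ 2) ^ 2 ≤
      (∑ i, ∑ j, MM S t2 m σ l z p p i j ^ 2) * ∑ i, ∑ j, MM S t2 m σ l z q q i j ^ 2 := by
  have key : ∀ s : ℝ, 0 ≤ (∑ i, ∑ j, MM S t2 m σ l z p p i j ^ 2) * (s * s) +
      (-2 * ∑ i, ∑ j, MM S t2 m σ l z p q i j ^ 2) * s +
      ∑ i, ∑ j, MM S t2 m σ l z q q i j ^ 2 := by
    intro s
    have h1 : 0 ≤ Tl S t2 m σ (fun u => ∑ r : ι × ι,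
        ((s ^ 2 * MM S t2 m σ l z p p r.1 r.2) * (p r.1 u * p r.2 u) +
          (((-2 * s) * MM S t2 m σ l z p q r.1 r.2) * (p r.1 u * q r.2 u) +
            MM S t2 m σ l z q q r.1 r.2 * (q r.1 u * q r.2 u)))) l z := by
      refine Tl_nonneg l (fun u => ?_) z
      have h2 := two_step (S := S) (t2 := t2) (σ := σ) l hm hp hq z s (fun i => p i u)
        (fun i => q i u)
      rw [Fintype.sum_prod_type]
      refine h2.trans (le_of_eq ?_)
      exact Finset.sum_congr rfl fun i _ => Finset.sum_congr rfl fun j _ => by ring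
    have eg1 : ∀ r : ι × ι, EG fun u =>
        (s ^ 2 * MM S t2 m σ l z p p r.1 r.2) * (p r.1 u * p r.2 u) +
          (((-2 * s) * MM S t2 m σ l z p q r.1 r.2) * (p r.1 u * q r.2 u) +
            MM S t2 m σ l z q q r.1 r.2 * (q r.1 u * q r.2 u)) := fun r =>
      (((hp _).mul (hp _)).const_mul _).add ((((hp _).mul (hq _)).const_mul _).add
        (((hq _).mul (hq _)).const_mul _))
    rw [Tl_sum l hm _ fun r _ => eg1 r, Fintype.sum_prod_type] at h1
    refine h1.trans (le_of_eq ?_)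
    have e2 : ∀ i j, Tl S t2 m σ (fun u =>
        (s ^ 2 * MM S t2 m σ l z p p i j) * (p i u * p j u) +
          (((-2 * s) * MM S t2 m σ l z p q i j) * (p i u * q j u) +
            MM S t2 m σ l z q q i j * (q i u * q j u))) l z =
        s * s * MM S t2 m σ l z p p i j ^ 2 + (-2 * s) * MM S t2 m σ l z p q i j ^ 2 +
          MM S t2 m σ l z q q i j ^ 2 := by
      intro i j
      have a1 : Tl S t2 m σ (fun u =>
        (s ^ 2 * MM S t2 m σ l z p p i j) * (p i u * p j u) +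
          (((-2 * s) * MM S t2 m σ l z p q i j) * (p i u * q j u) +
            MM S t2 m σ l z q q i j * (q i u * q j u))) l z =
          (s ^ 2 * MM S t2 m σ l z p p i j) * MM S t2 m σ l z p p i j +
          (((-2 * s) * MM S t2 m σ l z p q i j) * MM S t2 m σ l z p q i j +
            MM S t2 m σ l z q q i j * MM S t2 m σ l z q q i j) := by
        unfold Tl
        rw [TP_add hU (((hp _).mul (hp _)).const_mul _) ((((hp _).mul (hq _)).const_mul _).add
          (((hq _).mul (hq _)).const_mul _)) l hm]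
        simp only
        rw [TP_add hU (((hp _).mul (hq _)).const_mul _) (((hq _).mul (hq _)).const_mul _) l hm,
          TD_const_mul, TD_const_mul, TD_const_mul]
        rfl
      rw [a1]
      ring
    simp only [e2]
    simp only [Finset.mul_sum, Finset.sum_mul, ← Finset.sum_add_distrib]
    exact Finset.sum_congr rfl fun i _ => Finset.sum_congr rfl fun j _ => by ring
  have h3 := discrim_le_zero key
  unfold discrim at h3
  nlinarith

end two

/-! ### the form bound -/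

/-- `(P' C e_a)² ≤ P' C P`, since `C_aa = 1` -/
lemma col_form (t : ℝ) (u : Pair n → ℝ) (P : Fin n → ℝ) (a : Fin n) :
    (∑ i, S.A t u i a * P i) ^ 2 ≤ ∑ i, ∑ j, P i * P j * S.A t u i j := by
  have h : ∀ s : ℝ, 0 ≤ S.A t u a a * (s * s) + (2 * ∑ i, S.A t u i a * P i) * s +
      ∑ i, ∑ j, P i * P j * S.A t u i j := by
    intro s
    have h1 := (S.psd_A t u).2 fun i => P i + s * (if i = a then 1 else 0)
    refine h1.trans (le_of_eq ?_)
    have e1 : ∀ i j, (P i + s * (if i = a then 1 else 0)) * (P j + s * (if j = a then 1 else 0)) *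
        S.A t u i j = P i * P j * S.A t u i j +
          (s * (if i = a then P j * S.A t u i j else 0) +
            (s * (if j = a then P i * S.A t u i j else 0) +
              s * s * (if i = a then (if j = a then S.A t u i j else 0) else 0))) := by
      intro i j
      split_ifs <;> ring
    simp only [e1, Finset.sum_add_distrib, ← Finset.mul_sum, Finset.sum_ite_eq',
      Finset.mem_univ, if_true]
    have e2 : ∑ i, (if i = a then ∑ j, (if j = a then S.A t u i j else 0) else 0) =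
        S.A t u a a := by simp
    have e3 : ∑ i, ∑ j, (if i = a then P j * S.A t u i j else 0) =
        ∑ i, S.A t u i a * P i := by
      have : ∀ i, ∑ j, (if i = a then P j * S.A t u i j else 0) =
          if i = a then ∑ j, P j * S.A t u i j else 0 := by
        intro i
        split_ifs <;> simp
      simp only [this, Finset.sum_ite_eq', Finset.mem_univ, if_true]
      exact Finset.sum_congr rfl fun j _ => by rw [S.A_comm t u a j]; ring
    have e4 : ∑ i, ∑ j, (if i = a then (if j = a then S.A t u i j else 0) else 0) =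
        S.A t u a a := by
      have : ∀ i, ∑ j, (if i = a then (if j = a then S.A t u i j else 0) else 0) =
          if i = a then S.A t u i a else 0 := by
        intro i
        split_ifs <;> simp
      simp only [this, Finset.sum_ite_eq', Finset.mem_univ, if_true]
    rw [e3, e4]
    have e5 : ∑ i, P i * S.A t u i a = ∑ i, S.A t u i a * P i :=
      Finset.sum_congr rfl fun i _ => mul_comm _ _
    rw [e5]
    ring
  have h2 := discrim_le_zero h
  unfold discrim at h2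
  rw [S.A_self] at h2
  nlinarith

/-- the column `a` of `C` -/
def colA (S : CS n k x) (t2 : ℝ) (a i : Fin n) (u : Pair n → ℝ) : ℝ := S.A t2 u i a

lemma eg_colA (a i : Fin n) : EG (colA S t2 a i) := S.eg_A t2 i a

/-- **The form bound**: `|E_1 [C e_a e_a' C]|² ≤ <E_1 [C e_a e_a' C], E_1 [C]>`. -/
theorem gam_form (l : ℕ) (hm : Pm m l) (a : Fin n) (z : Pair n → ℝ) :
    ∑ i, ∑ j, MM S t2 m σ l z (colA S t2 a) (colA S t2 a) i j ^ 2 ≤
      ∑ i, ∑ j, MM S t2 m σ l z (colA S t2 a) (colA S t2 a) i j * Cl S t2 m σ l i j z := by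
  -- a fixed vector
  have st1 : ∀ P : Fin n → ℝ, ∑ i, ∑ j, MM S t2 m σ l z (colA S t2 a) (colA S t2 a) i j *
      (P i * P j) ≤ ∑ i, ∑ j, Cl S t2 m σ l i j z * (P i * P j) := by
    intro P
    have e1 : ∑ i, ∑ j, MM S t2 m σ l z (colA S t2 a) (colA S t2 a) i j * (P i * P j) =
        Tl S t2 m σ (fun u => ∑ r : Fin n × Fin n, (P r.1 * P r.2) *
          (colA S t2 a r.1 u * colA S t2 a r.2 u)) l z := by
      rw [Tl_lin l hm _ _ fun r _ => (eg_colA a r.1).mul (eg_colA a r.2), Fintype.sum_prod_type]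
      exact Finset.sum_congr rfl fun i _ => Finset.sum_congr rfl fun j _ => by
        rw [mul_comm]
        rfl
    have e2 : ∑ i, ∑ j, Cl S t2 m σ l i j z * (P i * P j) =
        Tl S t2 m σ (fun u => ∑ r : Fin n × Fin n, (P r.1 * P r.2) * S.A t2 u r.1 r.2) l z := by
      rw [Tl_lin l hm _ _ fun r _ => S.eg_A t2 r.1 r.2, Fintype.sum_prod_type]
      exact Finset.sum_congr rfl fun i _ => Finset.sum_congr rfl fun j _ => by
        rw [mul_comm]
        rfl
    rw [e1, e2]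
    refine Tl_mono l hm (EG.sum _ fun r _ => ((eg_colA a r.1).mul (eg_colA a r.2)).const_mul _)
      (EG.sum _ fun r _ => (S.eg_A t2 r.1 r.2).const_mul _) (fun u => ?_) z
    have h1 := col_form (S := S) t2 u P a
    rw [Fintype.sum_prod_type, Fintype.sum_prod_type]
    refine le_trans (le_of_eq ?_) h1
    rw [_root_.sq, Finset.sum_mul_sum]
    exact Finset.sum_congr rfl fun i _ => Finset.sum_congr rfl fun j _ => by
      unfold colA
      ring
  -- the second copy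
  have e1 : ∑ i, ∑ j, MM S t2 m σ l z (colA S t2 a) (colA S t2 a) i j ^ 2 =
      Tl S t2 m σ (fun u => ∑ r : Fin n × Fin n,
        MM S t2 m σ l z (colA S t2 a) (colA S t2 a) r.1 r.2 *
          (colA S t2 a r.1 u * colA S t2 a r.2 u)) l z := by
    rw [Tl_lin l hm _ _ fun r _ => (eg_colA a r.1).mul (eg_colA a r.2), Fintype.sum_prod_type]
    exact Finset.sum_congr rfl fun i _ => Finset.sum_congr rfl fun j _ => _root_.sq _
  have e2 : ∑ i, ∑ j, MM S t2 m σ l z (colA S t2 a) (colA S t2 a) i j * Cl S t2 m σ l i j z =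
      Tl S t2 m σ (fun u => ∑ r : Fin n × Fin n, Cl S t2 m σ l r.1 r.2 z *
          (colA S t2 a r.1 u * colA S t2 a r.2 u)) l z := by
    rw [Tl_lin l hm _ _ fun r _ => (eg_colA a r.1).mul (eg_colA a r.2), Fintype.sum_prod_type]
    exact Finset.sum_congr rfl fun i _ => Finset.sum_congr rfl fun j _ => mul_comm _ _
  rw [e1, e2]
  refine Tl_mono l hm (EG.sum _ fun r _ => ((eg_colA a r.1).mul (eg_colA a r.2)).const_mul _)
    (EG.sum _ fun r _ => ((eg_colA a r.1).mul (eg_colA a r.2)).const_mul _) (fun u => ?_) z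
  have h1 := st1 fun i => colA S t2 a i u
  rw [Fintype.sum_prod_type, Fintype.sum_prod_type]
  exact h1

/-- `Σ_a |E_1 [C e_a e_a' C]|² ≤ tr (E_1 [C ^ 2] E_1 [C])` -/
theorem sum_gam (l : ℕ) (hm : Pm m l) (z : Pair n → ℝ) :
    ∑ a, ∑ i, ∑ j, MM S t2 m σ l z (colA S t2 a) (colA S t2 a) i j ^ 2 ≤
      ∑ i, ∑ j, QR S t2 m σ l z i j * Cl S t2 m σ l i j z := by
  refine (Finset.sum_le_sum fun a _ => gam_form l hm a z).trans (le_of_eq ?_)
  rw [Finset.sum_comm]
  refine Finset.sum_congr rfl fun i _ => ?_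
  rw [Finset.sum_comm]
  refine Finset.sum_congr rfl fun j _ => ?_
  rw [← Finset.sum_mul]
  congr 1
  have e1 : A2 S t2 i j = fun u => ∑ a, colA S t2 a i u * colA S t2 a j u := by
    funext u
    unfold A2 colA
    exact Finset.sum_congr rfl fun a _ => by rw [S.A_comm t2 u a j]
  unfold QR Gl
  rw [e1, Tl_sum l hm _ fun a _ => (eg_colA a i).mul (eg_colA a j)]
  rfl

/-- the squared norm of `E_1 [C ⊗ C]` -/
noncomputable def TT (S : CS n k x) (t2 : ℝ) (m σ : ℕ → ℝ) (l : ℕ) (z : Pair n → ℝ) : ℝ :=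
  ∑ a, ∑ b, ∑ i, ∑ j, MM S t2 m σ l z (colA S t2 a) (colA S t2 b) i j ^ 2

/-- **`|E_1 [C ⊗ C]|² ≤ n tr (E_1 [C ^ 2] E_1 [C])`.** -/
theorem TT_le (l : ℕ) (hm : Pm m l) (z : Pair n → ℝ) :
    TT S t2 m σ l z ≤ n * ∑ i, ∑ j, QR S t2 m σ l z i j * Cl S t2 m σ l i j z := by
  set G : Fin n → ℝ := fun a => ∑ i, ∑ j, MM S t2 m σ l z (colA S t2 a) (colA S t2 a) i j ^ 2
    with hG
  have hG0 : ∀ a, 0 ≤ G a := fun a => Finset.sum_nonneg fun i _ => Finset.sum_nonneg fun j _ =>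
    sq_nonneg _
  have h1 : ∀ a b, ∑ i, ∑ j, MM S t2 m σ l z (colA S t2 a) (colA S t2 b) i j ^ 2 ≤
      √(G a) * √(G b) := by
    intro a b
    have h := two_cs (S := S) (t2 := t2) (σ := σ) l hm (p := colA S t2 a) (q := colA S t2 b)
      (eg_colA a) (eg_colA b) z
    rw [← Real.sqrt_mul (hG0 a)]
    exact Real.le_sqrt_of_sq_le h
  have h2 : TT S t2 m σ l z ≤ (∑ a, √(G a)) ^ 2 := by
    unfold TT
    rw [_root_.sq, Finset.sum_mul_sum]
    exact Finset.sum_le_sum fun a _ => Finset.sum_le_sum fun b _ => h1 a b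
  have h3 : (∑ a, √(G a)) ^ 2 ≤ n * ∑ a, G a := by
    have h := sq_sum_le_card_mul_sum_sq (s := (Finset.univ : Finset (Fin n)))
      (f := fun a => √(G a))
    rw [Finset.card_univ, Fintype.card_fin] at h
    refine h.trans (le_of_eq ?_)
    congr 1
    exact Finset.sum_congr rfl fun a _ => Real.sq_sqrt (hG0 a)
  refine h2.trans (h3.trans (mul_le_mul_of_nonneg_left ?_ (Nat.cast_nonneg n)))
  exact sum_gam l hm z

/-! ### the error of the exact row F01 -/

lemma eg_MM (l : ℕ) (hm : Pm m l) (a b i j : Fin n) :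
    EG fun z => MM S t2 m σ l z (colA S t2 a) (colA S t2 b) i j :=
  eg_Tl ((eg_colA a i).mul (eg_colA b j)) l hm

/-- the mean of `Σ_e (C (∂_e Y) C)_e`, `Y = E_1 [C ^ 2]`, given the deep position -/
noncomputable def XUz (S : CS n k x) (t2 : ℝ) (m σ : ℕ → ℝ) (l : ℕ) (z : Pair n → ℝ) : ℝ :=
  ∑ e : Pair n, ∑ i, ∑ j, DR S t2 m σ l i j e z *
    MM S t2 m σ l z (colA S t2 e.1.1) (colA S t2 e.1.2) i j

/-- the energy of `Y = E_1 [C ^ 2]` -/
noncomputable def EnD (S : CS n k x) (t2 : ℝ) (m σ : ℕ → ℝ) (l : ℕ) (c : ℝ) : ℝ :=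
  ∫ g, ∑ e : Pair n, ∑ i, ∑ j, DR S t2 m σ l i j e (c • g) ^ 2 ∂(gI (Pair n))

/-- `E tr (Y C)` -/
noncomputable def nB (S : CS n k x) (t2 : ℝ) (m σ : ℕ → ℝ) (l : ℕ) (c : ℝ) : ℝ :=
  ∫ g, ∑ i, ∑ j, QR S t2 m σ l (c • g) i j * Cl S t2 m σ l i j (c • g) ∂(gI (Pair n))

lemma sum_pair_le {f : Fin n → Fin n → ℝ} (hf : ∀ a b, 0 ≤ f a b) :
    ∑ e : Pair n, f e.1.1 e.1.2 ≤ ∑ a, ∑ b, f a b := by
  have h1 : ∑ a, ∑ b, f a b = ∑ p : Fin n × Fin n, f p.1 p.2 := by
    rw [Fintype.sum_prod_type]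
  rw [h1]
  have h2 : ∑ e : Pair n, f e.1.1 e.1.2 = ∑ p ∈ (Finset.univ : Finset (Pair n)).map
      (Function.Embedding.subtype _), f p.1 p.2 := by
    rw [Finset.sum_map]
    rfl
  rw [h2]
  exact Finset.sum_le_sum_of_subset_of_nonneg (Finset.subset_univ _) fun p _ _ => hf _ _

lemma XUz_le (l : ℕ) (hm : Pm m l) {s : ℝ} (hs : 0 < s) (z : Pair n → ℝ) :
    |XUz S t2 m σ l z| ≤ s / 2 * (∑ e : Pair n, ∑ i, ∑ j, DR S t2 m σ l i j e z ^ 2) +
      1 / (2 * s) * (n * ∑ i, ∑ j, QR S t2 m σ l z i j * Cl S t2 m σ l i j z) := by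
  have h1 : ∀ a b : ℝ, |a * b| ≤ s / 2 * a ^ 2 + 1 / (2 * s) * b ^ 2 := by
    intro a b
    rw [abs_le]
    have e1 : 0 ≤ (s * a - b) ^ 2 / (2 * s) := by positivity
    have e2 : 0 ≤ (s * a + b) ^ 2 / (2 * s) := by positivity
    have e3 : (s * a - b) ^ 2 / (2 * s) = s / 2 * a ^ 2 + 1 / (2 * s) * b ^ 2 - a * b := by
      field_simp; ring
    have e4 : (s * a + b) ^ 2 / (2 * s) = s / 2 * a ^ 2 + 1 / (2 * s) * b ^ 2 + a * b := by
      field_simp; ring
    constructor <;> linarith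
  have h2 : |XUz S t2 m σ l z| ≤ ∑ e : Pair n, ∑ i, ∑ j,
      (s / 2 * DR S t2 m σ l i j e z ^ 2 +
        1 / (2 * s) * MM S t2 m σ l z (colA S t2 e.1.1) (colA S t2 e.1.2) i j ^ 2) := by
    unfold XUz
    refine (Finset.abs_sum_le_sum_abs _ _).trans (Finset.sum_le_sum fun e _ => ?_)
    refine (Finset.abs_sum_le_sum_abs _ _).trans (Finset.sum_le_sum fun i _ => ?_)
    exact (Finset.abs_sum_le_sum_abs _ _).trans (Finset.sum_le_sum fun j _ => h1 _ _)
  refine h2.trans ?_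
  simp only [Finset.sum_add_distrib, ← Finset.mul_sum]
  have h3 := sum_pair_le (n := n) (f := fun a b => ∑ i, ∑ j,
    MM S t2 m σ l z (colA S t2 a) (colA S t2 b) i j ^ 2) fun a b =>
      Finset.sum_nonneg fun i _ => Finset.sum_nonneg fun j _ => sq_nonneg _
  have h4 := h3.trans (TT_le (S := S) (t2 := t2) (σ := σ) l hm z)
  have h5 := mul_le_mul_of_nonneg_left h4 (show 0 ≤ 1 / (2 * s) by positivity)
  linarith

lemma eg_XUz (l : ℕ) (hm : Pm m l) : EG fun z => XUz S t2 m σ l z :=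
  EG.sum _ fun e _ => EG.sum _ fun i _ => EG.sum _ fun j _ =>
    (eg_DR l hm i j e).mul (eg_MM l hm _ _ i j)

lemma eg_QC (l : ℕ) (hm : Pm m l) :
    EG fun z => ∑ i, ∑ j, QR S t2 m σ l z i j * Cl S t2 m σ l i j z :=
  EG.sum _ fun i _ => EG.sum _ fun j _ => (eg_QR l hm i j).mul (eg_Cl l hm i j)

lemma eg_D2 (l : ℕ) (hm : Pm m l) :
    EG fun z => ∑ e : Pair n, ∑ i, ∑ j, DR S t2 m σ l i j e z ^ 2 :=
  EG.sum _ fun e _ => EG.sum _ fun i _ => EG.sum _ fun j _ => (eg_DR l hm i j e).pow 2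

/-- **The error of the exact row F01**, in the form of Young's inequality. -/
theorem XU_young (l : ℕ) (hm : Pm m l) (c : ℝ) {s : ℝ} (hs : 0 < s) :
    |∫ g, XUz S t2 m σ l (c • g) ∂(gI (Pair n))| ≤
      s / 2 * EnD S t2 m σ l c + 1 / (2 * s) * (n * nB S t2 m σ l c) := by
  have i1 := (eg_scale (eg_D2 (S := S) (t2 := t2) (σ := σ) l hm) c).integrable
  have i2 := (eg_scale (eg_QC (S := S) (t2 := t2) (σ := σ) l hm) c).integrable
  have h1 : |∫ g, XUz S t2 m σ l (c • g) ∂(gI (Pair n))| ≤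
      ∫ g, |XUz S t2 m σ l (c • g)| ∂(gI (Pair n)) := abs_integral_le_integral_abs
  refine h1.trans ?_
  have h2 : ∫ g, |XUz S t2 m σ l (c • g)| ∂(gI (Pair n)) ≤
      ∫ g, (s / 2 * (∑ e : Pair n, ∑ i, ∑ j, DR S t2 m σ l i j e (c • g) ^ 2) +
        1 / (2 * s) * (n * ∑ i, ∑ j, QR S t2 m σ l (c • g) i j *
          Cl S t2 m σ l i j (c • g))) ∂(gI (Pair n)) :=
    integral_mono (eg_scale (eg_XUz (S := S) (t2 := t2) (σ := σ) l hm) c).integrable.abs
      ((i1.const_mul _).add ((i2.const_mul _).const_mul _)) fun g => XUz_le l hm hs (c • g)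
  refine h2.trans (le_of_eq ?_)
  rw [integral_add (i1.const_mul _) ((i2.const_mul _).const_mul _), integral_const_mul,
    integral_const_mul, integral_const_mul]
  rfl

lemma EnD_nonneg (l : ℕ) (c : ℝ) : 0 ≤ EnD S t2 m σ l c :=
  integral_nonneg fun _ => Finset.sum_nonneg fun _ _ => Finset.sum_nonneg fun _ _ =>
    Finset.sum_nonneg fun _ _ => sq_nonneg _

lemma TT_nonneg (l : ℕ) (z : Pair n → ℝ) : 0 ≤ TT S t2 m σ l z :=
  Finset.sum_nonneg fun _ _ => Finset.sum_nonneg fun _ _ => Finset.sum_nonneg fun _ _ =>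
    Finset.sum_nonneg fun _ _ => sq_nonneg _

lemma nnB_nonneg (l : ℕ) (hm : Pm m l) (c : ℝ) : 0 ≤ n * nB S t2 m σ l c := by
  unfold nB
  rw [← integral_const_mul]
  exact integral_nonneg fun g => (TT_nonneg l (c • g)).trans (TT_le l hm (c • g))

/-- **The error of the exact row F01.** -/
theorem XU_le (l : ℕ) (hm : Pm m l) (c : ℝ) :
    |∫ g, XUz S t2 m σ l (c • g) ∂(gI (Pair n))| ≤
      √(EnD S t2 m σ l c) * √(n * nB S t2 m σ l c) := by
  set X := |∫ g, XUz S t2 m σ l (c • g) ∂(gI (Pair n))| with hX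
  set P := EnD S t2 m σ l c with hP
  set R := n * nB S t2 m σ l c with hR
  have hP0 : 0 ≤ P := EnD_nonneg l c
  have hX0 : 0 ≤ X := abs_nonneg _
  have key : ∀ s : ℝ, 0 < s → X ≤ s / 2 * P + 1 / (2 * s) * R := fun s hs =>
    XU_young l hm c hs
  rw [← Real.sqrt_mul hP0]
  refine Real.le_sqrt_of_sq_le ?_
  have h : ∀ s : ℝ, 0 ≤ P * (s * s) + (-2 * X) * s + R := by
    intro s
    rcases le_or_gt s 0 with hs | hs
    · have hR0 : 0 ≤ R := nnB_nonneg l hm c
      nlinarith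
    · have h1 := mul_le_mul_of_nonneg_left (key s hs) (show 0 ≤ 2 * s by positivity)
      have h2 : 2 * s * (s / 2 * P + 1 / (2 * s) * R) = P * (s * s) + R := by
        field_simp
      linarith
  have h2 := discrim_le_zero h
  unfold discrim at h2
  nlinarith

end Vale.Agent.P146.H693
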